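import Vale.Agent.P182.H62.RichBC
import Vale.Agent.P182.H361.NoHIn
import Vale.Agent.P182.H922.CritN

/-!
# The null case for the full theorem `T`

Critical configurations over a rich algebraically closed field are `CritN`; hence `HypT` follows
from the null case.
-/

namespace Vale.Agent.P182.H62

open Module Matrix TensorProduct Vale.Agent.P182.H533 Vale.Agent.P182.B1 Vale.Agent.P182.H258

universe u

variable {J : Type u} [Fintype J]

/-- a critical configuration over a rich field is `CritN` -/
theorem critN_of_critT {L V : Type u} [Field L] [CharZero L] [AddCommGroup V] [Module L V]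
    [FiniteDimensional L V] {𝒟 : Cfg L V J} (hr : 𝒟.Rich) (h : CritT.{u, u} 𝒟) :
    H922.CritN 𝒟 := by
  classical
  have hy : Hyp 𝒟 := ⟨h.good, h.versal, h.strict, h.ih, h.finrank_K⟩
  exact
    { good := h.good
      versal := h.versal
      rich := hr
      semi := H361.semistable_of_uStrict h.strict
      dim := h.finrank_K
      noIso := fun w hw hww => hy.iso_eq_zero' (H361.noHIn J) hw hww }

/-- **`T` follows from the null case.** -/
theorem hypT_of_null
    (h4 : ∀ (L : Type u) [Field L] [CharZero L] [IsAlgClosed L] [DecidableEq J],
      H922.HypNull4.{u, u, u} L J)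
    (hR : ∀ (L : Type u) [Field L] [CharZero L] [IsAlgClosed L] [DecidableEq J],
      H922.HypGenT.{u, u, u} L J) : HypT.{u, u} J := by
  classical
  refine hypT_of_rich fun L V _ _ _ _ _ _ 𝒟 hr h => ?_
  exact H922.not_critN (h4 L) (hR L) 𝒟 (critN_of_critT hr h)

end Vale.Agent.P182.H62
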