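import Vale.Agent.P182.H533.Core
import Mathlib.LinearAlgebra.BilinearForm.Orthogonal

/-!
# The subquotient `S^⊥ / S` of a quadratic space
-/

namespace Vale.Agent.P182.H62

open Module Vale.Agent.P182.H533

section perp

variable {L V : Type*} [Field L] [AddCommGroup V] [Module L V] {q : V →ₗ[L] V →ₗ[L] L}

theorem perp_anti {A B : Submodule L V} (h : A ≤ B) : perp q B ≤ perp q A :=
  fun _ hv w hw => hv w (h hw)

theorem perp_sup (A B : Submodule L V) : perp q (A ⊔ B) = perp q A ⊓ perp q B := by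
  refine le_antisymm (le_inf (perp_anti le_sup_left) (perp_anti le_sup_right)) ?_
  rintro v ⟨h1, h2⟩ w hw
  obtain ⟨a, ha, b, hb, rfl⟩ := Submodule.mem_sup.mp hw
  rw [map_add, h1 a ha, h2 b hb, add_zero]

theorem perp_bot : perp q (⊥ : Submodule L V) = ⊤ := by
  rw [eq_top_iff]
  intro v _ w hw
  rw [(Submodule.mem_bot L).mp hw, map_zero]

theorem perp_top (hq : IsForm q) : perp q (⊤ : Submodule L V) = ⊥ := by
  rw [eq_bot_iff]
  intro v hv
  exact (Submodule.mem_bot L).mpr (hq.nondeg v fun w => hv w trivial)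

theorem perp_eq_orthogonal (hq : IsForm q) (A : Submodule L V) :
    perp q A = LinearMap.BilinForm.orthogonal q A := by
  ext v
  rw [mem_perp, LinearMap.BilinForm.mem_orthogonal_iff]
  refine forall₂_congr fun w _ => ?_
  rw [hq.symm]

theorem IsForm_nondegenerate (hq : IsForm q) : LinearMap.BilinForm.Nondegenerate q := by
  refine ⟨?_, ?_⟩
  · intro u hu
    exact hq.nondeg u hu
  · intro u hu
    exact hq.nondeg u fun v => by rw [hq.symm]; exact hu v

theorem IsForm_isRefl (hq : IsForm q) : LinearMap.BilinForm.IsRefl q :=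
  fun u v h => by rw [hq.symm]; exact h

variable [FiniteDimensional L V]

theorem perp_perp (hq : IsForm q) (A : Submodule L V) : perp q (perp q A) = A := by
  rw [perp_eq_orthogonal hq, perp_eq_orthogonal hq]
  exact LinearMap.BilinForm.orthogonal_orthogonal (IsForm_nondegenerate hq) (IsForm_isRefl hq) A

theorem finrank_perp (hq : IsForm q) (A : Submodule L V) :
    finrank L A + finrank L (perp q A) = finrank L V := by
  have h1 := LinearMap.BilinForm.finrank_orthogonal (IsForm_nondegenerate hq) A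
  rw [perp_eq_orthogonal hq, h1]
  have := Submodule.finrank_le A
  omega

theorem perp_inf (hq : IsForm q) (A B : Submodule L V) :
    perp q (A ⊓ B) = perp q A ⊔ perp q B := by
  rw [← perp_perp hq (perp q A ⊔ perp q B), perp_sup, perp_perp hq, perp_perp hq]

end perp

section subquo

variable {L V : Type*} [Field L] [AddCommGroup V] [Module L V]

/-- the subquotient `S^⊥ / S` -/
abbrev SQ (q : V →ₗ[L] V →ₗ[L] L) (S : Submodule L V) : Type _ :=
  ↥(perp q S) ⧸ S.comap (perp q S).subtype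

variable {q : V →ₗ[L] V →ₗ[L] L} (S : Submodule L V)

/-- the quotient map -/
def SQmk : ↥(perp q S) →ₗ[L] SQ q S := Submodule.mkQ _

theorem SQmk_surjective : Function.Surjective (SQmk (q := q) S) := Submodule.mkQ_surjective _

theorem SQmk_eq_zero {u : ↥(perp q S)} : SQmk S u = 0 ↔ (u : V) ∈ S := by
  rw [SQmk, Submodule.mkQ_apply, Submodule.Quotient.mk_eq_zero, Submodule.mem_comap]
  rfl

theorem SQmk_ker : LinearMap.ker (SQmk (q := q) S) = S.comap (perp q S).subtype :=
  Submodule.ker_mkQ _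

/-- the form on the subquotient, one variable at a time -/
def qSQ1 (hq : IsForm q) : SQ q S →ₗ[L] ↥(perp q S) →ₗ[L] L :=
  (S.comap (perp q S).subtype).liftQ (q.domRestrict₁₂ (perp q S) (perp q S)) (by
    intro u hu
    rw [LinearMap.mem_ker]
    ext v
    show q u v = 0
    rw [hq.symm]
    exact v.2 u hu)

theorem qSQ1_apply (hq : IsForm q) (u v : ↥(perp q S)) : qSQ1 S hq (SQmk S u) v = q u v := rfl

/-- the form on the subquotient -/
def qSQ (hq : IsForm q) : SQ q S →ₗ[L] SQ q S →ₗ[L] L :=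
  ((S.comap (perp q S).subtype).liftQ (qSQ1 S hq).flip (by
    intro u hu
    rw [LinearMap.mem_ker]
    ext v
    show q v u = 0
    exact v.2 u hu)).flip

theorem qSQ_apply (hq : IsForm q) (u v : ↥(perp q S)) :
    qSQ S hq (SQmk S u) (SQmk S v) = q u v := rfl

theorem isForm_qSQ [FiniteDimensional L V] (hq : IsForm q) : IsForm (qSQ S hq) where
  symm := fun u v => by
    obtain ⟨u, rfl⟩ := SQmk_surjective S u
    obtain ⟨v, rfl⟩ := SQmk_surjective S v
    rw [qSQ_apply, qSQ_apply, hq.symm]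
  nondeg := fun u hu => by
    obtain ⟨u, rfl⟩ := SQmk_surjective S u
    rw [SQmk_eq_zero]
    have h1 : (u : V) ∈ perp q (perp q S) := fun v hv => hu (SQmk S ⟨v, hv⟩)
    rwa [perp_perp hq] at h1

/-- the trace of a subspace on the subquotient -/
def SQim (W : Submodule L V) : Submodule L (SQ q S) :=
  (W.comap (perp q S).subtype).map (SQmk S)

/-- the preimage of a subspace of the subquotient -/
def SQpre (T : Submodule L (SQ q S)) : Submodule L V :=
  (T.comap (SQmk S)).map (perp q S).subtype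

theorem mem_SQim {W : Submodule L V} {x : SQ q S} :
    x ∈ SQim S W ↔ ∃ w : ↥(perp q S), (w : V) ∈ W ∧ SQmk S w = x := by
  rw [SQim, Submodule.mem_map]; rfl

theorem mem_SQpre {T : Submodule L (SQ q S)} {v : V} :
    v ∈ SQpre S T ↔ ∃ h : v ∈ perp q S, SQmk S ⟨v, h⟩ ∈ T := by
  rw [SQpre, Submodule.mem_map]
  constructor
  · rintro ⟨w, hw, rfl⟩
    exact ⟨w.2, hw⟩
  · rintro ⟨h, hT⟩
    exact ⟨⟨v, h⟩, hT, rfl⟩

theorem SQmk_mem_SQim {W : Submodule L V} {u : ↥(perp q S)} (hu : (u : V) ∈ W) :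
    SQmk S u ∈ SQim S W := (mem_SQim S).mpr ⟨u, hu, rfl⟩

theorem SQmk_mem_SQim_iff {W : Submodule L V} (hS : S ≤ perp q S) {u : ↥(perp q S)} :
    SQmk S u ∈ SQim S W ↔ (u : V) ∈ W ⊔ S := by
  rw [mem_SQim]
  constructor
  · rintro ⟨w, hw, h⟩
    have h1 : SQmk S (u - w) = 0 := by rw [map_sub, h, sub_self]
    rw [SQmk_eq_zero] at h1
    have h2 : (u : V) = w + (u - w : ↥(perp q S)) := by
      rw [Submodule.coe_sub]; abel
    rw [h2]
    exact Submodule.add_mem_sup hw h1
  · intro h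
    obtain ⟨w, hw, s, hs, h⟩ := Submodule.mem_sup.mp h
    have hw' : w ∈ perp q S := by
      have : w = u - s := by rw [← h]; abel
      rw [this]
      exact Submodule.sub_mem _ u.2 (hS hs)
    refine ⟨⟨w, hw'⟩, hw, ?_⟩
    rw [← sub_eq_zero, ← map_sub, SQmk_eq_zero]
    have : ((⟨w, hw'⟩ - u : ↥(perp q S)) : V) = - s := by
      rw [Submodule.coe_sub, ← h]
      show w - (w + s) = -s
      abel
    rw [this]
    exact Submodule.neg_mem _ hs

theorem SQpre_le (T : Submodule L (SQ q S)) : SQpre S T ≤ perp q S := by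
  intro v hv
  exact ((mem_SQpre S).mp hv).1

theorem le_SQpre (hS : S ≤ perp q S) (T : Submodule L (SQ q S)) : S ≤ SQpre S T := by
  intro s hs
  refine (mem_SQpre S).mpr ⟨hS hs, ?_⟩
  have : SQmk (q := q) S ⟨s, hS hs⟩ = 0 := (SQmk_eq_zero S).mpr hs
  rw [this]
  exact Submodule.zero_mem _

theorem SQim_mono {W W' : Submodule L V} (h : W ≤ W') : SQim (q := q) S W ≤ SQim S W' :=
  Submodule.map_mono (Submodule.comap_mono h)

theorem SQpre_mono {T T' : Submodule L (SQ q S)} (h : T ≤ T') : SQpre S T ≤ SQpre S T' :=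
  Submodule.map_mono (Submodule.comap_mono h)

theorem SQim_bot : SQim (q := q) S ⊥ = ⊥ := by
  rw [eq_bot_iff]
  intro x hx
  obtain ⟨w, hw, rfl⟩ := (mem_SQim S).mp hx
  have : w = 0 := Subtype.ext ((Submodule.mem_bot L).mp hw)
  rw [this, map_zero]
  exact Submodule.zero_mem _

theorem SQim_SQpre (T : Submodule L (SQ q S)) : SQim S (SQpre S T) = T := by
  ext x
  constructor
  · intro hx
    obtain ⟨w, hw, rfl⟩ := (mem_SQim S).mp hx
    obtain ⟨_, h⟩ := (mem_SQpre S).mp hw
    exact h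
  · intro hx
    obtain ⟨u, rfl⟩ := SQmk_surjective S x
    exact SQmk_mem_SQim S ((mem_SQpre S).mpr ⟨u.2, hx⟩)

theorem SQpre_SQim (hS : S ≤ perp q S) (W : Submodule L V) :
    SQpre S (SQim (q := q) S W) = (W ⊔ S) ⊓ perp q S := by
  ext v
  rw [mem_SQpre]
  constructor
  · rintro ⟨h, hx⟩
    exact ⟨(SQmk_mem_SQim_iff S hS).mp hx, h⟩
  · rintro ⟨h1, h2⟩
    exact ⟨h2, (SQmk_mem_SQim_iff S hS).mpr h1⟩

/-- `T ∩ im W` is the image of `T̂ ∩ W` -/
theorem inf_SQim (T : Submodule L (SQ q S)) (W : Submodule L V) :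
    T ⊓ SQim S W = SQim S (SQpre S T ⊓ W) := by
  ext x
  constructor
  · rintro ⟨h1, h2⟩
    obtain ⟨w, hw, rfl⟩ := (mem_SQim S).mp h2
    exact SQmk_mem_SQim S ⟨(mem_SQpre S).mpr ⟨w.2, h1⟩, hw⟩
  · intro hx
    refine ⟨?_, SQim_mono S inf_le_right hx⟩
    rw [← SQim_SQpre S T]
    exact SQim_mono S inf_le_left hx

theorem SQpre_perp (hq : IsForm q) (hS : S ≤ perp q S) (T : Submodule L (SQ q S)) :
    SQpre S (perp (qSQ S hq) T) = perp q (SQpre S T) := by
  ext v
  constructor
  · intro hv w hw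
    obtain ⟨h1, h2⟩ := (mem_SQpre S).mp hv
    obtain ⟨h3, h4⟩ := (mem_SQpre S).mp hw
    exact h2 _ h4
  · intro hv
    refine (mem_SQpre S).mpr ⟨perp_anti (le_SQpre S hS T) hv, ?_⟩
    intro x hx
    obtain ⟨w, rfl⟩ := SQmk_surjective S x
    exact hv w ((mem_SQpre S).mpr ⟨w.2, hx⟩)

variable [FiniteDimensional L V]

theorem perp_SQim (hq : IsForm q) (hS : S ≤ perp q S) (W : Submodule L V) :
    perp (qSQ S hq) (SQim S W) = SQim S (perp q W) := by
  ext x
  obtain ⟨u, rfl⟩ := SQmk_surjective S x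
  rw [SQmk_mem_SQim_iff S hS]
  have h1 : perp q W ⊔ S = perp q (W ⊓ perp q S) := by rw [perp_inf hq, perp_perp hq]
  rw [h1]
  constructor
  · intro h w hw
    exact h (SQmk S ⟨w, hw.2⟩) (SQmk_mem_SQim S hw.1)
  · intro h y hy
    obtain ⟨w, hw, rfl⟩ := (mem_SQim S).mp hy
    exact h w ⟨hw, w.2⟩

theorem finrank_SQim (hS : S ≤ perp q S) (W : Submodule L V) :
    finrank L (SQim (q := q) S W) + finrank L ↥(W ⊓ S) = finrank L ↥(W ⊓ perp q S) := by
  have h1 := LinearMap.finrank_range_add_finrank_ker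
    ((SQmk S).domRestrict (W.comap (perp q S).subtype))
  have h2 : LinearMap.range ((SQmk S).domRestrict (W.comap (perp q S).subtype)) =
      SQim (q := q) S W := by
    rw [LinearMap.range_domRestrict]; rfl
  have h3 : finrank L (LinearMap.ker ((SQmk (q := q) S).domRestrict
      (W.comap (perp q S).subtype))) = finrank L ↥(W ⊓ S) := by
    refine LinearEquiv.finrank_eq ?_
    refine LinearEquiv.ofBijective
      (LinearMap.codRestrict (W ⊓ S) ((perp q S).subtype ∘ₗ
        (W.comap (perp q S).subtype).subtype ∘ₗ (LinearMap.ker ((SQmk (q := q) S).domRestrict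
      (W.comap (perp q S).subtype))).subtype) ?_) ⟨?_, ?_⟩
    · rintro ⟨⟨⟨v, hv⟩, hw⟩, hk⟩
      refine ⟨hw, ?_⟩
      exact (SQmk_eq_zero S).mp (LinearMap.mem_ker.mp hk)
    · rintro ⟨⟨⟨v, hv⟩, hw⟩, hk⟩ ⟨⟨⟨v', hv'⟩, hw'⟩, hk'⟩ h
      have h' : v = v' := congrArg Subtype.val h
      subst h'
      rfl
    · rintro ⟨v, hv⟩
      exact ⟨⟨⟨⟨v, hS hv.2⟩, hv.1⟩, LinearMap.mem_ker.mpr ((SQmk_eq_zero S).mpr hv.2)⟩, rfl⟩
  have h4 : finrank L ↥(W.comap (perp q S).subtype) = finrank L ↥(W ⊓ perp q S) := by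
    rw [inf_comm, ← Submodule.map_comap_subtype, Submodule.finrank_map_subtype_eq]
  rw [h2, h3, h4] at h1
  exact h1

theorem finrank_SQpre (hS : S ≤ perp q S) (T : Submodule L (SQ q S)) :
    finrank L (SQpre S T) = finrank L T + finrank L S := by
  have h1 := finrank_SQim S hS (SQpre S T)
  rw [SQim_SQpre, inf_eq_right.mpr (le_SQpre S hS T), inf_eq_left.mpr (SQpre_le S T)] at h1
  exact h1.symm

theorem finrank_SQ (hq : IsForm q) (hS : S ≤ perp q S) :
    finrank L (SQ q S) + 2 * finrank L S = finrank L V := by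
  have h1 := finrank_SQpre S hS ⊤
  have h2 : SQpre (q := q) S ⊤ = perp q S := by
    refine le_antisymm (SQpre_le S _) fun v hv => (mem_SQpre S).mpr ⟨hv, trivial⟩
  rw [h2, finrank_top] at h1
  have h3 := finrank_perp hq S
  omega

theorem finrank_SQ_lt (hq : IsForm q) (hS : S ≤ perp q S) (h0 : S ≠ ⊥) :
    finrank L (SQ q S) < finrank L V := by
  have h1 := finrank_SQ S hq hS
  have h2 : 0 < finrank L S := by
    rw [Nat.pos_iff_ne_zero]
    intro h
    exact h0 (Submodule.finrank_eq_zero.mp h)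
  omega

/-- dimensions of steps do not increase in the subquotient -/
theorem finrank_SQim_step (hS : S ≤ perp q S) {A B : Submodule L V} (hAB : A ≤ B) {k : ℕ}
    (h : finrank L B ≤ finrank L A + k) :
    finrank L (SQim (q := q) S B) ≤ finrank L (SQim (q := q) S A) + k := by
  have h1 := finrank_SQim S hS A
  have h2 := finrank_SQim S hS B
  have h3 : finrank L ↥(A ⊓ S) ≤ finrank L ↥(B ⊓ S) :=
    Submodule.finrank_mono (inf_le_inf_right _ hAB)
  have h4 := Submodule.finrank_sup_add_finrank_inf_eq A (B ⊓ perp q S)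
  have h5 : A ⊓ (B ⊓ perp q S) = A ⊓ perp q S := by rw [← inf_assoc, inf_eq_left.mpr hAB]
  have h6 : finrank L ↥(A ⊔ B ⊓ perp q S) ≤ finrank L B :=
    Submodule.finrank_mono (sup_le hAB inf_le_left)
  rw [h5] at h4
  omega

end subquo

end Vale.Agent.P182.H62
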