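import Vale.Agent.P182.H62.BC
import Mathlib.LinearAlgebra.TensorProduct.Pi

/-!
# Base change of configurations: numerical invariants and versality
-/

namespace Vale.Agent.P182.H62

open Module Matrix TensorProduct Vale.Agent.P182.H533 Vale.Agent.P182.B1

universe u v w

/-- additive maps with the Leibniz rule extend to `L'` -/
def DExt (L : Type u) (L' : Type u) [Field L] [Field L'] [Algebra L L'] : Prop :=
  ∀ d : L →+ L, (∀ a b, d (a * b) = d a * b + a * d b) → ∃ d' : L' →+ L',
    (∀ a b, d' (a * b) = d' a * b + a * d' b) ∧ ∀ a, d' (algebraMap L L' a) = algebraMap L L' (d a)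

variable {L : Type u} {V : Type v} {J : Type w} [Field L] [AddCommGroup V] [Module L V]

/-- the base change of a configuration -/
noncomputable def bcC (𝒟 : Cfg L V J) (L' : Type u) [Field L'] [Algebra L L'] :
    Cfg L' (L' ⊗[L] V) J where
  q := qbc L' 𝒟.q
  F := fun s i => (𝒟.F s i).baseChange L'
  arm := 𝒟.arm
  c := 𝒟.c
  Ω := 𝒟.Ω.map (algebraMap L L')

section

variable (𝒟 : Cfg L V J) {L' : Type u} [Field L'] [Algebra L L']

theorem bcC_C (l : J) : (bcC 𝒟 L').C l = (𝒟.C l).baseChange L' := rfl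

theorem perp_bcC (s : Fin 3) (i : ℕ) :
    perp (bcC 𝒟 L').q ((bcC 𝒟 L').F s i) = (perp 𝒟.q (𝒟.F s i)).baseChange L' := perp_bc _ _

theorem perp_bcC_C (l : J) :
    perp (bcC 𝒟 L').q ((bcC 𝒟 L').C l) = (perp 𝒟.q (𝒟.C l)).baseChange L' := perp_bc _ _

variable {𝒟}

theorem good_bcC (g : 𝒟.Good) : (bcC 𝒟 L').Good where
  form := isForm_qbc g.form
  zero := fun s => by
    show (𝒟.F s 0).baseChange L' = ⊥
    rw [g.zero, Submodule.baseChange_bot]
  mono := fun s i j h => Submodule.baseChange_mono L' (g.mono s h)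
  iso := fun s i => by
    rw [perp_bcC]
    exact Submodule.baseChange_mono L' (g.iso s i)
  step := fun s i => by
    show finrank L' ((𝒟.F s (i + 1)).baseChange L') ≤ finrank L' ((𝒟.F s i).baseChange L') + 1
    rw [finrank_bc, finrank_bc]
    exact g.step s i
  skew := by
    ext l k
    have := congrFun (congrFun g.skew l) k
    simp only [Matrix.transpose_apply, Matrix.neg_apply] at this
    simp only [bcC, Matrix.transpose_apply, Matrix.neg_apply, Matrix.map_apply]
    rw [this, map_neg]

theorem iso_bcC {S : Submodule L V} (hS : 𝒟.Iso S) : (bcC 𝒟 L').Iso (S.baseChange L') := by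
  show _ ≤ perp (qbc L' 𝒟.q) _
  rw [perp_bc]
  exact Submodule.baseChange_mono L' hS

theorem th_bcC (s : Fin 3) (i : ℕ) (W : Submodule L V) :
    (bcC 𝒟 L').th s i (W.baseChange L') = 𝒟.th s i W := by
  rw [Cfg.th, Cfg.th, perp_bcC]
  show (finrank L' ↥(W.baseChange L' ⊓ (𝒟.F s i).baseChange L') : ℤ) + _ - _ = _
  rw [← bc_inf, ← bc_inf, finrank_bc, finrank_bc, finrank_bc]

variable [Fintype J]

theorem theta_bcC (W : Submodule L V) : (bcC 𝒟 L').theta (W.baseChange L') = 𝒟.theta W :=
  Finset.sum_congr rfl fun _ _ => th_bcC _ _ _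

/-- the identification of families -/
noncomputable def piE (J : Type w) [Fintype J] (L : Type u) (L' : Type u) [Field L] [Field L']
    [Algebra L L'] (V : Type v) [AddCommGroup V] [Module L V] [DecidableEq J] :
    L' ⊗[L] (J → V) ≃ₗ[L'] (J → L' ⊗[L] V) :=
  TensorProduct.piRight L L' L' (fun _ : J => V)

theorem ev_piE [DecidableEq J] (f : L' →ₗ[L] L) (x : L' ⊗[L] (J → V)) (l : J) :
    ev f (piE J L L' V x l) = ev f x l := by
  induction x with
  | zero => rw [map_zero, map_zero]; exact map_zero _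
  | tmul a v =>
    rw [piE, TensorProduct.piRight_apply, TensorProduct.piRightHom_tmul, ev_tmul, ev_tmul]
    rfl
  | add x y hx hy =>
    rw [map_add, map_add, Pi.add_apply, Pi.add_apply, map_add, hx, hy]

theorem ev_om (f : L' →ₗ[L] L) (t : J → L' ⊗[L] V) (l : J) :
    ev f ((bcC 𝒟 L').om t l) = 𝒟.om (fun k => ev f (t k)) l := by
  rw [Cfg.om, Cfg.om, map_sum]
  refine Finset.sum_congr rfl fun k _ => ?_
  show ev f ((algebraMap L L' (𝒟.Ω l k)) • t k) = _
  rw [algebraMap_smul, map_smul]

theorem K_bcC [DecidableEq J] :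
    (𝒟.K.baseChange L').map (piE J L L' V).toLinearMap = (bcC 𝒟 L').K := by
  ext t
  rw [Submodule.mem_map]
  have key : ∀ x : L' ⊗[L] (J → V), x ∈ 𝒟.K.baseChange L' ↔ piE J L L' V x ∈ (bcC 𝒟 L').K := by
    intro x
    rw [mem_bc_iff, Cfg.mem_K]
    constructor
    · intro h
      refine ⟨fun l => ?_, fun l => ?_⟩
      · rw [bcC_C, mem_bc_iff]
        intro f
        rw [ev_piE]
        exact (h f).1 l
      · rw [perp_bcC_C, mem_bc_iff]
        intro f
        rw [ev_om]
        simp_rw [ev_piE]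
        exact (h f).2 l
    · rintro ⟨h1, h2⟩ f
      refine ⟨fun l => ?_, fun l => ?_⟩
      · have := h1 l
        rw [bcC_C, mem_bc_iff] at this
        have := this f
        rwa [ev_piE] at this
      · have := h2 l
        rw [perp_bcC_C, mem_bc_iff] at this
        have := this f
        rw [ev_om] at this
        simp_rw [ev_piE] at this
        exact this
  constructor
  · rintro ⟨x, hx, rfl⟩
    exact (key x).mp hx
  · intro ht
    refine ⟨(piE J L L' V).symm t, ?_, (piE J L L' V).apply_symm_apply t⟩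
    rw [key, LinearEquiv.apply_symm_apply]
    exact ht

variable (𝒟) (L') in
theorem finrank_K_bcC : finrank L' (bcC 𝒟 L').K = finrank L 𝒟.K := by
  classical
  rw [← K_bcC, LinearEquiv.finrank_map_eq, finrank_bc]

end

end Vale.Agent.P182.H62
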