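import Vale.Agent.P182.H62.BVers
import Vale.Agent.P182.H388.DExt

/-!
# Isomorphisms of configurations, and the statement `STR`
-/

namespace Vale.Agent.P182.H62

open Module Matrix TensorProduct Vale.Agent.P182.H533 Vale.Agent.P182.B1

universe u v v' w

variable {L : Type u} {J : Type w} [Field L]

/-- isomorphisms of configurations -/
structure CIso {V : Type v} {V' : Type v'} [AddCommGroup V] [Module L V] [AddCommGroup V']
    [Module L V'] (𝒟 : Cfg L V J) (𝒟' : Cfg L V' J) where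
  e : V ≃ₗ[L] V'
  q : ∀ x y, 𝒟'.q (e x) (e y) = 𝒟.q x y
  F : ∀ s i, (𝒟.F s i).map e.toLinearMap = 𝒟'.F s i
  arm : 𝒟'.arm = 𝒟.arm
  c : 𝒟'.c = 𝒟.c
  Ω : 𝒟'.Ω = 𝒟.Ω

section defs

variable {V : Type u} [AddCommGroup V] [Module L V] [Fintype J]

/-- semistability over every extension field -/
def USemi (𝒟 : Cfg L V J) : Prop := ∀ (L' : Type u) [Field L'] [Algebra L L'],
  ∀ S : Submodule L' (L' ⊗[L] V), (bcC 𝒟 L').Iso S → (bcC 𝒟 L').theta S ≤ 0

/-- strict semistability over every extension field -/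
def UStrict (𝒟 : Cfg L V J) : Prop := ∀ (L' : Type u) [Field L'] [Algebra L L'],
  ∀ S : Submodule L' (L' ⊗[L] V), (bcC 𝒟 L').Iso S → S ≠ ⊥ → (bcC 𝒟 L').theta S ≤ -1

/-- `Ext(N, S) = 0` -/
def ExtZero (𝒟 : Cfg L V J) (S : Submodule L V) : Prop :=
  H887.HomD 𝒟.Ω (objA 𝒟 S) (objB 𝒟 S) = ⊥

/-- the structured form of `T` -/
def STR (𝒟 : Cfg L V J) (g : 𝒟.Good) : Prop :=
  ∃ (L' : Type u) (_ : Field L') (_ : Algebra L L') (S : Submodule L' (L' ⊗[L] V)),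
    (bcC 𝒟 L').Iso S ∧ ExtZero (bcC 𝒟 L') S ∧
      (sq (bcC 𝒟 L') (good_bcC g) S).Versal ∧ UStrict (sq (bcC 𝒟 L') (good_bcC g) S) ∧
        finrank L' (sq (bcC 𝒟 L') (good_bcC g) S).K ≤ 1

/-- the numerical form of `T` -/
def T1u (𝒟 : Cfg L V J) : Prop :=
  ∃ (L' : Type u) (_ : Field L') (_ : Algebra L L') (S : Submodule L' (L' ⊗[L] V)),
    (bcC 𝒟 L').Iso S ∧ (finrank L 𝒟.K : ℤ) ≤ (bcC 𝒟 L').theta S + 1

end defs

section

variable {V : Type u} [AddCommGroup V] [Module L V] [FiniteDimensional L V] [Fintype J]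

theorem T1u_of_STR {𝒟 : Cfg L V J} (g : 𝒟.Good) (h : STR 𝒟 g) : T1u 𝒟 := by
  obtain ⟨L', _, _, S, hS, hE, -, -, hK⟩ := h
  refine ⟨L', _, _, S, hS, ?_⟩
  have h1 := finrank_K_le (good_bcC g (L' := L')) hS hE
  rw [finrank_K_bcC] at h1
  have h2 : (finrank L' (sq (bcC 𝒟 L') (good_bcC g) S).K : ℤ) ≤ 1 := by exact_mod_cast hK
  linarith

end

end Vale.Agent.P182.H62
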