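import Vale.Agent.P182.H62.CIso
import Vale.Agent.P182.H96.TypeConst
import Vale.Agent.P182.H664.TAll

/-!
# Generic isotropic subspaces: consequences
-/

namespace Vale.Agent.P182.H62

open Module Matrix Vale.Agent.P182.H533 Vale.Agent.P182.B1

universe u v w

section conn

variable {L V : Type*} [Field L] [AddCommGroup V] [Module L V] {q : V →ₗ[L] V →ₗ[L] L}

/-- the difference of two connections over the same derivation -/
def cnSub (n m : Conn q) (h : n.d = m.d) : End L V where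
  toFun v := n.δ v - m.δ v
  map_add' u v := by rw [map_add, map_add]; abel
  map_smul' a v := by
    rw [n.smul, m.smul, h, RingHom.id_apply, smul_sub]; abel

theorem cnSub_apply (n m : Conn q) (h : n.d = m.d) (v : V) :
    cnSub n m h v = n.δ v - m.δ v := rfl

theorem cnSub_skew (n m : Conn q) (h : n.d = m.d) : IsSk q (cnSub n m h) := by
  intro u v
  have h1 := n.metric u v
  have h2 := m.metric u v
  rw [h] at h1
  rw [cnSub_apply, cnSub_apply, map_sub, map_sub, LinearMap.sub_apply]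
  linear_combination h2 - h1

/-- the negative of a connection -/
def cnNeg (n : Conn q) : Conn q where
  d := -n.d
  δ := -n.δ
  leib := fun a b => by
    simp only [AddMonoidHom.neg_apply, n.leib]; ring
  smul := fun a v => by
    simp only [AddMonoidHom.neg_apply, n.smul, neg_smul, smul_neg]; abel
  metric := fun u v => by
    simp only [AddMonoidHom.neg_apply, n.metric, map_neg, LinearMap.neg_apply]; ring

end conn

section

variable {L : Type u} {V : Type v} {J : Type w} [Field L] [AddCommGroup V] [Module L V]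
  {𝒟 : Cfg L V J} {S : Submodule L V}

/-- tangent directions along which the position of `S` is constant -/
def Tan (𝒟 : Cfg L V J) (S : Submodule L V) (A : End L V) : Prop :=
  IsSk 𝒟.q A ∧ ∀ s, ∃ B : End L V, IsSk 𝒟.q B ∧ (∀ i, ∀ v ∈ 𝒟.F s i, B v ∈ 𝒟.F s i) ∧
    ∀ v ∈ S, A v - B v ∈ S

/-- the directions realised by the connections which preserve the configuration -/
def real0 (𝒟 : Cfg L V J) (S : Submodule L V) : Submodule L (End L V) where
  carrier := {A | ∃ n : Conn 𝒟.q, (∀ s i, ∀ v ∈ 𝒟.F s i, n.δ v ∈ 𝒟.F s i) ∧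
    (∀ l k, n.d (𝒟.Ω l k) = 0) ∧ ∀ v ∈ S, n.δ v - A v ∈ S}
  add_mem' := by
    rintro A B ⟨n, h1, h2, h3⟩ ⟨m, k1, k2, k3⟩
    refine ⟨cnAdd n m, fun s i v hv => add_mem (h1 s i v hv) (k1 s i v hv), fun l k => ?_,
      fun v hv => ?_⟩
    · show n.d _ + m.d _ = 0
      rw [h2, k2, add_zero]
    · have := add_mem (h3 v hv) (k3 v hv)
      convert this using 1
      show n.δ v + m.δ v - (A v + B v) = _
      abel
  zero_mem' := ⟨cnZero 𝒟.q, fun s i v _ => zero_mem _, fun l k => rfl, fun v _ => by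
    show (0 : V) - 0 ∈ S
    rw [sub_zero]; exact zero_mem _⟩
  smul_mem' := by
    rintro c A ⟨n, h1, h2, h3⟩
    refine ⟨cnSmul c n, fun s i v hv => Submodule.smul_mem _ _ (h1 s i v hv), fun l k => ?_,
      fun v hv => ?_⟩
    · show c * n.d _ = 0
      rw [h2, mul_zero]
    · have := S.smul_mem c (h3 v hv)
      convert this using 1
      show c • n.δ v - c • A v = _
      rw [smul_sub]

theorem mem_real0 {A : End L V} : A ∈ real0 𝒟 S ↔ ∃ n : Conn 𝒟.q,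
    (∀ s i, ∀ v ∈ 𝒟.F s i, n.δ v ∈ 𝒟.F s i) ∧
    (∀ l k, n.d (𝒟.Ω l k) = 0) ∧ ∀ v ∈ S, n.δ v - A v ∈ S := Iff.rfl

/-- **generic** isotropic subspaces: every tangent direction is realised -/
def Gen (𝒟 : Cfg L V J) (S : Submodule L V) : Prop := ∀ A, Tan 𝒟 S A → A ∈ real0 𝒟 S

variable [FiniteDimensional L V]

/-- type constancy, for one arm -/
theorem exists_mt (g : 𝒟.Good) (h2 : (2 : L) ≠ 0) (hS : 𝒟.Iso S) {d : L →+ L}
    (hd : ∀ a b, d (a * b) = d a * b + a * d b) (s : Fin 3) : ∃ c : Conn 𝒟.q, c.d = d ∧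
      (∀ i, ∀ v ∈ 𝒟.F s i, c.δ v ∈ 𝒟.F s i) ∧ ∀ v ∈ S, c.δ v ∈ S := by
  classical
  have hpp : ∀ W : Submodule L V, H96.pp 𝒟.q W = perp 𝒟.q W := by
    intro W
    ext v
    rw [H96.mem_pp, mem_perp]
    exact forall₂_congr fun a _ => by rw [g.form.symm]
  obtain ⟨N, hN⟩ := monotone_stabilizes_iff_noetherian.mpr (inferInstance : IsNoetherian L V)
    ⟨𝒟.F s, g.mono s⟩
  obtain ⟨c, h1, h3, h4⟩ := H96.exists_metric g.form h2 hd (𝒟.F s) (Finset.range (N + 1))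
    (fun i _ j _ => (le_total i j).imp (fun h => g.mono s h) fun h => g.mono s h)
    (fun i _ => by rw [hpp]; exact g.iso s i) (R := S) (by rw [hpp]; exact hS)
  refine ⟨c, h1, fun i v hv => ?_, h4⟩
  rcases Nat.lt_or_ge i (N + 1) with h | h
  · exact h3 i (Finset.mem_range.mpr h) v hv
  · have e1 : 𝒟.F s N = 𝒟.F s i := hN i (by omega)
    rw [← e1] at hv ⊢
    exact h3 N (Finset.mem_range.mpr (Nat.lt_succ_self N)) v hv

/-- **`H^1 = 0`** -/
theorem h1_van (g : 𝒟.Good) (h2 : (2 : L) ≠ 0) (hV : 𝒟.Versal) (hS : 𝒟.Iso S)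
    (Z : Fin 3 → End L V) (hZ : ∀ s, IsSk 𝒟.q (Z s)) : ∃ A, IsSk 𝒟.q A ∧ ∀ s, ∃ B, IsSk 𝒟.q B ∧
      (∀ i, ∀ v ∈ 𝒟.F s i, B v ∈ 𝒟.F s i) ∧ ∃ P, IsSk 𝒟.q P ∧ (∀ v ∈ S, P v ∈ S) ∧
        Z s = A + B + P := by
  obtain ⟨n, hn, -⟩ := hV Z hZ 0 (by simp)
  choose m h1 h3 h4 using fun s => exists_mt g h2 hS n.leib s
  refine ⟨cnSub n (m 0) (h1 0).symm, cnSub_skew _ _ _, fun s => ?_⟩
  refine ⟨Z s - cnSub n (m s) (h1 s).symm, ?_, ?_, cnSub (m 0) (m s) ((h1 0).trans (h1 s).symm),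
    cnSub_skew _ _ _, ?_, ?_⟩
  · intro u v
    rw [LinearMap.sub_apply, LinearMap.sub_apply, map_sub, map_sub, LinearMap.sub_apply, hZ s,
      cnSub_skew]
    ring
  · intro i v hv
    have e1 := sub_mem (h3 s i v hv) (hn s i v hv)
    convert e1 using 1
    rw [LinearMap.sub_apply, cnSub_apply]
    abel
  · intro v hv
    rw [cnSub_apply]
    exact sub_mem (h4 0 v hv) (h4 s v hv)
  · ext v
    rw [LinearMap.add_apply, LinearMap.add_apply, LinearMap.sub_apply, cnSub_apply, cnSub_apply,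
      cnSub_apply]
    abel

/-- **Versality relative to a generic subspace** -/
theorem Gen.conn (hG : Gen 𝒟 S) (g : 𝒟.Good) (h2 : (2 : L) ≠ 0) (hV : 𝒟.Versal) (hS : 𝒟.Iso S)
    (Y : Fin 3 → End L V) (hY : ∀ s, IsSk 𝒟.q (Y s)) (hYS : ∀ s, ∀ v ∈ S, Y s v ∈ S)
    (η : Matrix J J L) (hη : ηᵀ = -η) : ∃ n : Conn 𝒟.q,
      (∀ s i, ∀ v ∈ 𝒟.F s i, n.δ v - Y s v ∈ 𝒟.F s i) ∧ (∀ l k, n.d (𝒟.Ω l k) = η l k) ∧
        ∀ v ∈ S, n.δ v ∈ S := by
  obtain ⟨n, hn, hnΩ⟩ := hV Y hY η hη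
  choose m h1 h3 h4 using fun s => exists_mt g h2 hS n.leib s
  have hT : Tan 𝒟 S (cnSub n (m 0) (h1 0).symm) := by
    refine ⟨cnSub_skew _ _ _, fun s => ⟨cnSub n (m s) (h1 s).symm - Y s, ?_, ?_, ?_⟩⟩
    · intro u v
      rw [LinearMap.sub_apply, LinearMap.sub_apply, map_sub, map_sub, LinearMap.sub_apply, hY s,
        cnSub_skew]
      ring
    · intro i v hv
      have e1 := sub_mem (hn s i v hv) (h3 s i v hv)
      convert e1 using 1
      rw [LinearMap.sub_apply, cnSub_apply]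
      abel
    · intro v hv
      have e1 := add_mem (sub_mem (h4 s v hv) (h4 0 v hv)) (hYS s v hv)
      convert e1 using 1
      rw [LinearMap.sub_apply, cnSub_apply, cnSub_apply]
      abel
  obtain ⟨n0, k1, k2, k3⟩ := hG _ hT
  refine ⟨cnAdd n (cnNeg n0), fun s i v hv => ?_, fun l k => ?_, fun v hv => ?_⟩
  · have e1 := sub_mem (hn s i v hv) (k1 s i v hv)
    convert e1 using 1
    show n.δ v + -n0.δ v - Y s v = _
    abel
  · show n.d _ + -n0.d _ = _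
    rw [k2, neg_zero, add_zero, hnΩ]
  · have e1 := sub_mem (h4 0 v hv) (k3 v hv)
    convert e1 using 1
    show n.δ v + -n0.δ v = _
    rw [cnSub_apply]
    abel

/-- `(N, S)` is versal -/
theorem Gen.glVersal (hG : Gen 𝒟 S) (g : 𝒟.Good) (h2 : (2 : L) ≠ 0) (hV : 𝒟.Versal)
    (hS : 𝒟.Iso S) : GLVersal 𝒟.Ω 𝒟.arm (objA 𝒟 S) (objB 𝒟 S) := by
  intro r η hη
  choose Y hY hYr _ using fun s => exists_skew S g.form hS h2 (r s) 0 (fun u v => by simp)
  obtain ⟨n, hn, hnΩ, hst⟩ := hG.conn g h2 hV hS Y hY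
    (fun s v hv => by rw [hYr s ⟨v, hv⟩]; exact (r s _).2) η hη
  refine ⟨⟨n.d, ⟨⟨fun v => ⟨n.δ v, hst v v.2⟩, ?_⟩, ?_⟩, n.leib, ?_⟩, ?_, ?_, hnΩ⟩
  · exact Subtype.ext (map_zero _)
  · intro u v
    exact Subtype.ext (map_add _ _ _)
  · intro a v
    exact Subtype.ext (n.smul a v)
  · intro l v hv
    have h1 := hn (𝒟.arm l) (𝒟.c l) v hv
    show ((⟨n.δ v, _⟩ - r (𝒟.arm l) v : S) : V) ∈ 𝒟.C l
    rw [Submodule.coe_sub, ← hYr]
    exact h1
  · intro l v hv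
    have h1 := Cfg.conn_perp n (hY (𝒟.arm l)) (hn (𝒟.arm l) (𝒟.c l)) v hv
    show ((⟨n.δ v, _⟩ - r (𝒟.arm l) v : S) : V) ∈ perp 𝒟.q (𝒟.C l)
    rw [Submodule.coe_sub, ← hYr]
    exact h1

/-- `(N, M_S)` is versal -/
theorem Gen.versal_sq (hG : Gen 𝒟 S) (g : 𝒟.Good) (h2 : (2 : L) ≠ 0) (hV : 𝒟.Versal)
    (hS : 𝒟.Iso S) : (sq 𝒟 g S).Versal := by
  intro Y hY η hη
  choose Z hZ hZS hZm using fun s => exists_skew S g.form hS h2 0 (Y s) (hY s)
  obtain ⟨n, hn, hnΩ, hst⟩ := hG.conn g h2 hV hS Z hZ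
    (fun s v hv => by rw [hZS s ⟨v, hv⟩]; exact S.zero_mem) η hη
  obtain ⟨n', hd, hn'⟩ := exists_conn_sq g.form n hst
  refine ⟨n', ?_, fun l k => by rw [hd]; exact hnΩ l k⟩
  rintro s i x hx
  obtain ⟨w, hw, rfl⟩ := (mem_SQim S).mp hx
  obtain ⟨h1, h3⟩ := hn' w
  obtain ⟨h4, h5⟩ := hZm s w
  rw [h3, ← h5, ← map_sub]
  exact SQmk_mem_SQim S (hn s i w hw)

variable [Fintype J] [DecidableEq J]

/-- `Ext(N, S) = 0` for a generic subspace which is maximal for `theta` among its subspaces -/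
theorem Gen.extZero (hG : Gen 𝒟 S) (g : 𝒟.Good) (h2 : (2 : L) ≠ 0) (hV : 𝒟.Versal)
    (hS : 𝒟.Iso S) (hmax : ∀ T ≤ S, 𝒟.theta T ≤ 𝒟.theta S) :
    H887.HomD 𝒟.Ω (objA 𝒟 S) (objB 𝒟 S) = ⊥ := by
  have hC : ∀ l k, 𝒟.arm l = 𝒟.arm k → 𝒟.c l ≤ 𝒟.c k → 𝒟.C l ≤ 𝒟.C k := by
    intro l k h h'
    rw [Cfg.C, Cfg.C, h]
    exact g.mono _ h'
  have hN : H887.N1sq 𝒟.arm (fun l k => 𝒟.c l ≤ 𝒟.c k) 𝒟.Ω :=
    n1Hyp h2 𝒟.arm 𝒟.c 𝒟.Ω g.skew hV.der
  have hE := H887.mtJ (S := S) g.skew hN (A := objA 𝒟 S) (B := objB 𝒟 S) ?_ ?_ ?_ ?_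
    (hG.glVersal g h2 hV hS) ?_
  · exact (H887.homD_eq _ _ _).symm.trans hE.1
  · intro l k h
    rcases le_total (𝒟.c l) (𝒟.c k) with h' | h'
    · exact Or.inl (Submodule.comap_mono (hC l k h h'))
    · exact Or.inr (Submodule.comap_mono (hC k l h.symm h'))
  · intro l k h
    rcases le_total (𝒟.c l) (𝒟.c k) with h' | h'
    · exact Or.inr (Submodule.comap_mono (perp_anti (hC l k h h')))
    · exact Or.inl (Submodule.comap_mono (perp_anti (hC k l h.symm h')))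
  · intro l k h
    refine Submodule.comap_mono ?_
    rcases le_total (𝒟.c l) (𝒟.c k) with h' | h'
    · exact (g.iso (𝒟.arm k) (𝒟.c k)).trans (perp_anti (hC l k h h'))
    · exact (hC k l h.symm h').trans (g.iso (𝒟.arm l) (𝒟.c l))
  · intro l k h h'
    exact Submodule.comap_mono (perp_anti (hC l k h h'))
  · intro T
    rw [H887.chiJ_eq, H887.chiJ_eq, theta_obj, theta_obj_top]
    refine hmax _ ?_
    rintro _ ⟨x, _, rfl⟩
    exact x.2

end

end Vale.Agent.P182.H62
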