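import Vale.Agent.P182.H62.GenThm
import Vale.Agent.P182.H716.CIso1

/-!
# The frame of the proof of `T` for all column heights

`STR` holds for all good, versal configurations in characteristic zero, if there is no critical
configuration.
-/

namespace Vale.Agent.P182.H62

open Module Matrix TensorProduct Vale.Agent.P182.H533 Vale.Agent.P182.B1 Vale.Agent.P182.H258

universe u w

/-- the induction hypothesis: `STR` in dimensions `< n` -/
def IHS (J : Type w) [Fintype J] (n : ℕ) : Prop :=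
  ∀ (L V : Type u) [Field L] [CharZero L] [AddCommGroup V] [Module L V] [FiniteDimensional L V]
    (𝒟 : Cfg L V J) (g : 𝒟.Good), finrank L V < n → 𝒟.Versal → STR 𝒟 g

/-- the induction hypothesis for shorter columns -/
def IHC (J : Type w) [Fintype J] (n m : ℕ) : Prop :=
  ∀ (L V : Type u) [Field L] [CharZero L] [AddCommGroup V] [Module L V] [FiniteDimensional L V]
    (𝒟 : Cfg L V J) (g : 𝒟.Good), finrank L V = n → ∑ l, 𝒟.c l < m → 𝒟.Versal → STR 𝒟 g

/-- **Critical configurations** for the full theorem `T`. -/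
structure CritT {L V : Type u} {J : Type w} [Field L] [AddCommGroup V] [Module L V] [Fintype J]
    (𝒟 : Cfg L V J) : Prop where
  good : 𝒟.Good
  versal : 𝒟.Versal
  strict : UStrict 𝒟
  ih : IHS.{u, w} J (finrank L V)
  ihc : IHC.{u, w} J (finrank L V) (∑ l, 𝒟.c l)
  finrank_K : finrank L 𝒟.K = 2
  corner : ∀ l, 1 ≤ 𝒟.c l → ∃ t ∈ 𝒟.K, t l ∉ 𝒟.F (𝒟.arm l) (𝒟.c l - 1)

/-- there is no critical configuration -/
def HypT (J : Type w) [Fintype J] : Prop :=
  ∀ (L V : Type u) [Field L] [CharZero L] [AddCommGroup V] [Module L V] [FiniteDimensional L V]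
    (𝒟 : Cfg L V J), ¬ CritT.{u, w} 𝒟

variable {J : Type w} [Fintype J] [DecidableEq J] {L V : Type u} [Field L] [CharZero L]
  [AddCommGroup V] [Module L V] [FiniteDimensional L V]

omit [DecidableEq J] [CharZero L] [FiniteDimensional L V] in
theorem uSemi_of_uStrict {𝒟 : Cfg L V J} (h : UStrict 𝒟) : USemi 𝒟 := by
  intro L' _ _ S hS
  by_cases h0 : S = ⊥
  · rw [h0, H887.theta_bot']
  · have := h L' S hS h0
    linarith

omit [CharZero L] [FiniteDimensional L V] [DecidableEq J] in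
/-- a strict configuration with small kernel -/
theorem STR_of_strict {𝒟 : Cfg L V J} (g : 𝒟.Good) (hV : 𝒟.Versal) (hU : UStrict 𝒟)
    (hK : finrank L 𝒟.K ≤ 1) : STR 𝒟 g := by
  refine H716.STR_of_Res ⟨⊥, bot_le, ?_, ?_, ?_, ?_⟩
  · rw [ExtZero, eq_bot_iff]
    intro y _
    rw [Submodule.mem_bot]
    funext l
    ext v
    have hv : v = 0 := Subtype.ext ((Submodule.mem_bot L).mp v.2)
    rw [hv, map_zero, map_zero]
  · exact ciso_versal (cIsoSymm (cIsoBot g)) hV
  · exact H716.cIso_uStrict (cIsoSymm (cIsoBot g)) hU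
  · exact (ciso_finrank_K (cIsoSymm (cIsoBot g))).trans_le hK

/-- the reduction in the presence of an isotropic subspace with `theta ≥ 0` -/
theorem STR_of_not_strict {𝒟 : Cfg L V J} (g : 𝒟.Good) (hV : 𝒟.Versal)
    (ih : IHS.{u, w} J (finrank L V)) (hs : ¬ UStrict 𝒟) : STR 𝒟 g := by
  classical
  rw [UStrict] at hs
  push Not at hs
  obtain ⟨L0, _, _, S0, hS0, hne0, hθ0⟩ := hs
  -- a maximal value
  let P : ℤ → Prop := fun m => ∃ (L' : Type u) (_ : Field L') (_ : Algebra L L')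
    (S : Submodule L' (L' ⊗[L] V)), (bcC 𝒟 L').Iso S ∧ S ≠ ⊥ ∧ (bcC 𝒟 L').theta S = m
  have hbd : ∀ m, P m → m ≤ ∑ _l : J, (finrank L V : ℤ) := by
    rintro m ⟨L', _, _, S, _, _, rfl⟩
    have h1 := H887.theta_le (𝒟 := bcC 𝒟 L') S
    rwa [finrank_baseChange] at h1
  obtain ⟨m, hm, hmax⟩ := Int.exists_greatest_of_bdd (P := P) ⟨_, hbd⟩
    ⟨_, L0, inferInstance, inferInstance, S0, hS0, hne0, rfl⟩
  have hm0 : 0 ≤ m := by
    have h1 := hmax _ ⟨L0, inferInstance, inferInstance, S0, hS0, hne0, rfl⟩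
    linarith
  obtain ⟨L1, _, _, S, hS, hne, hθ⟩ := hm
  haveI : CharZero L1 := charZero_ext L L1
  have g1 := good_bcC (L' := L1) g
  have hV1 := versal_bcC (L' := L1) g two_ne_zero hV (H388.dExt L L1)
  obtain ⟨L2, _, _, T, hT, hpos, hG⟩ := gen_exists g1 hV1 hS
  haveI : CharZero L2 := charZero_ext L1 L2
  have g2 := good_bcC (L' := L2) g1
  have hV2 := versal_bcC (L' := L2) g1 two_ne_zero hV1 (H388.dExt L1 L2)
  let _ : Algebra L L2 := ((algebraMap L1 L2).comp (algebraMap L L1)).toAlgebra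
  have _ : IsScalarTower L L1 L2 := IsScalarTower.of_algebraMap_eq' rfl
  have i := H716.cIsoTower (L' := L1) (L'' := L2) 𝒟
  have hθT : (bcC (bcC 𝒟 L1) L2).theta T = m := by
    rw [hpos.theta rfl rfl, hθ]
  have hE : ExtZero (bcC (bcC 𝒟 L1) L2) T := by
    refine hG.extZero g2 two_ne_zero hV2 hT fun W hW => ?_
    rw [hθT]
    by_cases hW0 : W = ⊥
    · rw [hW0, H887.theta_bot']
      exact hm0
    · have h1 : (bcC (bcC 𝒟 L1) L2).Iso W := H887.iso_mono hW hT
      have h2 := hmax _ ⟨L2, inferInstance, inferInstance, W.map i.e.toLinearMap,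
        (H716.cIso_iso i).mpr h1, H716.map_ne_bot i hW0, rfl⟩
      rwa [H716.cIso_theta] at h2
  have hne2 : T ≠ ⊥ := by
    rintro rfl
    have h1 := hpos.dim
    rw [finrank_bot] at h1
    exact hne (Submodule.finrank_eq_zero.mp h1.symm)
  have h3 : STR (sq (bcC (bcC 𝒟 L1) L2) g2 T) (good_sq g2 hT) := by
    refine ih L2 _ _ _ ?_ (hG.versal_sq g2 two_ne_zero hV2 hT)
    refine lt_of_lt_of_eq (finrank_SQ_lt T g2.form hT hne2) ?_
    rw [finrank_baseChange, finrank_baseChange]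
  exact H716.STR_of_bc (H716.STR_of_bc (H716.STR_of_sq hT hE h3))

/-- the induction on the heights of the columns -/
theorem STR_step (hyp : HypT.{u, w} J) (n : ℕ) (ih : IHS.{u, w} J n) (m : ℕ) :
    ∀ (L V : Type u) [Field L] [CharZero L] [AddCommGroup V] [Module L V]
      [FiniteDimensional L V] (𝒟 : Cfg L V J) (g : 𝒟.Good), finrank L V = n →
      ∑ l, 𝒟.c l = m → 𝒟.Versal → STR 𝒟 g := by
  induction m using Nat.strong_induction_on with
  | _ m ihm =>
  intro L V _ _ _ _ _ 𝒟 g hn hm hV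
  by_cases hs : UStrict 𝒟
  · by_cases hK : finrank L 𝒟.K ≤ 1
    · exact STR_of_strict g hV hs hK
    · exfalso
      -- the shortened configurations
      have hsh : ∀ l, 1 ≤ 𝒟.c l → finrank L (shc 𝒟 l).K ≤ 1 := by
        intro l hl
        have gl : (shc 𝒟 l).Good := g.setc _
        have hVl : (shc 𝒟 l).Versal := hV.setc _
        have h1 := ihm _ (by rw [← hm]; exact sum_shc_lt 𝒟 hl) L V (shc 𝒟 l) gl hn rfl hVl
        obtain ⟨L', _, _, S, hS, h2⟩ := T1u_of_STR gl h1
        have h3 : (bcC (shc 𝒟 l) L').theta S ≤ 0 := by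
          by_cases hS0 : S = ⊥
          · rw [hS0, H887.theta_bot']
          · have h4 := theta_shc (𝒟 := bcC 𝒟 L') (good_bcC g) (l := l) hl S
            have h5 := hs L' S hS hS0
            have h6 : (bcC (shc 𝒟 l) L').theta S = (shc (bcC 𝒟 L') l).theta S := rfl
            rw [h6]
            linarith
        have h7 : (finrank L (shc 𝒟 l).K : ℤ) ≤ 1 := by linarith
        exact_mod_cast h7
      have hcor : ∀ l, 1 ≤ 𝒟.c l → ∃ t ∈ 𝒟.K, t l ∉ 𝒟.F (𝒟.arm l) (𝒟.c l - 1) := by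
        intro l hl
        have := hsh l hl
        exact corner_of g (by omega)
      -- there is a column
      have hcol : ∃ l, 1 ≤ 𝒟.c l := by
        by_contra hc
        push Not at hc
        have h1 : 𝒟.K = ⊥ := by
          rw [eq_bot_iff]
          intro t ht
          rw [Submodule.mem_bot]
          funext l
          have h2 := ht.1 l
          have h3 : 𝒟.c l = 0 := by have := hc l; omega
          rw [Cfg.C, h3, g.zero, Submodule.mem_bot] at h2
          exact h2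
        rw [h1, finrank_bot] at hK
        omega
      obtain ⟨l, hl⟩ := hcol
      have h1 := finrank_K_le_shc g hl
      have h2 := hsh l hl
      refine hyp L V 𝒟 ⟨g, hV, hs, by rw [hn]; exact ih, ?_, by omega, hcor⟩
      intro L2 V2 _ _ _ _ _ 𝒟2 g2 h3 h4 hV2
      exact ihm _ (by rw [← hm]; exact h4) L2 V2 𝒟2 g2 (h3.trans hn) rfl hV2
  · exact STR_of_not_strict g hV (by rw [hn]; exact ih) hs

theorem IHS_all (hyp : HypT.{u, w} J) (n : ℕ) : IHS.{u, w} J n := by
  induction n with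
  | zero => intro L V _ _ _ _ _ 𝒟 g h; exact absurd h (Nat.not_lt_zero _)
  | succ n ih =>
    intro L V _ _ _ _ _ 𝒟 g h hV
    refine STR_step hyp (finrank L V) ?_ _ L V 𝒟 g rfl rfl hV
    intro L' V' _ _ _ _ _ 𝒟' g' h' hV'
    exact ih L' V' 𝒟' g' (by omega) hV'

/-- **The frame**: `STR` for all good, versal configurations. -/
theorem STR_all (hyp : HypT.{u, w} J) (𝒟 : Cfg L V J) (g : 𝒟.Good) (hV : 𝒟.Versal) :
    STR 𝒟 g :=
  IHS_all hyp (finrank L V + 1) L V 𝒟 g (Nat.lt_succ_self _) hV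

/-- **`T`** -/
theorem T1u_all (hyp : HypT.{u, w} J) (𝒟 : Cfg L V J) (g : 𝒟.Good) (hV : 𝒟.Versal) :
    T1u 𝒟 := T1u_of_STR g (STR_all hyp 𝒟 g hV)

/-- **`T` for semistable configurations** -/
theorem finrank_K_le_one (hyp : HypT.{u, w} J) (𝒟 : Cfg L V J) (g : 𝒟.Good) (hV : 𝒟.Versal)
    (hs : USemi 𝒟) : finrank L 𝒟.K ≤ 1 := by
  obtain ⟨L', _, _, S, hS, h⟩ := T1u_all hyp 𝒟 g hV
  have h1 := hs L' S hS
  have h2 : (finrank L 𝒟.K : ℤ) ≤ 1 := by linarith
  exact_mod_cast h2

end Vale.Agent.P182.H62
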