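import Vale.Agent.P182.H62.Gen3

/-!
# Shortening one column
-/

namespace Vale.Agent.P182.H62

open Module TensorProduct Vale.Agent.P182.H533 Vale.Agent.P182.B1

universe u v w

variable {L : Type u} {V : Type v} {J : Type w} [Field L] [AddCommGroup V] [Module L V]
  [DecidableEq J] (𝒟 : Cfg L V J)

/-- the configuration with the column `l` shortened by one -/
def shc (l : J) : Cfg L V J := 𝒟.setc (Function.update 𝒟.c l (𝒟.c l - 1))

theorem shc_c (l : J) : (shc 𝒟 l).c = Function.update 𝒟.c l (𝒟.c l - 1) := rfl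

theorem shc_C_self (l : J) : (shc 𝒟 l).C l = 𝒟.F (𝒟.arm l) (𝒟.c l - 1) := by
  show 𝒟.F (𝒟.arm l) (Function.update 𝒟.c l (𝒟.c l - 1) l) = _
  rw [Function.update_self]

theorem shc_C_ne {l k : J} (h : k ≠ l) : (shc 𝒟 l).C k = 𝒟.C k := by
  show 𝒟.F (𝒟.arm k) (Function.update 𝒟.c l (𝒟.c l - 1) k) = _
  rw [Function.update_of_ne h]
  rfl

variable [Fintype J]

theorem sum_shc_lt {l : J} (hl : 1 ≤ 𝒟.c l) : ∑ k, (shc 𝒟 l).c k < ∑ k, 𝒟.c k := by
  refine Finset.sum_lt_sum (fun k _ => ?_) ⟨l, Finset.mem_univ l, ?_⟩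
  · rw [shc_c]
    by_cases h : k = l
    · subst h; rw [Function.update_self]; exact Nat.sub_le _ _
    · rw [Function.update_of_ne h]
  · rw [shc_c, Function.update_self]; omega

variable {𝒟}

theorem mem_K_shc (g : 𝒟.Good) {l : J} {t : J → V} (ht : t ∈ 𝒟.K)
    (htl : t l ∈ 𝒟.F (𝒟.arm l) (𝒟.c l - 1)) : t ∈ (shc 𝒟 l).K := by
  have hle : ∀ k, (shc 𝒟 l).C k ≤ 𝒟.C k := by
    intro k
    by_cases h : k = l
    · subst h
      rw [shc_C_self]
      exact g.mono _ (Nat.sub_le _ _)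
    · rw [shc_C_ne 𝒟 h]
  rw [Cfg.mem_K]
  refine ⟨fun k => ?_, fun k => ?_⟩
  · by_cases h : k = l
    · subst h
      rw [shc_C_self]
      exact htl
    · rw [shc_C_ne 𝒟 h]
      exact ht.1 k
  · intro w hw
    exact ht.2 k w (hle k hw)

/-- the corner condition -/
theorem corner_of (g : 𝒟.Good) [FiniteDimensional L V] {l : J}
    (h : finrank L (shc 𝒟 l).K < finrank L 𝒟.K) :
    ∃ t ∈ 𝒟.K, t l ∉ 𝒟.F (𝒟.arm l) (𝒟.c l - 1) := by
  by_contra hc
  push Not at hc
  have h1 : 𝒟.K ≤ (shc 𝒟 l).K := fun t ht => mem_K_shc g ht (hc t ht)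
  have h2 := Submodule.finrank_mono h1
  omega

theorem finrank_quo_le [FiniteDimensional L V] {A B : Submodule L V} (h : A ≤ B)
    (h1 : finrank L B ≤ finrank L A + 1) : finrank L (B.map A.mkQ) ≤ 1 := by
  have h2 := LinearMap.finrank_range_add_finrank_ker (A.mkQ.domRestrict B)
  have h3 : LinearMap.range (A.mkQ.domRestrict B) = B.map A.mkQ := LinearMap.range_domRestrict _ _
  have h4 : finrank L A ≤ finrank L (LinearMap.ker (A.mkQ.domRestrict B)) := by
    let f : A →ₗ[L] LinearMap.ker (A.mkQ.domRestrict B) :=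
      (Submodule.inclusion h).codRestrict _ fun a => by
        rw [LinearMap.mem_ker]
        exact (Submodule.Quotient.mk_eq_zero A).mpr a.2
    refine LinearMap.finrank_le_finrank_of_injective (f := f) ?_
    intro a b hab
    apply Subtype.ext
    exact congrArg (fun z => ((z : B) : V)) (congrArg Subtype.val hab)
  rw [h3] at h2
  omega

/-- shortening a column lowers the dimension of `K` by at most one -/
theorem finrank_K_le_shc [FiniteDimensional L V] (g : 𝒟.Good) {l : J} (hl : 1 ≤ 𝒟.c l) :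
    finrank L 𝒟.K ≤ finrank L (shc 𝒟 l).K + 1 := by
  let A := 𝒟.F (𝒟.arm l) (𝒟.c l - 1)
  let f : 𝒟.K →ₗ[L] V ⧸ A := A.mkQ ∘ₗ LinearMap.proj l ∘ₗ 𝒟.K.subtype
  have h1 := LinearMap.finrank_range_add_finrank_ker f
  have h2 : finrank L (LinearMap.range f) ≤ 1 := by
    have h3 : LinearMap.range f ≤ (𝒟.C l).map A.mkQ := by
      rintro _ ⟨t, rfl⟩
      exact ⟨t.1 l, t.2.1 l, rfl⟩
    refine (Submodule.finrank_mono h3).trans (finrank_quo_le (g.mono _ (Nat.sub_le _ _)) ?_)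
    have h4 := g.step (𝒟.arm l) (𝒟.c l - 1)
    rw [Nat.sub_add_cancel hl] at h4
    exact h4
  have h3 : finrank L (LinearMap.ker f) ≤ finrank L (shc 𝒟 l).K := by
    let i : LinearMap.ker f →ₗ[L] (shc 𝒟 l).K :=
      (𝒟.K.subtype ∘ₗ (LinearMap.ker f).subtype).codRestrict _ fun t =>
        mem_K_shc g t.1.2 ((Submodule.Quotient.mk_eq_zero A).mp (LinearMap.mem_ker.mp t.2))
    refine LinearMap.finrank_le_finrank_of_injective (f := i) ?_
    intro a b hab
    apply Subtype.ext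
    apply Subtype.ext
    exact congrArg (fun z : (shc 𝒟 l).K => (z : J → V)) hab
  omega

/-- the numerical function of the shortened configuration -/
theorem theta_shc [FiniteDimensional L V] (g : 𝒟.Good) {l : J} (hl : 1 ≤ 𝒟.c l)
    (W : Submodule L V) : (shc 𝒟 l).theta W ≤ 𝒟.theta W + 1 := by
  rw [Cfg.theta, Cfg.theta, ← Finset.add_sum_erase _ _ (Finset.mem_univ l),
    ← Finset.add_sum_erase (a := l) Finset.univ (fun k => 𝒟.th (𝒟.arm k) (𝒟.c k) W)
      (Finset.mem_univ l)]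
  have h1 : ∑ k ∈ Finset.univ.erase l, (shc 𝒟 l).th ((shc 𝒟 l).arm k) ((shc 𝒟 l).c k) W =
      ∑ k ∈ Finset.univ.erase l, 𝒟.th (𝒟.arm k) (𝒟.c k) W := by
    refine Finset.sum_congr rfl fun k hk => ?_
    rw [shc_c, Function.update_of_ne (Finset.ne_of_mem_erase hk)]
    rfl
  have h2 : (shc 𝒟 l).th ((shc 𝒟 l).arm l) ((shc 𝒟 l).c l) W ≤ 𝒟.th (𝒟.arm l) (𝒟.c l) W + 1 := by
    rw [shc_c, Function.update_self]
    have h3 := (Cfg.th_step g (𝒟.arm l) (𝒟.c l - 1) W).2
    rw [Nat.sub_add_cancel hl] at h3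
    exact h3
  rw [h1]
  linarith

theorem theta_le_of (W : Submodule L V) [FiniteDimensional L V] :
    𝒟.theta W ≤ ∑ _l : J, (finrank L V : ℤ) := H887.theta_le W

end Vale.Agent.P182.H62
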