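import Vale.Agent.P182.H62.GenIso
import Vale.Agent.P182.H62.Shorten
import Vale.Agent.P182.H664.CIsoSq

/-!
# Existence of generic subspaces of the same position
-/

namespace Vale.Agent.P182.H62

open Module Matrix TensorProduct Vale.Agent.P182.H533 Vale.Agent.P182.B1 Vale.Agent.P182.H258

universe u w

variable {J : Type w} [Fintype J] [DecidableEq J]

theorem charZero_ext (L L' : Type u) [Field L] [Field L'] [Algebra L L'] [CharZero L] :
    CharZero L' := charZero_of_injective_algebraMap (algebraMap L L').injective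

theorem finrank_real0_le {L V : Type u} [Field L] [AddCommGroup V] [Module L V]
    [FiniteDimensional L V] (𝒟 : Cfg L V J) (S : Submodule L V) :
    finrank L (real0 𝒟 S) ≤ finrank L V * finrank L V := by
  rw [← Module.finrank_linearMap L L V V]
  exact Submodule.finrank_le _

omit [Fintype J] [DecidableEq J] in
theorem gen_step' {L V : Type u} [Field L] [CharZero L] [AddCommGroup V]
    [Module L V] [FiniteDimensional L V] {𝒟 : Cfg L V J} {S : Submodule L V} (g : 𝒟.Good)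
    (hV : 𝒟.Versal) (hS : 𝒟.Iso S) {A0 : End L V} (hT : Tan 𝒟 S A0) (hA0 : A0 ∉ real0 𝒟 S) :
    ∃ (L1 : Type u) (_ : Field L1) (_ : Algebra L L1) (S1 : Submodule L1 (L1 ⊗[L] V)),
      (bcC 𝒟 L1).Iso S1 ∧ finrank L1 S1 = finrank L S ∧
      (∀ s i, finrank L1 ↥(S1 ⊓ (bcC 𝒟 L1).F s i) = finrank L ↥(S ⊓ 𝒟.F s i)) ∧
      (∀ s i, finrank L1 ↥(S1 ⊓ perp (bcC 𝒟 L1).q ((bcC 𝒟 L1).F s i)) =
        finrank L ↥(S ⊓ perp 𝒟.q (𝒟.F s i))) ∧
      finrank L (real0 𝒟 S) < finrank L1 (real0 (bcC 𝒟 L1) S1) :=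
  ⟨FractionRing (PowerSeries L), inferInstance, inferInstance,
    gen_step (L1 := FractionRing (PowerSeries L)) g two_ne_zero hV hS hT hA0⟩

theorem gen_exists_aux (k : ℕ) : ∀ (L V : Type u) [Field L] [CharZero L] [AddCommGroup V]
    [Module L V] [FiniteDimensional L V] (𝒟 : Cfg L V J) (S : Submodule L V), 𝒟.Good →
    𝒟.Versal → 𝒟.Iso S → finrank L V * finrank L V - finrank L (real0 𝒟 S) ≤ k →
      ∃ (L' : Type u) (_ : Field L') (_ : Algebra L L') (S' : Submodule L' (L' ⊗[L] V)),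
        (bcC 𝒟 L').Iso S' ∧ SamePos 𝒟 S (bcC 𝒟 L') S' ∧ Gen (bcC 𝒟 L') S' := by
  induction k with
  | zero =>
    intro L V _ _ _ _ _ 𝒟 S g hV hS hk
    have h1 := finrank_real0_le 𝒟 S
    have h2 : finrank L (real0 𝒟 S) = finrank L (End L V) := by
      rw [Module.finrank_linearMap L L V V]; omega
    have h3 : real0 𝒟 S = ⊤ := Submodule.eq_top_of_finrank_eq h2
    have h4 : Gen 𝒟 S := fun A _ => by rw [h3]; exact Submodule.mem_top
    let e := cIsoSymm (cIsoSelf 𝒟)
    exact ⟨L, inferInstance, inferInstance, S.map e.e.toLinearMap, ciso_iso e hS, samePos_ciso e,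
      ciso_gen e h4⟩
  | succ k ih =>
    intro L V _ _ _ _ _ 𝒟 S g hV hS hk
    by_cases hG : Gen 𝒟 S
    · let e := cIsoSymm (cIsoSelf 𝒟)
      exact ⟨L, inferInstance, inferInstance, S.map e.e.toLinearMap, ciso_iso e hS,
        samePos_ciso e, ciso_gen e hG⟩
    · rw [Gen] at hG
      push Not at hG
      obtain ⟨A, hA, hA'⟩ := hG
      obtain ⟨L1, _, _, S1, h1, h2, h3, h4, h5⟩ := gen_step' g hV hS hA hA'
      haveI : CharZero L1 := charZero_ext L L1
      have g1 := good_bcC (L' := L1) g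
      have hV1 := versal_bcC (L' := L1) g two_ne_zero hV (H388.dExt L L1)
      have h6 : finrank L1 (L1 ⊗[L] V) = finrank L V := finrank_baseChange
      obtain ⟨L', _, _, S', k1, k2, k3⟩ := ih L1 (L1 ⊗[L] V) (bcC 𝒟 L1) S1 g1 hV1 h1 (by
        have := finrank_real0_le (bcC 𝒟 L1) S1
        rw [h6] at this ⊢
        omega)
      letI : Algebra L L' := ((algebraMap L1 L').comp (algebraMap L L1)).toAlgebra
      haveI : IsScalarTower L L1 L' := IsScalarTower.of_algebraMap_eq' rfl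
      let e := cIsoTower L1 L' 𝒟
      have k4 : SamePos 𝒟 S (bcC 𝒟 L1) S1 := ⟨h2, h3, h4⟩
      exact ⟨L', inferInstance, inferInstance, S'.map e.e.toLinearMap, ciso_iso e k1,
        (k4.trans k2).trans (samePos_ciso e), ciso_gen e k3⟩

/-- **GEN.** -/
theorem gen_exists {L V : Type u} [Field L] [CharZero L] [AddCommGroup V]
    [Module L V] [FiniteDimensional L V] {𝒟 : Cfg L V J} {S : Submodule L V} (g : 𝒟.Good)
    (hV : 𝒟.Versal) (hS : 𝒟.Iso S) :
      ∃ (L' : Type u) (_ : Field L') (_ : Algebra L L') (S' : Submodule L' (L' ⊗[L] V)),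
        (bcC 𝒟 L').Iso S' ∧ SamePos 𝒟 S (bcC 𝒟 L') S' ∧ Gen (bcC 𝒟 L') S' :=
  gen_exists_aux _ L V 𝒟 S g hV hS le_rfl

end Vale.Agent.P182.H62
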