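import Vale.Agent.P182.H62.ParityT
import Mathlib.Algebra.MvPolynomial.PDeriv
import Mathlib.FieldTheory.IsAlgClosed.AlgebraicClosure

/-!
# Passing to a rich algebraically closed field
-/

namespace Vale.Agent.P182.H62

open Module Matrix TensorProduct Vale.Agent.P182.H533 Vale.Agent.P182.B1 Vale.Agent.P182.H258

universe u v w

/-- a field with many new derivations -/
theorem exists_rich_field (L : Type u) [Field L] [CharZero L] :
    ∃ (L' : Type u) (_ : Field L') (_ : Algebra L L'), IsAlgClosed L' ∧
      ∃ (τ : ℕ → L') (d : ℕ → (L' →+ L')), (∀ a x y, d a (x * y) = d a x * y + x * d a y) ∧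
        (∀ a x, d a (algebraMap L L' x) = 0) ∧ ∀ a b, d a (τ b) = if a = b then 1 else 0 := by
  classical
  let R := MvPolynomial ℕ L
  let M := FractionRing R
  let L' := AlgebraicClosure M
  let _ : Algebra L L' := ((algebraMap M L').comp ((algebraMap R M).comp
    (algebraMap L R))).toAlgebra
  have hal : ∀ x : L, algebraMap L L' x = algebraMap M L' (algebraMap R M (MvPolynomial.C x)) :=
    fun x => rfl
  have hR : CharZero R := inferInstance
  have hM : CharZero M := charZero_of_injective_algebraMap (IsFractionRing.injective R M)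
  have key : ∀ a : ℕ, ∃ d : L' →+ L', (∀ x y, d (x * y) = d x * y + x * d y) ∧
      ∀ r : R, d (algebraMap M L' (algebraMap R M r)) =
        algebraMap M L' (algebraMap R M (MvPolynomial.pderiv a r)) := by
    intro a
    have hs : Algebra.FormallySmooth R M := .of_isLocalization (nonZeroDivisors R)
    obtain ⟨d1, h1, h2⟩ := H388.leib_ext (R := R) (S := M)
      (MvPolynomial.pderiv a : Derivation L R R).toLinearMap.toAddMonoidHom (by
        intro x y
        change MvPolynomial.pderiv a (x * y) = MvPolynomial.pderiv a x * y +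
          x * MvPolynomial.pderiv a y
        rw [Derivation.leibniz, smul_eq_mul, smul_eq_mul]
        ring)
    obtain ⟨d2, h3, h4⟩ := H388.dExt M L' d1 h1
    refine ⟨d2, h3, fun r => ?_⟩
    rw [h4, h2]
    rfl
  choose d h1 h2 using key
  refine ⟨L', inferInstance, inferInstance, inferInstance,
    fun b => algebraMap M L' (algebraMap R M (MvPolynomial.X b)), d, h1, fun a x => ?_,
    fun a b => ?_⟩
  · rw [hal, h2, MvPolynomial.pderiv_C, map_zero, map_zero]
  · rw [h2]
    by_cases h : a = b
    · subst h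
      rw [MvPolynomial.pderiv_X_self, map_one, map_one, if_pos rfl]
    · rw [MvPolynomial.pderiv_X_of_ne (Ne.symm h), map_zero, map_zero, if_neg h]

section

variable {L : Type u} {V : Type v} {J : Type w} [Field L] [AddCommGroup V] [Module L V]

/-- richness after base change -/
theorem rich_of_field {L' : Type u} [Field L'] [Algebra L L'] {τ : ℕ → L'}
    {d : ℕ → (L' →+ L')} (h1 : ∀ a x y, d a (x * y) = d a x * y + x * d a y)
    (h2 : ∀ a x, d a (algebraMap L L' x) = 0) (h3 : ∀ a b, d a (τ b) = if a = b then 1 else 0)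
    (𝒟 : Cfg L V J) : (bcC 𝒟 L').Rich := by
  intro m
  have h4 : ∀ (k : ℕ) (a : L), d k (algebraMap L L' a) = algebraMap L L' ((cnZero 𝒟.q).d a) := by
    intro k a
    rw [h2]
    show 0 = algebraMap L L' 0
    rw [map_zero]
  refine ⟨fun a => bcConn (cnZero 𝒟.q) (d a) (h1 a) (h4 a), fun a => τ a, fun a s i x hx => ?_,
    fun a l k => h2 a _, fun a b => ?_⟩
  · have h5 := conn_bc_mem (bcConn (cnZero 𝒟.q) (d a) (h1 a) (h4 a)) (A := 0)
      (le_refl ((𝒟.F s i).baseChange L')) (fun v hv => by
        rw [LinearMap.zero_apply, sub_zero]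
        show d a 1 ⊗ₜ[L] v + (1 : L') ⊗ₜ[L] (0 : V) ∈ _
        have h6 : d a 1 = 0 := by
          have := h1 a 1 1
          rw [mul_one, mul_one, one_mul] at this
          exact left_eq_add.mp this
        rw [h6, zero_tmul, tmul_zero, add_zero]
        exact zero_mem _) x hx
    rwa [LinearMap.zero_apply, sub_zero] at h5
  · show d a (τ b) = _
    rw [h3]
    by_cases h : a = b
    · subst h; simp
    · rw [if_neg h, if_neg]
      intro h'
      exact h (Fin.ext h')

theorem mem_bc_one {L' : Type u} [Field L'] [Algebra L L'] {F : Submodule L V} {v : V} :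
    (1 : L') ⊗ₜ[L] v ∈ F.baseChange L' ↔ v ∈ F := by
  constructor
  · intro h
    have h1 : LinearMap.ker (Algebra.linearMap L L') = ⊥ :=
      LinearMap.ker_eq_bot.mpr (algebraMap L L').injective
    obtain ⟨f, hf⟩ := LinearMap.exists_leftInverse_of_injective _ h1
    have h2 := (mem_bc_iff.mp h) f
    have h3 : f 1 = 1 := by
      have := LinearMap.congr_fun hf 1
      simpa using this
    rwa [ev_tmul, h3, one_smul] at h2
  · exact fun h => Submodule.tmul_mem_baseChange_of_mem _ h

theorem mem_K_bc_one [Fintype J] {L' : Type u} [Field L'] [Algebra L L'] {𝒟 : Cfg L V J}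
    {t : J → V} (ht : t ∈ 𝒟.K) : (fun l => (1 : L') ⊗ₜ[L] t l) ∈ (bcC 𝒟 L').K := by
  rw [Cfg.mem_K]
  refine ⟨fun l => ?_, fun l => ?_⟩
  · rw [bcC_C]
    exact mem_bc_one.mpr (ht.1 l)
  · rw [perp_bcC_C, mem_bc_iff]
    intro f
    rw [ev_om]
    have h1 : (fun k => ev f ((1 : L') ⊗ₜ[L] t k)) = f 1 • t := by
      funext k
      rw [ev_tmul]
      rfl
    rw [h1]
    exact (𝒟.K.smul_mem (f 1) ht).2 l

end

section crit

variable {L V : Type u} {J : Type w} [Field L] [CharZero L] [AddCommGroup V] [Module L V]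
  [FiniteDimensional L V] [Fintype J] [DecidableEq J] {𝒟 : Cfg L V J}

/-- critical configurations stay critical after base change -/
theorem CritT.bc (h : CritT.{u, w} 𝒟) (L' : Type u) [Field L'] [Algebra L L'] :
    CritT.{u, w} (bcC 𝒟 L') where
  good := good_bcC h.good
  versal := versal_bcC h.good two_ne_zero h.versal (H388.dExt L L')
  strict := H716.uStrict_bc h.strict L'
  ih := by rw [finrank_baseChange]; exact h.ih
  ihc := by rw [finrank_baseChange]; exact h.ihc
  finrank_K := by rw [finrank_K_bcC]; exact h.finrank_K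
  corner := fun l hl => by
    obtain ⟨t, ht, htl⟩ := h.corner l hl
    refine ⟨_, mem_K_bc_one ht, fun h1 => htl ?_⟩
    exact mem_bc_one.mp h1

/-- **It suffices to exclude critical configurations over algebraically closed rich fields.** -/
theorem hypT_of_rich (h : ∀ (L V : Type u) [Field L] [CharZero L] [IsAlgClosed L]
    [AddCommGroup V] [Module L V] [FiniteDimensional L V] (𝒟 : Cfg L V J), 𝒟.Rich →
      ¬ CritT.{u, w} 𝒟) : HypT.{u, w} J := by
  intro L V _ _ _ _ _ 𝒟 hc
  obtain ⟨L', _, _, _, τ, d, h1, h2, h3⟩ := exists_rich_field L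
  have hL' : CharZero L' := charZero_ext L L'
  exact h L' (L' ⊗[L] V) (bcC 𝒟 L') (rich_of_field h1 h2 h3 𝒟) (hc.bc L')

end crit

end Vale.Agent.P182.H62
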