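import Vale.Agent.P182.H62.Chain

/-!
# Chains on spaces of linear maps
-/

namespace Vale.Agent.P182

open Module

variable {k F : Type*} [Field k] [Field F] [Algebra k F]

theorem exists_le_of_finite {ι : Type*} [Finite ι] (g : ι → ℤ) : ∃ C : ℤ, ∀ i, C ≤ g i := by
  obtain ⟨C, hC⟩ := (Set.finite_range g).bddBelow
  exact ⟨C, fun i => hC ⟨i, rfl⟩⟩

namespace LChain

variable {P : Place k F} {p : ℕ}

/-- the unit chain -/
def unit (P : Place k F) {p : ℕ} (hp : 0 < p) : LChain P p F where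
  L a := P.M p a
  pos := hp
  anti a b h := P.M_anti h
  smul_iff f hf a x := P.smul_mem_iff hf
  exhaust x := ⟨_, P.mem_M_ord x⟩
  bdd φ := by
    refine ⟨p * P.ord (φ 1), fun a x hx => ?_⟩
    have h : φ x = x * φ 1 := by
      rw [← smul_eq_mul, ← map_smul, smul_eq_mul, mul_one]
    rw [h]
    exact P.mul_mem_M hx (P.mem_M_ord _)

@[simp] theorem mem_unit {hp : 0 < p} {a : ℤ} {x : F} : x ∈ (unit P hp).L a ↔ x ∈ P.M p a := Iff.rfl

variable {E : Type*} [AddCommGroup E] [Module F E] [Module k E]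

/-- the twist of a chain: `(shift n).L a = L (a + n)` -/
def shift (C : LChain P p E) (n : ℤ) : LChain P p E where
  L a := C.L (a + n)
  pos := C.pos
  anti a b h := C.anti _ _ (by omega)
  smul_iff f hf a x := by
    rw [C.smul_iff f hf, show a + n - p * P.ord f = a - p * P.ord f + n by ring]
  exhaust x := by
    obtain ⟨a, ha⟩ := C.exhaust x
    exact ⟨a - n, by rwa [sub_add_cancel]⟩
  bdd φ := by
    obtain ⟨c, hc⟩ := C.bdd φ
    refine ⟨c + n, fun a x hx => ?_⟩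
    have := hc _ x hx
    rwa [show a + n + c = a + (c + n) by ring] at this

@[simp] theorem mem_shift (C : LChain P p E) (n a : ℤ) (x : E) :
    x ∈ (C.shift n).L a ↔ x ∈ C.L (a + n) := Iff.rfl

theorem SplitBy.shift {C : LChain P p E} {ι : Type*} {b : Basis ι F E} {w : ι → ℤ}
    (h : C.SplitBy b w) (n : ℤ) : (C.shift n).SplitBy b (fun i => w i - n) := by
  intro a x
  rw [mem_shift, h]
  refine forall_congr' fun i => ?_
  rw [show a + n - w i = a - (w i - n) by ring]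

omit [Module F E] in
/-- boundedness from a formula -/
theorem bdd_of_sum {L : ℤ → Submodule k E} {ι : Type*} [Fintype ι] (φ : E → F) (u : ι → E → F)
    (g : ι → F) (hsum : ∀ x, φ x = ∑ i, u i x * g i) (c : ι → ℤ)
    (hu : ∀ i a x, x ∈ L a → u i x ∈ P.M p (a + c i)) :
    ∃ C : ℤ, ∀ a x, x ∈ L a → φ x ∈ P.M p (a + C) := by
  obtain ⟨C, hC⟩ := exists_le_of_finite (fun i => c i + p * P.ord (g i))
  refine ⟨C, fun a x hx => ?_⟩
  rw [hsum]
  refine Submodule.sum_mem _ fun i _ => ?_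
  refine P.M_anti ?_ (P.mul_mem_M (hu i a x hx) (P.mem_M_ord (g i)))
  have := hC i
  linarith

variable [IsScalarTower k F E] {E₂ : Type*} [AddCommGroup E₂] [Module F E₂] [Module k E₂]
  [IsScalarTower k F E₂]

/-- The chain on `Hom(E, E₂)`. -/
def hom [FiniteDimensional F E] [FiniteDimensional F E₂] (C : LChain P p E)
    (C₂ : LChain P p E₂) : LChain P p (E →ₗ[F] E₂) where
  L c :=
    { carrier := {φ | ∀ b x, x ∈ C.L b → φ x ∈ C₂.L (b + c)}
      zero_mem' := fun b x _ => Submodule.zero_mem _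
      add_mem' := fun {φ ψ} hφ hψ b x hx => Submodule.add_mem _ (hφ b x hx) (hψ b x hx)
      smul_mem' := fun a φ hφ b x hx => Submodule.smul_mem _ a (hφ b x hx) }
  pos := C.pos
  anti a b h φ hφ c x hx := C₂.anti _ _ (by omega) (hφ c x hx)
  smul_iff f hf a φ := by
    refine forall_congr' fun b => forall_congr' fun x => imp_congr_right fun _ => ?_
    rw [LinearMap.smul_apply, C₂.smul_iff f hf, show b + a - p * P.ord f = b + (a - p * P.ord f) by ring]
  exhaust φ := by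
    obtain ⟨b, w, hb⟩ := C.exists_split
    choose a ha using fun i => C₂.exhaust (φ (b i))
    obtain ⟨c, hc⟩ := exists_le_of_finite (fun i => a i - w i)
    refine ⟨c, fun d x hx => ?_⟩
    rw [← b.sum_repr x, map_sum]
    refine Submodule.sum_mem _ fun i _ => ?_
    rw [map_smul]
    refine C₂.smul_mem' ((hb d x).mp hx i) (ha i) ?_
    have := hc i
    linarith
  bdd Φ := by
    obtain ⟨b, w, hb⟩ := C.exists_split
    obtain ⟨b₂, w₂, hb₂⟩ := C₂.exists_split
    refine bdd_of_sum (ι := Fin (finrank F E) × Fin (finrank F E₂)) Φ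
      (fun ij φ => b₂.repr (φ (b ij.1)) ij.2)
      (fun ij => Φ ((b.coord ij.1).smulRight (b₂ ij.2))) ?_
      (fun ij => w ij.1 - w₂ ij.2) ?_
    · intro φ
      have h1 : φ = ∑ ij : Fin (finrank F E) × Fin (finrank F E₂),
          (b₂.repr (φ (b ij.1)) ij.2) • ((b.coord ij.1).smulRight (b₂ ij.2)) := by
        apply b.ext
        intro i
        rw [Fintype.sum_prod_type, LinearMap.sum_apply, Finset.sum_eq_single i]
        · rw [LinearMap.sum_apply]
          simp only [LinearMap.smul_apply, LinearMap.smulRight_apply, Basis.coord_apply,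
            Basis.repr_self, Finsupp.single_eq_same, one_smul]
          exact (b₂.sum_repr _).symm
        · intro j _ hj
          rw [LinearMap.sum_apply]
          refine Finset.sum_eq_zero fun l _ => ?_
          simp only [LinearMap.smul_apply, LinearMap.smulRight_apply, Basis.coord_apply,
            Basis.repr_self]
          rw [Finsupp.single_eq_of_ne hj, zero_smul, smul_zero]
        · intro h
          exact absurd (Finset.mem_univ _) h
      conv_lhs => rw [h1]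
      rw [map_sum]
      refine Finset.sum_congr rfl fun ij _ => ?_
      rw [map_smul, smul_eq_mul]
    · rintro ⟨i, j⟩ a φ hφ
      have h1 := hφ _ _ (hb.basis_mem i)
      have h2 := (hb₂ _ _).mp h1 j
      refine P.M_anti (le_of_eq ?_) h2
      ring

section hom

variable [FiniteDimensional F E] [FiniteDimensional F E₂] (C : LChain P p E)
  (C₂ : LChain P p E₂)

theorem mem_hom {c : ℤ} {φ : E →ₗ[F] E₂} :
    φ ∈ (C.hom C₂).L c ↔ ∀ b x, x ∈ C.L b → φ x ∈ C₂.L (b + c) := Iff.rfl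

theorem SplitBy.mem_hom {C : LChain P p E} {C₂ : LChain P p E₂} {ι : Type*} [Fintype ι]
    {b : Basis ι F E} {w : ι → ℤ} (h : C.SplitBy b w) {c : ℤ} {φ : E →ₗ[F] E₂} :
    φ ∈ (C.hom C₂).L c ↔ ∀ i, φ (b i) ∈ C₂.L (w i + c) := by
  refine ⟨fun hφ i => hφ _ _ (h.basis_mem i), fun hφ d x hx => ?_⟩
  rw [← b.sum_repr x, map_sum]
  refine Submodule.sum_mem _ fun i _ => ?_
  rw [map_smul]
  refine C₂.smul_mem' ((h d x).mp hx i) (hφ i) ?_
  linarith

variable {E₃ : Type*} [AddCommGroup E₃] [Module F E₃] [Module k E₃]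
  [IsScalarTower k F E₃] [FiniteDimensional F E₃] (C₃ : LChain P p E₃)

theorem comp_mem {c d : ℤ} {φ : E →ₗ[F] E₂} {ψ : E₂ →ₗ[F] E₃} (hφ : φ ∈ (C.hom C₂).L c)
    (hψ : ψ ∈ (C₂.hom C₃).L d) : ψ ∘ₗ φ ∈ (C.hom C₃).L (c + d) := by
  intro b x hx
  have := hψ _ _ (hφ b x hx)
  rwa [add_assoc] at this

theorem id_mem : (LinearMap.id : E →ₗ[F] E) ∈ (C.hom C).L 0 := by
  intro b x hx
  simpa using hx

/-- (S1) lifting maps to a quotient -/
theorem hom_quo_surj (S : Submodule F E₂) {c : ℤ} {φ : E →ₗ[F] (E₂ ⧸ S)}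
    (hφ : φ ∈ (C.hom (C₂.quo S)).L c) :
    ∃ ψ : E →ₗ[F] E₂, ψ ∈ (C.hom C₂).L c ∧ S.mkQ ∘ₗ ψ = φ := by
  obtain ⟨s, hs1, hs2⟩ := C₂.exists_section S
  exact ⟨s ∘ₗ φ, fun b x hx => hs2 _ _ (hφ b x hx), LinearMap.ext fun x => hs1 _⟩

theorem hom_quo_mem (S : Submodule F E₂) {c : ℤ} {ψ : E →ₗ[F] E₂} (hψ : ψ ∈ (C.hom C₂).L c) :
    S.mkQ ∘ₗ ψ ∈ (C.hom (C₂.quo S)).L c :=
  fun b x hx => C₂.mkQ_mem_quo S (hψ b x hx)

theorem hom_sub_iff (S : Submodule F E₂) {c : ℤ} {φ : E →ₗ[F] S} :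
    φ ∈ (C.hom (C₂.sub S)).L c ↔ S.subtype ∘ₗ φ ∈ (C.hom C₂).L c := Iff.rfl

/-- (S2) extending maps from a subspace -/
theorem hom_sub_surj (S : Submodule F E) {c : ℤ} {φ : S →ₗ[F] E₂}
    (hφ : φ ∈ ((C.sub S).hom C₂).L c) :
    ∃ ψ : E →ₗ[F] E₂, ψ ∈ (C.hom C₂).L c ∧ ψ ∘ₗ S.subtype = φ := by
  obtain ⟨e, he1, he2, he3⟩ := C.exists_proj S
  refine ⟨φ ∘ₗ (e.codRestrict S he1), fun b x hx => ?_, ?_⟩
  · exact hφ b _ (he3 b x hx)
  · ext x
    have : e.codRestrict S he1 (x : E) = x := Subtype.ext (he2 x x.2)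
    simp [this]

theorem hom_sub_mem (S : Submodule F E) {c : ℤ} {ψ : E →ₗ[F] E₂} (hψ : ψ ∈ (C.hom C₂).L c) :
    ψ ∘ₗ S.subtype ∈ ((C.sub S).hom C₂).L c :=
  fun b x hx => hψ b x hx

theorem hom_quo_left_iff (S : Submodule F E) {c : ℤ} {φ : (E ⧸ S) →ₗ[F] E₂} :
    φ ∈ ((C.quo S).hom C₂).L c ↔ φ ∘ₗ S.mkQ ∈ (C.hom C₂).L c := by
  constructor
  · intro h b x hx
    exact h b _ (C.mkQ_mem_quo S hx)
  · rintro h b _ ⟨x, hx, rfl⟩
    exact h b x hx

/-- the dual chain -/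
def dual : LChain P p (Dual F E) := C.hom (unit P C.pos)

theorem mem_dual {c : ℤ} {φ : Dual F E} :
    φ ∈ C.dual.L c ↔ ∀ b x, x ∈ C.L b → φ x ∈ P.M p (b + c) := Iff.rfl

/-- biduality -/
theorem mem_iff_dual {a : ℤ} {x : E} :
    x ∈ C.L a ↔ ∀ b φ, φ ∈ C.dual.L b → φ x ∈ P.M p (a + b) := by
  constructor
  · intro hx b φ hφ
    exact hφ a x hx
  · intro h
    obtain ⟨b, w, hb⟩ := C.exists_split
    rw [hb]
    intro i
    have h1 : b.coord i ∈ C.dual.L (- w i) := by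
      rw [mem_dual]
      intro d y hy
      exact P.M_anti (le_of_eq (by ring)) ((hb d y).mp hy i)
    exact P.M_anti (le_of_eq (by ring)) (h _ _ h1)

theorem mem_hom_iff_dual {c : ℤ} {φ : E →ₗ[F] E₂} :
    φ ∈ (C.hom C₂).L c ↔ ∀ a x, x ∈ C.L a → ∀ b ψ, ψ ∈ C₂.dual.L b →
      ψ (φ x) ∈ P.M p (a + b + c) := by
  refine forall_congr' fun a => forall_congr' fun x => imp_congr_right fun _ => ?_
  rw [mem_iff_dual]
  refine forall_congr' fun b => forall_congr' fun ψ => imp_congr_right fun _ => ?_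
  rw [show a + c + b = a + b + c by ring]

/-- transpose of a map -/
theorem dualMap_mem_iff {c : ℤ} {φ : E →ₗ[F] E₂} :
    φ.dualMap ∈ (C₂.dual.hom C.dual).L c ↔ φ ∈ (C.hom C₂).L c := by
  rw [mem_hom_iff_dual C C₂ (φ := φ)]
  constructor
  · intro h a x hx b ψ hψ
    have := h b ψ hψ a x hx
    rwa [LinearMap.dualMap_apply, ← add_assoc] at this
  · intro h b ψ hψ a x hx
    have := h a x hx b ψ hψ
    rwa [LinearMap.dualMap_apply, ← add_assoc]

/-- the chain of bilinear forms: `B ∈ bil.L c` iff `B(L a, L b) ⊆ M (a + b + c)` -/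
def bil : LChain P p (E →ₗ[F] E →ₗ[F] F) := C.hom C.dual

theorem mem_bil {c : ℤ} {B : E →ₗ[F] E →ₗ[F] F} :
    B ∈ C.bil.L c ↔ ∀ a x, x ∈ C.L a → ∀ b y, y ∈ C.L b → B x y ∈ P.M p (a + b + c) := by
  refine forall_congr' fun a => forall_congr' fun x => imp_congr_right fun _ => ?_
  rw [mem_dual]
  refine forall_congr' fun b => forall_congr' fun y => imp_congr_right fun _ => ?_
  rw [show b + (a + c) = a + b + c by ring]

theorem flip_mem_bil {c : ℤ} {B : E →ₗ[F] E →ₗ[F] F} (hB : B ∈ C.bil.L c) :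
    B.flip ∈ C.bil.L c := by
  rw [mem_bil] at hB ⊢
  intro a x hx b y hy
  have := hB b y hy a x hx
  rwa [add_comm b a] at this

end hom

end LChain

end Vale.Agent.P182
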