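import Vale.Agent.P182.H983.GDef
import Vale.Agent.P182.H588.UBlk3
import Vale.Agent.P182.H96.Gen5
import Vale.Agent.P182.H55.NullU

/-!
# The blocks exist

Every null core with a separating `D` gives the data `Blk` (row G0), with the finest blocks.
-/

namespace Vale.Agent.P182.H62

open Module Matrix Vale.Agent.P182.H533 Vale.Agent.P182.B1 Vale.Agent.P182.H922
  Vale.Agent.P182.H578 Vale.Agent.P182.H588 Vale.Agent.P182.H588.B Vale.Agent.P182.H983

section abs

variable {L V : Type*} [Field L] [AddCommGroup V] [Module L V]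

theorem itI_eq {S : Fin 3 → End L V} (A : Submodule L V) (n : ℕ) :
    H96.Tl.itI S A n = wordsOn S A n := by
  induction n with
  | zero => rfl
  | succ n ih =>
    show ⨆ a, (H96.Tl.itI S A n).map (S a) = ⨆ a, (wordsOn S A n).map (S a)
    rw [ih]

theorem wordsOn_mono {ι : Type*} {S : ι → End L V} {A B : Submodule L V} (h : A ≤ B) (n : ℕ) :
    wordsOn S A n ≤ wordsOn S B n := by
  induction n with
  | zero => exact h
  | succ n ih => exact iSup_mono fun s => Submodule.map_mono ih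

/-- the null type in exactness form -/
theorem nulE_of_nul [FiniteDimensional L V] {q : V →ₗ[L] V →ₗ[L] L} {S : Fin 3 → End L V}
    {p : Fin 3 → ℕ} (h : H89.Nul q S p) (h1 : ∀ s, 1 ≤ p s) : H96.Tl.NulE S p where
  sum := h.sum
  pow := h.pow
  pos := h1
  exact a := (H388.ker_eq_range (h.pow a) (h.rk a) (h1 a)).le
  count := h.tot
  span := h.span
  inf := by
    rw [eq_bot_iff]
    intro x hx
    rw [Submodule.mem_iInf] at hx
    rw [Submodule.mem_bot]
    refine h.form.nondeg x fun y => ?_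
    have hy : y ∈ ⨆ a, LinearMap.range (S a) := by rw [h.span]; trivial
    refine Submodule.iSup_induction (fun a => LinearMap.range (S a))
      (motive := fun y => q x y = 0) hy ?_ (map_zero _) ?_
    · rintro a _ ⟨z, rfl⟩
      rw [← h.sa a, (hx a : S a x = 0), map_zero, LinearMap.zero_apply]
    · intro y z hy hz
      rw [map_add, hy, hz, add_zero]

/-- dropping the idempotents which are zero -/
theorem nonzero_idem {q : V →ₗ[L] V →ₗ[L] L} {S : Fin 3 → End L V} {m : ℕ}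
    {e : Fin m → End L V} (hes : ∀ i, IsSA q (e i)) (hec : ∀ i s, e i * S s = S s * e i)
    (hem : ∀ i j, e i * e j = if i = j then e i else 0) (he1 : ∑ i, e i = 1)
    (hsp : ∀ M, IsSA q M → (∀ s, M * S s = S s * M) → ∃ κ : Fin m → L, M = ∑ i, κ i • e i) :
    ∃ (n : ℕ) (P : Fin n → End L V), (∀ i, IsSA q (P i)) ∧
      (∀ i s, P i * S s = S s * P i) ∧ (∀ i j, P i * P j = if i = j then P i else 0) ∧
      ∑ i, P i = 1 ∧ (∀ i, P i ≠ 0) ∧
      ∀ M, IsSA q M → (∀ s, M * S s = S s * M) → ∃ κ : Fin n → L, M = ∑ i, κ i • P i := by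
  classical
  set F := {i : Fin m // e i ≠ 0} with hF
  let g : Fin (Fintype.card F) ≃ F := (Fintype.equivFin F).symm
  have hsum : ∀ c : Fin m → L, ∑ i, c (g i).1 • e (g i).1 = ∑ i, c i • e i := by
    intro c
    rw [g.sum_comp fun x : F => c x.1 • e x.1]
    rw [← Finset.sum_subtype (Finset.univ.filter fun i => e i ≠ 0) (by simp)
      (fun i => c i • e i)]
    refine Finset.sum_filter_of_ne fun i _ h h0 => h ?_
    rw [h0, smul_zero]
  refine ⟨Fintype.card F, fun i => e (g i).1, fun i => hes _, fun i => hec _, ?_, ?_,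
    fun i => (g i).2, ?_⟩
  · intro i j
    rw [hem]
    by_cases h : i = j
    · subst h
      rw [if_pos rfl, if_pos rfl]
    · rw [if_neg h, if_neg]
      intro hh
      exact h (g.injective (Subtype.ext hh))
  · have h1 := hsum fun _ => 1
    simp only [one_smul] at h1
    rw [h1, he1]
  · intro M hM hMS
    obtain ⟨κ, hκ⟩ := hsp M hM hMS
    exact ⟨fun i => κ (g i).1, by rw [hsum, hκ]⟩

end abs

section blk

variable {L V J : Type*} [Field L] [AddCommGroup V] [Module L V] [FiniteDimensional L V]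
  [Fintype J] [DecidableEq J] {𝒟 : Cfg L V J} {u : J → L} {t t' : J → V}

/-- **The primitive idempotents** of the symmetric commutant of the core. -/
structure BlkP (hG : 𝒟.Good) (C : Core 𝒟.q (Res 𝒟 t)) (D : End L C.V1) {n : ℕ}
    (P : Fin n → End L C.V1) (d : Fin n → L) : Prop where
  sa : ∀ i, IsSA C.q1 (P i)
  comm : ∀ i s, P i * C.S1 hG.form s = C.S1 hG.form s * P i
  mul : ∀ i j, P i * P j = if i = j then P i else 0
  sum : ∑ i, P i = 1
  ne : ∀ i, P i ≠ 0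
  eq : D = ∑ i, d i • P i
  span : ∀ M, IsSA C.q1 M → (∀ s, M * C.S1 hG.form s = C.S1 hG.form s * M) →
    ∃ κ : Fin n → L, M = ∑ i, κ i • P i

theorem BlkP.idem {hG : 𝒟.Good} {C : Core 𝒟.q (Res 𝒟 t)} {D : End L C.V1} {n : ℕ}
    {P : Fin n → End L C.V1} {d : Fin n → L} (h : BlkP hG C D P d) (i : Fin n) :
    P i * P i = P i := by
  rw [h.mul, if_pos rfl]

theorem BlkP.orth {hG : 𝒟.Good} {C : Core 𝒟.q (Res 𝒟 t)} {D : End L C.V1} {n : ℕ}
    {P : Fin n → End L C.V1} {d : Fin n → L} (h : BlkP hG C D P d) (i j : Fin n) (hij : i ≠ j) :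
    P i * P j = 0 := by
  rw [h.mul, if_neg hij]

theorem sum_mul_P {hG : 𝒟.Good} {C : Core 𝒟.q (Res 𝒟 t)} {D : End L C.V1} {n : ℕ}
    {P : Fin n → End L C.V1} {d : Fin n → L} (h : BlkP hG C D P d) (κ : Fin n → L) (i : Fin n) :
    (∑ j, κ j • P j) * P i = κ i • P i := by
  rw [Finset.sum_mul, Finset.sum_eq_single i]
  · rw [smul_mul_assoc, h.idem]
  · intro j _ hj
    rw [smul_mul_assoc, h.orth j i hj, smul_zero]
  · intro hh
    exact absurd (Finset.mem_univ i) hh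

theorem BlkP.D_mul {hG : 𝒟.Good} {C : Core 𝒟.q (Res 𝒟 t)} {D : End L C.V1} {n : ℕ}
    {P : Fin n → End L C.V1} {d : Fin n → L} (h : BlkP hG C D P d) (i : Fin n) :
    D * P i = d i • P i := by
  rw [h.eq]
  exact sum_mul_P h d i

/-- the blocks are orthogonal -/
theorem BlkP.ortho {hG : 𝒟.Good} {C : Core 𝒟.q (Res 𝒟 t)} {D : End L C.V1} {n : ℕ}
    {P : Fin n → End L C.V1} {d : Fin n → L} (h : BlkP hG C D P d) {i j : Fin n} (hij : i ≠ j)
    {v w : V} (hv : v ∈ Ui hG C (P i)) (hw : w ∈ Ui hG C (P j)) : 𝒟.q v w = 0 := by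
  rw [q_W hG C (Ui_le_W hG C hv) (Ui_le_W hG C hw)]
  obtain ⟨x, hx⟩ := P_Ui hG C hv
  obtain ⟨y, hy⟩ := P_Ui hG C hw
  rw [← hx, ← hy, h.sa, ← Module.End.mul_apply, h.orth i j hij, LinearMap.zero_apply, map_zero]

/-- the projection is fixed by the idempotent -/
theorem BlkP.fix {hG : 𝒟.Good} {C : Core 𝒟.q (Res 𝒟 t)} {D : End L C.V1} {n : ℕ}
    {P : Fin n → End L C.V1} {d : Fin n → L} (h : BlkP hG C D P d) {k : Fin n} {w : V}
    (hw : w ∈ Ui hG C (P k)) : P k (C.P hG.form w) = C.P hG.form w := by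
  obtain ⟨x, hx⟩ := P_Ui hG C hw
  rw [← hx, ← Module.End.mul_apply, h.idem]

/-- **the elements of the symmetric commutant are scalars on the blocks** -/
theorem BlkP.scal {hG : 𝒟.Good} {C : Core 𝒟.q (Res 𝒟 t)} {D : End L C.V1} {n : ℕ}
    {P : Fin n → End L C.V1} {d : Fin n → L} (h : BlkP hG C D P d) (Γ : End L V)
    (hW : ∀ w ∈ C.W, Γ w ∈ C.W) (hI : ∀ w ∈ C.I, Γ w ∈ C.I)
    (hs : ∀ v ∈ C.W, ∀ w ∈ C.W, 𝒟.q (Γ v) w = 𝒟.q v (Γ w))
    (hc : ∀ a, ∀ w ∈ C.W, Γ (Res 𝒟 t a w) - Res 𝒟 t a (Γ w) ∈ C.I) :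
    ∃ c : Fin n → L, ∀ k, ∀ w ∈ Ui hG C (P k), Γ w - c k • w ∈ C.I := by
  have hP : ∀ w ∈ C.W, C.P hG.form (Γ w) = C.P hG.form (Γ (C.P hG.form w)) := by
    intro w hw
    have h1 := hI _ (C.sub_P_mem_I hG.form hw)
    have h2 := C.P_eq_zero hG.form (C.I_le_perp h1)
    rw [map_sub, map_sub, sub_eq_zero] at h2
    exact h2
  have hMs : IsSA C.q1 (C.res hG.form Γ) := by
    intro v w
    have h1 : C.res hG.form Γ v = C.P hG.form (Γ v) := rfl
    have h2 : C.res hG.form Γ w = C.P hG.form (Γ w) := rfl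
    rw [h1, h2, C.q_P, hs _ (C.V1_le v.2) _ (C.V1_le w.2), (C.isForm hG.form).symm, C.q_P,
      hG.form.symm]
  have hMc : ∀ a, C.res hG.form Γ * C.S1 hG.form a = C.S1 hG.form a * C.res hG.form Γ := by
    intro a
    refine LinearMap.ext fun v => ?_
    have hv := C.V1_le v.2
    show C.P hG.form (Γ (C.P hG.form (Res 𝒟 t a v))) = C.S1 hG.form a (C.P hG.form (Γ v))
    rw [← hP _ (C.map_W hv), ← P_S_W hG C (hW _ hv), ← sub_eq_zero, ← map_sub]
    exact C.P_eq_zero hG.form (C.I_le_perp (hc a _ hv))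
  obtain ⟨κ, hκ⟩ := h.span (C.res hG.form Γ) hMs hMc
  refine ⟨κ, fun k w hw => ?_⟩
  have hwW := Ui_le_W hG C hw
  apply mem_I_of_P hG C (sub_mem (hW w hwW) (Submodule.smul_mem _ _ hwW))
  rw [map_sub, map_smul, hP w hwW]
  have h3 : C.P hG.form (Γ (C.P hG.form w)) = C.res hG.form Γ (C.P hG.form w) := rfl
  rw [h3, hκ]
  have h4 := LinearMap.congr_fun (sum_mul_P h κ k) (C.P hG.form w)
  rw [Module.End.mul_apply, h.fix hw, LinearMap.smul_apply, h.fix hw] at h4
  rw [h4, sub_self]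

/-- **The block data from the idempotents.** -/
theorem blk_of (hG : 𝒟.Good) (ht : t ∈ Ku 𝒟 u) (ht' : t' ∈ Ku 𝒟 u) (hrel : Rel 𝒟 t t')
    (C : Core 𝒟.q (Res 𝒟 t)) {D : End L C.V1}
    (hD1 : ∀ s, C.res hG.form (opr 𝒟.q (Tt L t) (Gm 𝒟.arm 𝒟.Ω s) (Tt L t')) =
      C.S1 hG.form s * D)
    (hspan : ∀ k ∈ Ku 𝒟 u, ∃ a b : L, k = a • t + b • t') {n : ℕ}
    {P : Fin n → End L C.V1} {d : Fin n → L} (h2 : ∀ i, ∃ j, d j ≠ d i)
    (hne : Nonempty (Fin n))
    (hP : BlkP hG C D P d) {p : Fin 3 → ℕ}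
    (hp : H89.Nul C.q1 (C.S1 hG.form) p) (h1 : ∀ s, 1 ≤ p s) :
    Blk 𝒟 u t t' C.W C.I (fun k => Ui hG C (P k)) d p := by
  have hSA : ∀ s, IsSA 𝒟.q (Res 𝒟 t s) := SA_Res t hG
  refine
  { ht := ht
    ht' := ht'
    span := hspan
    I_eq := rfl
    W_eq := ⟨C.N, C.hN⟩
    sumW := C.hW
    nil := nil_Ui hG C
    two := h2
    supU := iSup_Ui hG C hP.sum hP.comm
    supI := ?_
    ortho := fun i j hij v hv w hw => hP.ortho hij hv hw
    sumU := fun k => Ui_map hG C (hP.comm k)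
    star := fun k w hw l => star_Ui hG C hrel hD1 (hP.comm k) (hP.D_mul k) hw l
    op := fun k a w hw => opr_Ui hG C hrel hD1 (hP.comm k) (hP.D_mul k) hw _ a
    pow := fun k s w hw => pow_mem_I hG C hp.pow s (Ui_le_W hG C hw)
    soc := fun w hw h => soc_W C hG hw h
    gen := ?_
    one := h1
    scal := fun Γ hW hI hs hc => hP.scal Γ hW hI hs hc
    top := fun k s => top_Ui hG C hP.idem hP.orth hP.sum hP.comm hP.sa hP.ne hp.pow hp.rk k s }
  · have h3 := iSup_I hG C hP.idem hP.orth hP.sum hP.comm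
    conv_rhs => rw [← h3]
    exact iSup_congr fun k => inf_comm _ _
  · intro k X hX hXp
    have hN := nulE_of_nul (hp.red (hP.idem k) (hP.sa k) (hP.comm k)) h1
    have hkI : ∀ {w : V}, w ∈ C.W → (C.P hG.form w = 0 ↔ w ∈ C.I) := fun {w} hw =>
      ⟨fun h => mem_I_of_P hG C hw h, fun h => C.P_eq_zero hG.form (C.I_le_perp h)⟩
    have key := H96.Tl.gen (S := Res 𝒟 t) (U := Ui hG C (P k))
      (E := LinearMap.range (P k)) (π := (P k).rangeRestrict ∘ₗ C.P hG.form) (X := X)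
      (N := C.N) ?_ (Ui_map hG C (hP.comm k)).ge (fun a v hv => Ui_stab hG C (hP.comm k) a hv)
      hN ?_ ?_ ?_ (fun a v hv => hX a (Submodule.mem_map_of_mem hv))
      (fun a v hv => hXp a (Submodule.mem_map_of_mem hv))
    · intro v hv
      refine key ⟨hv.1, ?_⟩
      have h5 : ((P k).rangeRestrict ∘ₗ C.P hG.form) v = 0 := by
        rw [LinearMap.comp_apply, (hkI (Ui_le_W hG C hv.1)).mpr hv.2, map_zero]
      exact h5
    · refine LinearMap.ext fun v => ?_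
      rw [LinearMap.sum_apply, LinearMap.zero_apply]
      have h4 : ∀ s, Res 𝒟 t s v = Tt L t (Gm 𝒟.arm 𝒟.Ω s *ᵥ ad 𝒟.q (Tt L t) v) := fun s => rfl
      simp only [h4]
      rw [← map_sum, ← Matrix.sum_mulVec, Gm_sum, Matrix.zero_mulVec, map_zero]
    · intro a v hv
      apply Subtype.ext
      rw [H89.cW_coe' (hP.idem k) (hP.comm k a)]
      show P k (C.P hG.form (Res 𝒟 t a v)) = C.S1 hG.form a (P k (C.P hG.form v))
      rw [P_S_W hG C (Ui_le_W hG C hv), ← Module.End.mul_apply, hP.comm]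
      rfl
    · rintro ⟨_, x, rfl⟩
      obtain ⟨v, hv, hv2⟩ := exists_Ui hG C hP.idem hP.orth hP.sum hP.comm k x
      refine ⟨v, hv, Subtype.ext ?_⟩
      show P k (C.P hG.form v) = P k x
      rw [hv2, ← Module.End.mul_apply, hP.idem]
    · rw [itI_eq, eq_bot_iff, ← wordsOn_perp hG.form hSA C]
      refine wordsOn_mono ?_ _
      rintro v ⟨hv, hv2⟩
      refine C.I_le_perp ((hkI (Ui_le_W hG C hv)).mp ?_)
      rw [← hP.fix hv]
      exact congrArg Subtype.val (LinearMap.mem_ker.mp hv2)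

/-- **ROW G0: the blocks exist.** -/
theorem exists_blk [IsAlgClosed L] [CharZero L] (h : CritU 𝒟 u) (ht : t ∈ Ku 𝒟 u)
    (hm : MovesU 𝒟 u t) (C : Core 𝒟.q (Res 𝒟 t)) (ht' : t' ∈ Ku 𝒟 u) {D : End L C.V1}
    (hDs : IsSA C.q1 D)
    (hD1 : ∀ s, C.res h.ctx.good.form (opr 𝒟.q (Tt L t) (Gm 𝒟.arm 𝒟.Ω s) (Tt L t')) =
      C.S1 h.ctx.good.form s * D)
    (hD2 : ∀ s, C.res h.ctx.good.form (opr 𝒟.q (Tt L t) (Gm 𝒟.arm 𝒟.Ω s) (Tt L t')) =
      D * C.S1 h.ctx.good.form s)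
    (he : ∃ a b : L, a ≠ b ∧ D.HasEigenvalue a ∧ D.HasEigenvalue b)
    (hN : NullCore C h.ctx.good.form) :
    ∃ (n : ℕ) (P : Fin n → End L C.V1) (d : Fin n → L) (p : Fin 3 → ℕ),
      BlkP h.ctx.good C D P d ∧ H89.Nul C.q1 (C.S1 h.ctx.good.form) p ∧
      H89.StructS C.q1 (C.S1 h.ctx.good.form) ∧
      Blk 𝒟 u t t' C.W C.I (fun k => Ui h.ctx.good C (P k)) d p := by
  have hC := h.ctx
  have hG := hC.good
  have hrel : Rel 𝒟 t t' := H578.U.rel_of_krel hC.krel ht ht'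
  have hDc : ∀ s, D * C.S1 hG.form s = C.S1 hG.form s * D := fun s => by rw [← hD2, ← hD1]
  have hK := H55.span_of_DU hG (Ku 𝒟 u) h.dim ht ht' C hD1 he
  obtain ⟨p, hp⟩ := H258.nul_core hG t C hN
  have hstr := H58.structThm _ _ _ p hp (hC.realS t ht hm C)
  have hS' := hstr
  obtain ⟨⟨m, e, hes, hec, hem, he1, hsp⟩, -⟩ := hstr
  obtain ⟨n, P, hPS, hPc, hPP, hP1, hP0, hPsp⟩ := nonzero_idem hes hec hem he1 hsp
  obtain ⟨d, hd⟩ := hPsp D hDs hDc
  have hP : BlkP hG C D P d := ⟨hPS, hPc, hPP, hP1, hP0, hd, hPsp⟩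
  obtain ⟨a, b, hab, ha, hb⟩ := he
  -- the eigenvalues are among the `d i`
  have heig : ∀ c, D.HasEigenvalue c → ∃ i, d i = c := by
    intro c hc
    obtain ⟨v, hv⟩ := hc.exists_hasEigenvector
    obtain ⟨i, hi⟩ : ∃ i, P i v ≠ 0 := by
      by_contra hcon
      push Not at hcon
      apply hv.2
      have h3 : (∑ i, P i) v = 0 := by
        rw [LinearMap.sum_apply]
        exact Finset.sum_eq_zero fun i _ => hcon i
      rwa [hP1, Module.End.one_apply] at h3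
    refine ⟨i, ?_⟩
    have h4 : P i (D v) = d i • P i v := by
      rw [← Module.End.mul_apply, hd, Finset.mul_sum, Finset.sum_eq_single i]
      · rw [mul_smul_comm, hP.idem, LinearMap.smul_apply]
      · intro j _ hj
        rw [mul_smul_comm, hP.orth i j hj.symm, smul_zero]
      · intro hh
        exact absurd (Finset.mem_univ i) hh
    rw [hv.apply_eq_smul, map_smul] at h4
    have h5 : (d i - c) • P i v = 0 := by rw [sub_smul, ← h4, sub_self]
    exact sub_eq_zero.mp ((smul_eq_zero.mp h5).resolve_right hi)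
  obtain ⟨i0, hi0⟩ := heig a ha
  obtain ⟨j0, hj0⟩ := heig b hb
  have h2 : ∀ i, ∃ j, d j ≠ d i := by
    intro i
    by_cases hi : d i = a
    · exact ⟨j0, by rw [hi, hj0]; exact hab.symm⟩
    · exact ⟨i0, by rw [hi0]; exact fun h => hi h.symm⟩
  have h1 : ∀ s, 1 ≤ p s := by
    intro s
    rw [Nat.one_le_iff_ne_zero]
    intro h0
    have h2 := hp.pow s
    rw [h0, pow_zero] at h2
    obtain ⟨v, hv⟩ := ha.exists_hasEigenvector
    apply hv.2
    have h3 : (1 : End L C.V1) v = 0 := by rw [h2]; rfl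
    exact h3
  exact ⟨n, P, d, p, hP, hp, hS', blk_of hG ht ht' hrel C hD1 hK h2 ⟨i0⟩ hP hp h1⟩

end blk

end Vale.Agent.P182.H62
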