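import Vale.Agent.P182.H62.Adams

/-!
# The Adams identity, second part: rank one and induction
-/

namespace Vale.Agent.P182.H430

open Module

universe u

namespace Bun

variable {k F P : Type*} [Field k] [Field F] [Algebra k F] {C : Curve k F P}

section one

variable {E : Type*} [AddCommGroup E] [Module F E] [Module k E] [IsScalarTower k F E]

/-- the dual bundle and exact sequences -/
theorem chi_du_twist [FiniteDimensional F E] (B : Bun C E) (S : Submodule F E) {n : P → ℤ}
    (hn : {p | n p ≠ 0}.Finite) :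
    chi (B.du.twist n hn).lat = chi ((B.sub S).du.twist n hn).lat +
      chi ((B.quo S).du.twist n hn).lat := by
  have key : ∀ {E' : Type _} [AddCommGroup E'] [Module F E'] [Module k E'] [IsScalarTower k F E']
      [FiniteDimensional F E'] (B' : Bun C E') (p : P) (φ : Du F E'),
      φ ∈ (B'.du.twist n hn).lat p ↔ ∀ a x, x ∈ (B'.ch p).L a →
        φ x ∈ (C.pl p).M (C.per p) (a + -n p) := by
    intro E' _ _ _ _ _ B' p φ
    rw [mem_twist_lat, mem_du_ch]
  have h1 := (B.du.twist n hn).chi_add_of_surj ((B.sub S).du.twist n hn) (Du.pull S.subtype)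
    (by
      intro φ
      obtain ⟨ψ, hψ⟩ := LinearMap.exists_extend (Du.equiv φ)
      refine ⟨Du.equiv.symm ψ, ?_⟩
      ext x
      exact LinearMap.congr_fun hψ x)
    (by
      intro p φ hφ
      rw [key] at hφ ⊢
      intro a x hx
      exact hφ a x hx)
    (by
      intro p φ hφ
      obtain ⟨e, he1, he2, he3⟩ := (B.ch p).exists_proj S
      rw [key] at hφ
      refine ⟨Du.pull (e.codRestrict S he1) φ, ?_, ?_⟩
      · rw [key]
        intro a x hx
        exact hφ a _ (he3 a x hx)
      · ext x
        change φ (e.codRestrict S he1 (x : E)) = φ x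
        congr 1
        exact Subtype.ext (he2 x x.2))
  rw [h1, add_comm]
  congr 1
  let e : Du F (E ⧸ S) ≃ₗ[F] LinearMap.ker (Du.pull (F := F) S.subtype) :=
    LinearEquiv.ofBijective ((Du.pull S.mkQ).codRestrict _ (by
      intro φ
      rw [LinearMap.mem_ker]
      ext x
      change φ (S.mkQ (x : E)) = 0
      have : S.mkQ (x : E) = 0 := by simp
      rw [this, Du.map_zero])) (by
      constructor
      · intro φ ψ h
        apply Du.ext
        intro y
        obtain ⟨y, rfl⟩ := S.mkQ_surjective y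
        exact DFunLike.congr_fun (congrArg Subtype.val h) y
      · rintro ⟨φ, hφ⟩
        have h0 : ∀ s ∈ S, φ s = 0 := by
          intro s hs
          have := DFunLike.congr_fun (LinearMap.mem_ker.mp hφ) (⟨s, hs⟩ : S)
          exact this
        refine ⟨Du.equiv.symm (S.liftQ (Du.equiv φ) (fun s hs => h0 s hs)), ?_⟩
        apply Subtype.ext
        ext x
        rfl)
  have he : ∀ (φ : Du F (E ⧸ S)) (x : E), (e φ).1 x = φ (S.mkQ x) := fun φ x => rfl
  have h2 := (((B.quo S).du.twist n hn).chi_eq_of_equiv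
    ((B.du.twist n hn).sub (LinearMap.ker (Du.pull S.subtype))) e (by
      intro p φ
      change φ ∈ ((B.quo S).du.twist n hn).lat p ↔ (e φ).1 ∈ (B.du.twist n hn).lat p
      rw [key, key]
      constructor
      · intro h a x hx
        rw [he]
        exact h a _ ((B.ch p).mkQ_mem_quo S hx)
      · rintro h a _ ⟨x, hx, rfl⟩
        exact h a x hx)).1
  exact h2.symm

omit [IsScalarTower k F E] in
/-- levels of multiples of a generator -/
theorem smul_level {p : P} {L : LChain (C.pl p) (C.per p) E} {x : E} {w : ℤ}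
    (hw : ∀ a, x ∈ L.L a ↔ a ≤ w) (c : F) (a : ℤ) :
    c • x ∈ L.L a ↔ c ∈ (C.pl p).M (C.per p) (a - w) := by
  by_cases hc : c = 0
  · simp [hc]
  rw [L.smul_iff c hc, hw, (C.pl p).mem_M_of_ne hc]
  constructor <;> intro h <;> linarith

theorem rank_one_du [FiniteDimensional F E] (B : Bun C E) (x : E) (hx0 : x ≠ 0)
    (hx : ∀ y : E, ∃ c : F, c • x = y) {w : P → ℤ} (hw0 : {p | w p ≠ 0}.Finite)
    (hw : ∀ p a, x ∈ (B.ch p).L a ↔ a ≤ w p) {n : P → ℤ} (hn : {p | n p ≠ 0}.Finite) :
    chi (B.du.twist n hn).lat = 1 + C.deg (fun p => n p - w p) := by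
  let ev : Du F E →ₗ[F] F :=
    { toFun := fun φ => φ x
      map_add' := fun φ ψ => rfl
      map_smul' := fun c φ => rfl }
  have hinj : Function.Injective ev := by
    intro φ ψ h
    ext y
    obtain ⟨c, rfl⟩ := hx y
    rw [Du.map_smul, Du.map_smul]
    exact congrArg (c * ·) h
  have hsurj : Function.Surjective ev := by
    obtain ⟨φ, hφ⟩ := LChain.exists_functional (F := F) hx0
    intro c
    refine ⟨(c / φ x) • Du.equiv.symm φ, ?_⟩
    change (c / φ x) * φ x = c
    rw [div_mul_cancel₀ _ hφ]
  let e : Du F E ≃ₗ[F] F := LinearEquiv.ofBijective ev ⟨hinj, hsurj⟩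
  have hfin : {p | (fun p => n p - w p) p ≠ 0}.Finite := by
    refine (hn.union hw0).subset ?_
    intro p hp
    by_contra h
    simp only [Set.mem_union, Set.mem_ofPred_eq, not_or, not_not] at h
    exact hp (by simp [h.1, h.2])
  rw [← (C.rr_one hfin).2]
  refine (coh_equiv (e.restrictScalars k) (Λ₁ := (B.du.twist n hn).lat) ?_).2.2.2
  intro p φ
  change φ ∈ (B.du.twist n hn).lat p ↔ φ x ∈ (C.pl p).M (C.per p) (-(n p - w p))
  rw [mem_twist_lat, mem_du_ch]
  constructor
  · intro h
    have := h (w p) x ((hw p _).mpr le_rfl)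
    rwa [show w p + -n p = -(n p - w p) by ring] at this
  · intro h a y hy
    obtain ⟨c, rfl⟩ := hx y
    rw [smul_level (hw p)] at hy
    rw [Du.map_smul]
    have := (C.pl p).mul_mem_M hy h
    rwa [show a - w p + -(n p - w p) = a + -n p by ring] at this

theorem rank_one_forms [FiniteDimensional F E] (B : Bun C E) (x : E) (hx0 : x ≠ 0)
    (hx : ∀ y : E, ∃ c : F, c • x = y) {w : P → ℤ} (hw0 : {p | w p ≠ 0}.Finite)
    (hw : ∀ p a, x ∈ (B.ch p).L a ↔ a ≤ w p) :
    B.chiF 1 = 1 + C.deg (fun p => -(2 * w p)) := by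
  let ev : formsE F E 1 →ₗ[F] F :=
    { toFun := fun A => A.1 x x
      map_add' := fun φ ψ => rfl
      map_smul' := fun c φ => rfl }
  have hval : ∀ (A : E →ₗ[F] Du F E) (c d : F), A (c • x) (d • x) = c * d * A x x := by
    intro A c d
    rw [LinearMap.map_smul, Du.smul_apply, Du.map_smul]
    ring
  have hinj : Function.Injective ev := by
    intro A A' h
    apply Subtype.ext
    ext y z
    obtain ⟨c, rfl⟩ := hx y
    obtain ⟨d, rfl⟩ := hx z
    rw [hval, hval]
    exact congrArg (c * d * ·) h
  have hsurj : Function.Surjective ev := by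
    obtain ⟨φ, hφ⟩ := LChain.exists_functional (F := F) hx0
    intro c
    let A : E →ₗ[F] Du F E := (φ.smulRight ((c / (φ x * φ x)) • Du.equiv.symm φ))
    have hA : ∀ y z, A y z = φ y * ((c / (φ x * φ x)) * φ z) := fun y z => rfl
    refine ⟨⟨A, fun y z => ?_⟩, ?_⟩
    · rw [hA, hA]
      ring
    · change A x x = c
      rw [hA]
      field_simp
  let e : formsE F E 1 ≃ₗ[F] F := LinearEquiv.ofBijective ev ⟨hinj, hsurj⟩
  have hfin : {p | (fun p => -(2 * w p)) p ≠ 0}.Finite := by
    refine hw0.subset ?_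
    intro p hp h
    exact hp (by simp [h])
  rw [← (C.rr_one hfin).2]
  refine (coh_equiv (e.restrictScalars k) (Λ₁ := (B.bl.sub (formsE F E 1)).lat) ?_).2.2.2
  intro p A
  change A.1 ∈ B.bl.lat p ↔ A.1 x x ∈ (C.pl p).M (C.per p) (-(-(2 * w p)))
  rw [mem_bl_lat]
  constructor
  · intro h
    have := h (w p) x ((hw p _).mpr le_rfl) (w p) x ((hw p _).mpr le_rfl)
    rwa [show w p + w p = -(-(2 * w p)) by ring] at this
  · intro h a y hy b z hz
    obtain ⟨c, rfl⟩ := hx y
    obtain ⟨d, rfl⟩ := hx z
    rw [smul_level (hw p)] at hy hz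
    rw [hval]
    have := (C.pl p).mul_mem_M ((C.pl p).mul_mem_M hy hz) h
    rwa [show a - w p + (b - w p) + -(-(2 * w p)) = a + b by ring] at this

theorem rank_one_skew [FiniteDimensional F E] (B : Bun C E) (h2 : (2 : F) ≠ 0) (x : E)
    (hx : ∀ y : E, ∃ c : F, c • x = y) : B.chiF (-1) = 0 := by
  have hsub : Subsingleton (formsE F E (-1)) := by
    constructor
    intro A A'
    have key : ∀ A : formsE F E (-1), ∀ y z, A.1 y z = 0 := by
      intro A y z
      obtain ⟨c, rfl⟩ := hx y
      obtain ⟨d, rfl⟩ := hx z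
      have h3 := A.2 x x
      have h4 : (2 : F) * A.1 x x = 0 := by linear_combination h3
      have h5 := (mul_eq_zero.mp h4).resolve_left h2
      rw [LinearMap.map_smul, Du.smul_apply, Du.map_smul, h5]
      ring
    apply Subtype.ext
    ext y z
    rw [key, key]
  exact chi_subsingleton _

end one

/-- **Adams identity**, induction -/
theorem adams_aux {θ : P → ℤ} (hθ : Theta C θ) (h2 : (2 : F) ≠ 0) (m : ℕ) :
    ∀ (E : Type u) [AddCommGroup E] [Module F E] [Module k E] [IsScalarTower k F E]
      [FiniteDimensional F E], finrank F E = m → ∀ B : Bun C E,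
      B.chiF 1 - B.chiF (-1) = chi (B.du.twist 0 (by simp)).lat +
        chi (B.du.twist θ hθ.fin).lat := by
  induction m with
  | zero =>
    intro E _ _ _ _ _ h B
    have hs : Subsingleton E := finrank_zero_iff.1 h
    have h1 : Subsingleton (Du F E) := by
      constructor
      intro φ ψ
      ext x
      rw [Subsingleton.elim x 0, Du.map_zero, Du.map_zero]
    have h3 : Subsingleton (E →ₗ[F] Du F E) := by
      constructor
      intro φ ψ
      ext x
      rw [Subsingleton.elim (φ x) (ψ x)]
    unfold chiF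
    rw [chi_subsingleton, chi_subsingleton, chi_subsingleton, chi_subsingleton]
    simp
  | succ m ih =>
    intro E _ _ _ _ _ h B
    have hnt : Nontrivial E := by
      apply nontrivial_of_finrank_pos (R := F)
      omega
    obtain ⟨x, hx⟩ := exists_ne (0 : E)
    let S : Submodule F E := Submodule.span F {x}
    have hS1 : finrank F S = 1 := finrank_span_singleton hx
    have hQ : finrank F (E ⧸ S) = m := by
      have := S.finrank_quotient_add_finrank
      omega
    have h3 := ih (E ⧸ S) hQ (B.quo S)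
    let x' : S := ⟨x, Submodule.mem_span_singleton_self x⟩
    have hx'0 : x' ≠ 0 := fun h => hx (congrArg Subtype.val h)
    have hx' : ∀ y : S, ∃ c : F, c • x' = y := by
      rintro ⟨y, hy⟩
      obtain ⟨c, hc⟩ := Submodule.mem_span_singleton.1 hy
      exact ⟨c, Subtype.ext hc⟩
    obtain ⟨w, hw0, hw, -, -⟩ := (B.sub S).rank_one x' hx'0 hx'
    have e1 := (B.sub S).rank_one_forms x' hx'0 hx' hw0 hw
    have e2 := (B.sub S).rank_one_skew h2 x' hx'
    have h00 : {p : P | (0 : P → ℤ) p ≠ 0}.Finite := by simp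
    have e3 := (B.sub S).rank_one_du x' hx'0 hx' hw0 hw h00
    have e4 := (B.sub S).rank_one_du x' hx'0 hx' hw0 hw hθ.fin
    have e5 := hθ.deg_identity hw0
    have e6 : (fun p => (0 : P → ℤ) p - w p) = fun p => - w p := by
      funext p
      simp
    rw [e6] at e3
    have s1 := B.chiF_step S 1 (by ring)
    have s2 := B.chiF_step S (-1) (by ring)
    have s3 := B.chi_du_twist S h00
    have s4 := B.chi_du_twist S hθ.fin
    rw [s1, s2, s3, s4, e1, e2, e3, e4]
    linarith

variable {E : Type*} [AddCommGroup E] [Module F E] [Module k E] [IsScalarTower k F E]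
  [FiniteDimensional F E]

/-- **Adams identity**: `χ(S²E*) - χ(Λ²E*) = χ(E*) + χ(E*θ)`. -/
theorem adams {θ : P → ℤ} (hθ : Theta C θ) (h2 : (2 : F) ≠ 0) (B : Bun C E) :
    B.chiF 1 - B.chiF (-1) = chi B.du.lat + chi (B.du.twist θ hθ.fin).lat := by
  have h := adams_aux hθ h2 _ E rfl B
  have h1 : (B.du.twist 0 (by simp)).lat = B.du.lat := by
    funext p
    ext φ
    rw [mem_twist_lat]
    simp [lat]
  rw [h1] at h
  exact h

end Bun

end Vale.Agent.P182.H430
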