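import Vale.Agent.P182.H62.Place

/-!
# Periodic chains of lattices at a place: splitting, subspaces, quotients
-/

namespace Vale.Agent.P182

open Module

variable {k F : Type*} [Field k] [Field F] [Algebra k F]

/-- A periodic chain of lattices in the `F`-space `E` at the place `P`, with period `p`
(an integral norm on `E`). -/
structure LChain (P : Place k F) (p : ℕ) (E : Type*) [AddCommGroup E] [Module F E]
    [Module k E] where
  /-- the members of the chain -/
  L : ℤ → Submodule k E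
  pos : 0 < p
  anti : ∀ a b, a ≤ b → L b ≤ L a
  smul_iff : ∀ (f : F), f ≠ 0 → ∀ a x, f • x ∈ L a ↔ x ∈ L (a - p * P.ord f)
  exhaust : ∀ x, ∃ a, x ∈ L a
  bdd : ∀ φ : E →ₗ[F] F, ∃ C : ℤ, ∀ a x, x ∈ L a → φ x ∈ P.M p (a + C)

namespace LChain

variable {P : Place k F} {p : ℕ} {E : Type*} [AddCommGroup E] [Module F E] [Module k E]

section basic

variable (C : LChain P p E)

theorem smul_mem {f : F} {c a : ℤ} {x : E} (hf : f ∈ P.M p c) (hx : x ∈ C.L a) :
    f • x ∈ C.L (a + c) := by
  by_cases hf0 : f = 0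
  · subst hf0
    simp
  rw [C.smul_iff f hf0]
  refine C.anti _ _ ?_ hx
  rw [P.mem_M_of_ne hf0] at hf
  linarith

theorem smul_mem' {f : F} {c a b : ℤ} {x : E} (hf : f ∈ P.M p c) (hx : x ∈ C.L a)
    (h : b ≤ a + c) : f • x ∈ C.L b :=
  C.anti _ _ h (C.smul_mem hf hx)

theorem bdd_upper (φ : E →ₗ[F] F) {x : E} (hx : φ x ≠ 0) : ∃ B : ℤ, ∀ a, x ∈ C.L a → a ≤ B := by
  obtain ⟨c, hc⟩ := C.bdd φ
  refine ⟨p * P.ord (φ x) - c, fun a ha => ?_⟩
  have := (P.mem_M_of_ne hx).mp (hc a x ha)
  linarith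

theorem exists_val (φ : E →ₗ[F] F) {x : E} (hx : φ x ≠ 0) :
    ∃ w : ℤ, ∀ a, x ∈ C.L a ↔ a ≤ w := by
  obtain ⟨B, hB⟩ := C.bdd_upper φ hx
  obtain ⟨a0, ha0⟩ := C.exhaust x
  obtain ⟨w, hw1, hw2⟩ := Int.exists_greatest_of_bdd (P := fun a => x ∈ C.L a)
    ⟨B, fun z hz => hB z hz⟩ ⟨a0, ha0⟩
  exact ⟨w, fun a => ⟨fun h => hw2 a h, fun h => C.anti _ _ h hw1⟩⟩

theorem exists_functional {x : E} (hx : x ≠ 0) : ∃ φ : E →ₗ[F] F, φ x ≠ 0 := by
  by_contra h
  push Not at h
  exact hx ((Module.forall_dual_apply_eq_zero_iff F x).mp h)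

/-- the level of a non-zero vector -/
theorem exists_level {x : E} (hx : x ≠ 0) : ∃ w : ℤ, ∀ a, x ∈ C.L a ↔ a ≤ w := by
  obtain ⟨φ, hφ⟩ := exists_functional (F := F) hx
  exact C.exists_val φ hφ

theorem eq_zero_of_forall {x : E} (h : ∀ a, x ∈ C.L a) : x = 0 := by
  by_contra hx
  obtain ⟨w, hw⟩ := C.exists_level hx
  have := (hw (w + 1)).mp (h _)
  omega

/-- The chain is split by a basis with weights. -/
def SplitBy {ι : Type*} (b : Basis ι F E) (w : ι → ℤ) : Prop :=
  ∀ a x, x ∈ C.L a ↔ ∀ i, b.repr x i ∈ P.M p (a - w i)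

theorem SplitBy.basis_mem {C : LChain P p E} {ι : Type*} {b : Basis ι F E} {w : ι → ℤ}
    (h : C.SplitBy b w) (i : ι) : b i ∈ C.L (w i) := by
  classical
  rw [h]
  intro j
  rw [b.repr_self, Finsupp.single_apply]
  split_ifs with hij
  · subst hij
    rw [P.one_mem_M]
    omega
  · exact Submodule.zero_mem _

/-- criterion for splitting -/
theorem splitBy_of {ι : Type*} [Fintype ι] (b : Basis ι F E) (w : ι → ℤ)
    (h1 : ∀ i, b i ∈ C.L (w i))
    (h2 : ∀ a x, x ∈ C.L a → ∀ i, b.repr x i ∈ P.M p (a - w i)) : C.SplitBy b w := by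
  intro a x
  refine ⟨h2 a x, fun h => ?_⟩
  rw [← b.sum_repr x]
  refine Submodule.sum_mem _ fun i _ => ?_
  exact C.smul_mem' (h i) (h1 i) (by omega)

end basic

/-- A functional has an optimal vector. -/
theorem exists_optimal (C : LChain P p E) {φ : E →ₗ[F] F} (hφ : φ ≠ 0) :
    ∃ (y : E) (w : ℤ), φ y = 1 ∧ y ∈ C.L w ∧ ∀ a x, x ∈ C.L a → φ x ∈ P.M p (a - w) := by
  obtain ⟨c, hc⟩ := C.bdd φ
  have hex : ∃ y0, φ y0 = 1 := by
    obtain ⟨z, hz⟩ : ∃ z, φ z ≠ 0 := by
      by_contra h
      push Not at h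
      exact hφ (LinearMap.ext h)
    exact ⟨(φ z)⁻¹ • z, by rw [map_smul, smul_eq_mul, inv_mul_cancel₀ hz]⟩
  obtain ⟨y0, hy0⟩ := hex
  obtain ⟨a0, ha0⟩ := C.exhaust y0
  obtain ⟨w, hw1, hw2⟩ := Int.exists_greatest_of_bdd
    (P := fun a => ∃ y, φ y = 1 ∧ y ∈ C.L a)
    ⟨-c, by
      rintro a ⟨y, hy1, hy2⟩
      have := hc a y hy2
      rw [hy1, P.one_mem_M] at this
      omega⟩ ⟨a0, y0, hy0, ha0⟩
  obtain ⟨y, hy1, hy2⟩ := hw1
  refine ⟨y, w, hy1, hy2, fun a x hx => ?_⟩
  by_cases hx0 : φ x = 0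
  · exact Or.inl hx0
  rw [P.mem_M_of_ne hx0]
  have h1 : (φ x)⁻¹ • x ∈ C.L (a - p * P.ord (φ x)) := by
    rw [C.smul_iff _ (inv_ne_zero hx0), P.ord_inv hx0]
    refine C.anti _ _ (le_of_eq ?_) hx
    ring
  have h2 := hw2 _ ⟨_, by rw [map_smul, smul_eq_mul, inv_mul_cancel₀ hx0], h1⟩
  linarith

variable [IsScalarTower k F E]

/-- restriction of a chain to a subspace -/
def sub (C : LChain P p E) (S : Submodule F E) : LChain P p S where
  L a := (C.L a).comap (S.subtype.restrictScalars k)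
  pos := C.pos
  anti a b h := Submodule.comap_mono (C.anti a b h)
  smul_iff f hf a x := by
    simp only [Submodule.mem_comap, LinearMap.coe_restrictScalars, Submodule.subtype_apply,
      Submodule.coe_smul]
    exact C.smul_iff f hf a x
  exhaust x := C.exhaust x
  bdd φ := by
    obtain ⟨ψ, hψ⟩ := LinearMap.exists_extend φ
    obtain ⟨c, hc⟩ := C.bdd ψ
    refine ⟨c, fun a x hx => ?_⟩
    have := hc a x hx
    rwa [show ψ x = φ x from by rw [← hψ]; rfl] at this

@[simp] theorem mem_sub (C : LChain P p E) (S : Submodule F E) (a : ℤ) (x : S) :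
    x ∈ (C.sub S).L a ↔ (x : E) ∈ C.L a := Iff.rfl

/-- quotient chain -/
def quo (C : LChain P p E) (S : Submodule F E) : LChain P p (E ⧸ S) where
  L a := (C.L a).map (S.mkQ.restrictScalars k)
  pos := C.pos
  anti a b h := Submodule.map_mono (C.anti a b h)
  smul_iff f hf a x := by
    constructor
    · rintro ⟨y, hy, hyx⟩
      refine ⟨f⁻¹ • y, ?_, ?_⟩
      · refine (C.smul_iff f⁻¹ (inv_ne_zero hf) _ _).mpr ?_
        rw [P.ord_inv hf]
        refine C.anti _ _ (le_of_eq ?_) hy
        ring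
      · have h1 : S.mkQ y = f • x := hyx
        change S.mkQ (f⁻¹ • y) = x
        rw [map_smul, h1, smul_smul, inv_mul_cancel₀ hf, one_smul]
    · rintro ⟨y, hy, rfl⟩
      exact ⟨f • y, (C.smul_iff f hf a y).mpr hy, by simp⟩
  exhaust x := by
    obtain ⟨y, rfl⟩ := S.mkQ_surjective x
    obtain ⟨a, ha⟩ := C.exhaust y
    exact ⟨a, y, ha, rfl⟩
  bdd φ := by
    obtain ⟨c, hc⟩ := C.bdd (φ ∘ₗ S.mkQ)
    refine ⟨c, ?_⟩
    rintro a _ ⟨y, hy, rfl⟩
    exact hc a y hy

theorem mem_quo (C : LChain P p E) (S : Submodule F E) (a : ℤ) (x : E ⧸ S) :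
    x ∈ (C.quo S).L a ↔ ∃ y ∈ C.L a, S.mkQ y = x := Iff.rfl

theorem mkQ_mem_quo (C : LChain P p E) (S : Submodule F E) {a : ℤ} {x : E} (h : x ∈ C.L a) :
    S.mkQ x ∈ (C.quo S).L a := ⟨x, h, rfl⟩

end LChain

universe u

/-- Every chain on a finite dimensional space splits. -/
theorem LChain.exists_split_aux {P : Place k F} {p : ℕ} (n : ℕ) :
    ∀ (E : Type u) [AddCommGroup E] [Module F E] [Module k E] [IsScalarTower k F E]
      [FiniteDimensional F E], finrank F E = n → ∀ C : LChain P p E,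
      ∃ (b : Basis (Fin n) F E) (w : Fin n → ℤ), C.SplitBy b w := by
  induction n with
  | zero =>
    intro E _ _ _ _ _ h C
    refine ⟨finBasisOfFinrankEq F E h, 0, ?_⟩
    apply C.splitBy_of
    · intro i
      exact i.elim0
    · intro a x _ i
      exact i.elim0
  | succ n ih =>
    intro E _ _ _ _ _ h C
    have hpos : 0 < finrank F E := by omega
    obtain ⟨x0, hx0⟩ : ∃ x : E, x ≠ 0 := by
      have := Module.finrank_pos_iff.mp hpos
      exact exists_ne 0
    obtain ⟨φ, hφ0⟩ := LChain.exists_functional (F := F) hx0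
    have hφ : φ ≠ 0 := by
      rintro rfl
      exact hφ0 rfl
    obtain ⟨y, w, hy1, hy2, hy3⟩ := C.exists_optimal hφ
    let S : Submodule F E := LinearMap.ker φ
    have hS : finrank F S = n := by
      have h1 := LinearMap.finrank_range_add_finrank_ker φ
      have h2 : LinearMap.range φ = ⊤ := by
        rw [LinearMap.range_eq_top]
        intro c
        exact ⟨c • y, by rw [map_smul, hy1, smul_eq_mul, mul_one]⟩
      rw [h2, finrank_top, finrank_self, h] at h1
      change finrank F (LinearMap.ker φ) = n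
      omega
    obtain ⟨b, v, hb⟩ := ih S hS (C.sub S)
    have hli : ∀ (c : F), ∀ x ∈ S, c • y + x = 0 → c = 0 := by
      intro c x hx hcx
      have := congrArg φ hcx
      rw [map_add, map_smul, hy1, (LinearMap.mem_ker.mp hx), map_zero, add_zero, smul_eq_mul,
        mul_one] at this
      exact this
    have hsp : ∀ z : E, ∃ c : F, z + c • y ∈ S := by
      intro z
      refine ⟨- φ z, ?_⟩
      rw [LinearMap.mem_ker, map_add, map_smul, hy1, smul_eq_mul, mul_one, add_neg_cancel]
    let B := Basis.mkFinCons y b hli hsp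
    have hB : (B : Fin (n + 1) → E) = Fin.cons y (fun i => (b i : E)) := by
      simp only [B, Basis.coe_mkFinCons]
      rfl
    refine ⟨B, Fin.cons w v, ?_⟩
    apply C.splitBy_of
    · intro i
      rw [hB]
      refine Fin.cases ?_ (fun i => ?_) i
      · simpa using hy2
      · have := hb.basis_mem i
        simpa using this
    · intro a x hx
      -- coordinates of x
      have hxS : x - φ x • y ∈ S := by
        rw [LinearMap.mem_ker, map_sub, map_smul, hy1, smul_eq_mul, mul_one, sub_self]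
      let s : S := ⟨x - φ x • y, hxS⟩
      have hφx := hy3 a x hx
      have hs : s ∈ (C.sub S).L a := by
        rw [LChain.mem_sub]
        change x - φ x • y ∈ C.L a
        exact Submodule.sub_mem _ hx (C.smul_mem' hφx hy2 (by omega))
      have hrep : ∀ i, B.repr x i = (Fin.cons (φ x) (fun i => b.repr s i) : Fin (n + 1) → F) i := by
        intro i
        have hx' : x = ∑ i, (Fin.cons (φ x) (fun i => b.repr s i) : Fin (n + 1) → F) i • B i := by
          rw [Fin.sum_univ_succ, hB]
          simp only [Fin.cons_zero, Fin.cons_succ]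
          have h3 : ∑ i, (b.repr s i) • (b i : E) = (s : E) := by
            have := congrArg (Submodule.subtype S) (b.sum_repr s)
            rw [map_sum] at this
            simpa using this
          rw [h3]
          change x = φ x • y + (x - φ x • y)
          abel
        conv_lhs => rw [hx', ← B.equivFun_symm_apply, ← B.equivFun_apply, LinearEquiv.apply_symm_apply]
      intro i
      rw [hrep]
      refine Fin.cases ?_ (fun i => ?_) i
      · simpa using hφx
      · have := (hb a s).mp hs i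
        simpa using this

namespace LChain

variable {P : Place k F} {p : ℕ} {E : Type*} [AddCommGroup E] [Module F E] [Module k E]
  [IsScalarTower k F E]

theorem exists_split [FiniteDimensional F E] (C : LChain P p E) :
    ∃ (b : Basis (Fin (finrank F E)) F E) (w : Fin (finrank F E) → ℤ), C.SplitBy b w :=
  exists_split_aux _ E rfl C

/-- Level preserving section of the quotient by a subspace. -/
theorem exists_section [FiniteDimensional F E] (C : LChain P p E) (S : Submodule F E) :
    ∃ s : (E ⧸ S) →ₗ[F] E, (∀ x, S.mkQ (s x) = x) ∧ ∀ a, ∀ x ∈ (C.quo S).L a, s x ∈ C.L a := by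
  obtain ⟨b, w, hb⟩ := (C.quo S).exists_split
  have h1 : ∀ i, ∃ y ∈ C.L (w i), S.mkQ y = b i := fun i => hb.basis_mem i
  choose y hy1 hy2 using h1
  refine ⟨b.constr F y, ?_, ?_⟩
  · intro x
    have : S.mkQ ∘ₗ b.constr F y = LinearMap.id := by
      apply b.ext
      intro i
      rw [LinearMap.comp_apply, b.constr_basis, hy2, LinearMap.id_apply]
    exact LinearMap.congr_fun this x
  · intro a x hx
    have hsum : b.constr F y x = ∑ i, b.repr x i • y i := by
      conv_lhs => rw [← b.sum_repr x]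
      simp
    rw [hsum]
    refine Submodule.sum_mem _ fun i _ => ?_
    exact C.smul_mem' ((hb a x).mp hx i) (hy1 i) (by omega)

/-- **Adapted splitting.** For every subspace `S` there is an `F`-linear projection onto `S`
which preserves all members of the chain. -/
theorem exists_proj [FiniteDimensional F E] (C : LChain P p E) (S : Submodule F E) :
    ∃ e : E →ₗ[F] E, (∀ x, e x ∈ S) ∧ (∀ x ∈ S, e x = x) ∧ ∀ a, ∀ x ∈ C.L a, e x ∈ C.L a := by
  obtain ⟨s, hs1, hs2⟩ := C.exists_section S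
  refine ⟨LinearMap.id - s ∘ₗ S.mkQ, ?_, ?_, ?_⟩
  · intro x
    have h : S.mkQ ((LinearMap.id - s ∘ₗ S.mkQ : E →ₗ[F] E) x) = 0 := by
      rw [LinearMap.sub_apply, LinearMap.id_apply, LinearMap.comp_apply, map_sub, hs1, sub_self]
    exact (Submodule.Quotient.mk_eq_zero S).mp h
  · intro x hx
    rw [LinearMap.sub_apply, LinearMap.comp_apply, LinearMap.id_apply]
    have : S.mkQ x = 0 := by simpa using hx
    rw [this, map_zero, sub_zero]
  · intro a x hx
    rw [LinearMap.sub_apply, LinearMap.comp_apply, LinearMap.id_apply]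
    exact Submodule.sub_mem _ hx (hs2 a _ (C.mkQ_mem_quo S hx))

end LChain

end Vale.Agent.P182
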