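import Vale.Agent.P182.H430.SixTerm
import Vale.Agent.P182.H430.Bun
import Vale.Agent.P182.H62.Hom

/-!
# Bundles of linear maps, duals, twists; comparison lemmas
-/

namespace Vale.Agent.P182

open Module

section Local

variable {k F : Type*} [Field k] [Field F] [Algebra k F] {P : Place k F} {p : ℕ}
  {E : Type*} [AddCommGroup E] [Module F E] [Module k E] [IsScalarTower k F E]
  {E₂ : Type*} [AddCommGroup E₂] [Module F E₂] [Module k E₂]
  [IsScalarTower k F E₂]

theorem LChain.SplitBy.hom [FiniteDimensional F E] [FiniteDimensional F E₂] {C : LChain P p E}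
    {C₂ : LChain P p E₂} {ι ι₂ : Type*} [Fintype ι] [Fintype ι₂] [DecidableEq ι]
    {b : Basis ι F E} {w : ι → ℤ} {b₂ : Basis ι₂ F E₂} {w₂ : ι₂ → ℤ}
    (h : C.SplitBy b w) (h₂ : C₂.SplitBy b₂ w₂) :
    (C.hom C₂).SplitBy (b.linearMap b₂) (fun ij => w₂ ij.1 - w ij.2) := by
  intro a φ
  rw [h.mem_hom]
  have hr : ∀ i j, (b.linearMap b₂).repr φ (i, j) = b₂.repr (φ (b j)) i := by
    intro i j
    rw [Basis.linearMap_repr_apply]
    change (LinearMap.toMatrix b b₂) φ i j = _
    rw [LinearMap.toMatrix_apply]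
  constructor
  · rintro h1 ⟨i, j⟩
    rw [hr]
    exact P.M_anti (le_of_eq (by ring)) ((h₂ _ _).mp (h1 j) i)
  · intro h1 j
    rw [h₂]
    intro i
    have := h1 (i, j)
    rw [hr] at this
    exact P.M_anti (le_of_eq (by ring)) this

omit [IsScalarTower k F E] in
theorem LChain.SplitBy.reindex {C : LChain P p E} {ι ι' : Type*}
    {b : Basis ι F E} {w : ι → ℤ} (h : C.SplitBy b w) (e : ι ≃ ι') :
    C.SplitBy (b.reindex e) (w ∘ e.symm) := by
  intro a x
  rw [h]
  constructor
  · intro h1 i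
    rw [Basis.repr_reindex_apply]
    exact h1 _
  · intro h1 i
    have := h1 (e i)
    rwa [Basis.repr_reindex_apply, e.symm_apply_apply, Function.comp_apply,
      e.symm_apply_apply] at this

end Local

namespace H430

variable {k F P : Type*} [Field k] [Field F] [Algebra k F] {C : Curve k F P}

/-- the trivial line bundle -/
noncomputable def Bun.unit (C : Curve k F P) : Bun C F where
  ch p := LChain.unit (C.pl p) (C.per_pos p)
  std := by
    refine ⟨1, Basis.singleton (Fin 1) F, Filter.Eventually.of_forall fun p => ?_⟩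
    intro a x
    rw [LChain.mem_unit]
    constructor
    · intro h i
      rw [Basis.singleton_repr]
      simpa using h
    · intro h
      have := h 0
      rw [Basis.singleton_repr] at this
      simpa using this

theorem Bun.unit_lat (C : Curve k F P) : (Bun.unit C).lat = C.I 0 := by
  funext p
  change (C.pl p).M (C.per p) 0 = (C.pl p).M (C.per p) (-0)
  rw [neg_zero]

namespace Bun

variable {E : Type*} [AddCommGroup E] [Module F E] [Module k E]

/-- twist by a line bundle -/
def twist (B : Bun C E) (n : P → ℤ) (hn : {p | n p ≠ 0}.Finite) : Bun C E where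
  ch p := (B.ch p).shift (- n p)
  std := by
    obtain ⟨m, b, hb⟩ := B.std
    refine ⟨m, b, ?_⟩
    have h2 : ∀ᶠ p in Filter.cofinite, n p = 0 := by
      rw [Filter.eventually_cofinite]
      exact hn
    filter_upwards [hb, h2] with p h1 h3
    intro a x
    rw [LChain.mem_shift, h3, neg_zero, add_zero]
    exact h1 a x

theorem mem_twist_lat (B : Bun C E) (n : P → ℤ) (hn : {p | n p ≠ 0}.Finite) (p : P) (x : E) :
    x ∈ (B.twist n hn).lat p ↔ x ∈ (B.ch p).L (- n p) := by
  change x ∈ ((B.ch p).shift (- n p)).L 0 ↔ _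
  rw [LChain.mem_shift, zero_add]

variable [IsScalarTower k F E] {E₂ : Type*} [AddCommGroup E₂] [Module F E₂] [Module k E₂]
  [IsScalarTower k F E₂]

/-- the bundle of linear maps -/
def hom [FiniteDimensional F E] [FiniteDimensional F E₂] (B : Bun C E) (B₂ : Bun C E₂) :
    Bun C (E →ₗ[F] E₂) where
  ch p := (B.ch p).hom (B₂.ch p)
  std := by
    classical
    obtain ⟨n, b, hb⟩ := B.std
    obtain ⟨m, b₂, hb₂⟩ := B₂.std
    refine ⟨Fintype.card (Fin m × Fin n), (b.linearMap b₂).reindex (Fintype.equivFin _), ?_⟩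
    filter_upwards [hb, hb₂] with p h1 h2
    have h3 := (h1.hom h2).reindex (Fintype.equivFin (Fin m × Fin n))
    intro a x
    rw [h3 a x]
    rfl

theorem mem_hom_lat [FiniteDimensional F E] [FiniteDimensional F E₂] (B : Bun C E)
    (B₂ : Bun C E₂) (p : P) (φ : E →ₗ[F] E₂) :
    φ ∈ (B.hom B₂).lat p ↔ ∀ b x, x ∈ (B.ch p).L b → φ x ∈ (B₂.ch p).L b := by
  change (∀ b x, x ∈ (B.ch p).L b → φ x ∈ (B₂.ch p).L (b + 0)) ↔ _
  simp only [add_zero]

/-- the dual bundle -/
noncomputable def dual [FiniteDimensional F E] (B : Bun C E) : Bun C (Dual F E) := B.hom (unit C)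

theorem dual_ch [FiniteDimensional F E] (B : Bun C E) (p : P) : (B.dual).ch p = (B.ch p).dual :=
  rfl

/-- the bundle of bilinear forms -/
noncomputable def bil [FiniteDimensional F E] (B : Bun C E) : Bun C (E →ₗ[F] E →ₗ[F] F) := B.hom B.dual

theorem bil_ch [FiniteDimensional F E] (B : Bun C E) (p : P) : (B.bil).ch p = (B.ch p).bil :=
  rfl

/-- transport of the Euler characteristic along an isomorphism -/
theorem chi_eq_of_equiv (B : Bun C E) (B₂ : Bun C E₂) (e : E ≃ₗ[F] E₂)
    (h : ∀ p x, x ∈ B.lat p ↔ e x ∈ B₂.lat p) :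
    chi B.lat = chi B₂.lat ∧ h0 B.lat = h0 B₂.lat ∧ h1 B.lat = h1 B₂.lat := by
  have := coh_equiv (e.restrictScalars k) (Λ₁ := B.lat) (Λ₂ := B₂.lat) h
  exact ⟨this.2.2.2, this.2.1, this.2.2.1⟩

/-- additivity of the Euler characteristic for a surjective map which is surjective on all
lattices -/
theorem chi_add_of_surj (B : Bun C E) (B₂ : Bun C E₂) (f : E →ₗ[F] E₂)
    (hf : Function.Surjective f) (h1 : ∀ p x, x ∈ B.lat p → f x ∈ B₂.lat p)
    (h2 : ∀ p y, y ∈ B₂.lat p → ∃ x ∈ B.lat p, f x = y) :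
    chi B.lat = chi (B.sub (LinearMap.ker f)).lat + chi B₂.lat := by
  refine (chi_ses (Λ₁ := (B.sub (LinearMap.ker f)).lat) (Λ₂ := B.lat) (Λ₃ := B₂.lat)
    (i := (LinearMap.ker f).subtype.restrictScalars k) (q := f.restrictScalars k)
    ?_ (fun _ => rfl) ?_ B.adm (B.sub _).finCoh B₂.finCoh).2
  · refine ⟨(LinearMap.ker f).injective_subtype, ?_, hf⟩
    ext x
    constructor
    · rintro ⟨y, rfl⟩
      exact y.2
    · intro hx
      exact ⟨⟨x, hx⟩, rfl⟩
  · intro p
    ext y
    constructor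
    · rintro ⟨x, hx, rfl⟩
      exact h1 p x hx
    · intro hy
      obtain ⟨x, hx, rfl⟩ := h2 p y hy
      exact ⟨x, hx, rfl⟩

end Bun

end H430

end Vale.Agent.P182
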