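import Mathlib

/-!
# Places of a function field and their fractional chains

`Place k F` is a discrete valuation of `F`, trivial on `k`, with residue field `k`.
`P.M p c` is the `k`-subspace of all `f` with `c ≤ p * ord f`.
-/

namespace Vale.Agent.P182

/-- A place of `F / k` with residue field `k`, given by its order function (the value at `0` is
junk). -/
structure Place (k F : Type*) [Field k] [Field F] [Algebra k F] where
  /-- the order function -/
  ord : F → ℤ
  ord_mul : ∀ f g : F, f ≠ 0 → g ≠ 0 → ord (f * g) = ord f + ord g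
  ord_add : ∀ f g : F, f ≠ 0 → g ≠ 0 → f + g ≠ 0 → min (ord f) (ord g) ≤ ord (f + g)
  /-- a uniformizer -/
  unif : F
  unif_ne : unif ≠ 0
  ord_unif : ord unif = 1
  ord_alg : ∀ c : k, c ≠ 0 → ord (algebraMap k F c) = 0
  resid : ∀ f : F, f ≠ 0 → 0 ≤ ord f → ∃ c : k, f = algebraMap k F c ∨
    0 < ord (f - algebraMap k F c)

namespace Place

variable {k F : Type*} [Field k] [Field F] [Algebra k F] (P : Place k F)

theorem ord_one : P.ord 1 = 0 := by
  have := P.ord_alg 1 one_ne_zero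
  simpa using this

theorem ord_inv {f : F} (hf : f ≠ 0) : P.ord f⁻¹ = - P.ord f := by
  have h := P.ord_mul f f⁻¹ hf (inv_ne_zero hf)
  rw [mul_inv_cancel₀ hf, P.ord_one] at h
  omega

theorem ord_zpow (n : ℤ) : P.ord (P.unif ^ n) = n := by
  have hnat : ∀ n : ℕ, P.ord (P.unif ^ n) = n := by
    intro n
    induction n with
    | zero => simp [P.ord_one]
    | succ n ih =>
      rw [pow_succ, P.ord_mul _ _ (pow_ne_zero _ P.unif_ne) P.unif_ne, ih, P.ord_unif]
      push_cast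
      ring
  obtain ⟨m, rfl | rfl⟩ := n.eq_nat_or_neg
  · simpa using hnat m
  · rw [zpow_neg, zpow_natCast, P.ord_inv (pow_ne_zero _ P.unif_ne), hnat]

theorem ord_neg (f : F) (hf : f ≠ 0) : P.ord (-f) = P.ord f := by
  have h1 : P.ord (-1 : F) = 0 := by
    have := P.ord_alg (-1) (neg_ne_zero.mpr one_ne_zero)
    simpa using this
  have h := P.ord_mul (-1) f (neg_ne_zero.mpr one_ne_zero) hf
  rw [neg_one_mul, h1, zero_add] at h
  exact h

theorem ord_div {f g : F} (hf : f ≠ 0) (hg : g ≠ 0) : P.ord (f / g) = P.ord f - P.ord g := by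
  rw [div_eq_mul_inv, P.ord_mul _ _ hf (inv_ne_zero hg), P.ord_inv hg]
  ring

/-- the chain of fractional ideals, with period `p` -/
def M (p : ℕ) (c : ℤ) : Submodule k F where
  carrier := {f | f = 0 ∨ c ≤ p * P.ord f}
  zero_mem' := Or.inl rfl
  add_mem' := by
    rintro f g hf hg
    by_cases hf0 : f = 0
    · simpa [hf0] using hg
    by_cases hg0 : g = 0
    · simpa [hg0] using hf
    by_cases hfg : f + g = 0
    · exact Or.inl hfg
    refine Or.inr ?_
    have h1 : c ≤ p * P.ord f := hf.resolve_left hf0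
    have h2 : c ≤ p * P.ord g := hg.resolve_left hg0
    have h := P.ord_add f g hf0 hg0 hfg
    rcases min_le_iff.mp h with h | h
    · exact h1.trans (mul_le_mul_of_nonneg_left h (Int.natCast_nonneg p))
    · exact h2.trans (mul_le_mul_of_nonneg_left h (Int.natCast_nonneg p))
  smul_mem' := by
    rintro a f hf
    by_cases ha : a = 0
    · left
      simp [ha]
    by_cases hf0 : f = 0
    · left
      simp [hf0]
    refine Or.inr ?_
    rw [Algebra.smul_def, P.ord_mul _ _ (by simpa using ha) hf0, P.ord_alg a ha, zero_add]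
    exact hf.resolve_left hf0

theorem mem_M {p : ℕ} {c : ℤ} {f : F} : f ∈ P.M p c ↔ f = 0 ∨ c ≤ p * P.ord f := Iff.rfl

theorem mem_M_of_ne {p : ℕ} {c : ℤ} {f : F} (hf : f ≠ 0) : f ∈ P.M p c ↔ c ≤ p * P.ord f := by
  rw [mem_M]
  exact or_iff_right hf

theorem M_anti {p : ℕ} {c d : ℤ} (h : c ≤ d) : P.M p d ≤ P.M p c := by
  rintro f (hf | hf)
  · exact Or.inl hf
  · exact Or.inr (h.trans hf)

theorem mul_mem_M {p : ℕ} {c d : ℤ} {f g : F} (hf : f ∈ P.M p c) (hg : g ∈ P.M p d) :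
    f * g ∈ P.M p (c + d) := by
  by_cases hf0 : f = 0
  · left
    simp [hf0]
  by_cases hg0 : g = 0
  · left
    simp [hg0]
  rw [mem_M_of_ne _ hf0] at hf
  rw [mem_M_of_ne _ hg0] at hg
  rw [mem_M_of_ne _ (mul_ne_zero hf0 hg0), P.ord_mul _ _ hf0 hg0]
  linarith [mul_add (p : ℤ) (P.ord f) (P.ord g)]

theorem mem_M_ord {p : ℕ} (f : F) : f ∈ P.M p (p * P.ord f) := Or.inr le_rfl

theorem smul_mem_iff {p : ℕ} {c : ℤ} {f g : F} (hf : f ≠ 0) :
    f * g ∈ P.M p c ↔ g ∈ P.M p (c - p * P.ord f) := by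
  by_cases hg0 : g = 0
  · simp [hg0]
  rw [mem_M_of_ne _ (mul_ne_zero hf hg0), mem_M_of_ne _ hg0, P.ord_mul _ _ hf hg0, mul_add]
  constructor <;> intro h <;> linarith

theorem eq_zero_of_forall {p : ℕ} {f : F} (h : ∀ c, f ∈ P.M p c) : f = 0 := by
  by_contra hf
  have := (P.mem_M_of_ne hf).mp (h (p * P.ord f + 1))
  omega

theorem one_mem_M {p : ℕ} {c : ℤ} : (1 : F) ∈ P.M p c ↔ c ≤ 0 := by
  rw [mem_M_of_ne _ one_ne_zero, P.ord_one, mul_zero]

theorem exists_mem {p : ℕ} (hp : 0 < p) (c : ℤ) : ∃ f : F, f ≠ 0 ∧ f ∈ P.M p c := by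
  refine ⟨P.unif ^ |c|, zpow_ne_zero _ P.unif_ne, ?_⟩
  rw [mem_M_of_ne _ (zpow_ne_zero _ P.unif_ne), P.ord_zpow]
  have h1 : (1 : ℤ) ≤ p := by exact_mod_cast hp
  calc c ≤ |c| := le_abs_self c
    _ = 1 * |c| := (one_mul _).symm
    _ ≤ p * |c| := mul_le_mul_of_nonneg_right h1 (abs_nonneg c)

/-- exponents -/
theorem mem_M_mul {p : ℕ} (hp : 0 < p) {c : ℤ} {f : F} :
    f ∈ P.M p (p * c) ↔ f ∈ P.M 1 c := by
  by_cases hf : f = 0
  · simp [hf]
  rw [mem_M_of_ne _ hf, mem_M_of_ne _ hf]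
  have h1 : (0 : ℤ) < p := by exact_mod_cast hp
  rw [mul_le_mul_iff_right₀ h1]
  simp

end Place

end Vale.Agent.P182
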