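import Vale.Agent.P182.H430.Serre
import Vale.Agent.P182.H62.BunHom

/-!
# The Adams identity `χ(S²E*) - χ(Λ²E*) = χ(E*) + χ(E*θ)`
-/

namespace Vale.Agent.P182.H430

open Module

/-- the dual space as a type of its own (avoids nested linear map types) -/
def Du (F E : Type*) [Field F] [AddCommGroup E] [Module F E] : Type _ := E →ₗ[F] F

section Du

variable (k F E : Type*) [Field k] [Field F] [Algebra k F] [AddCommGroup E] [Module F E]

instance : AddCommGroup (Du F E) := inferInstanceAs (AddCommGroup (E →ₗ[F] F))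

instance : Module F (Du F E) := inferInstanceAs (Module F (E →ₗ[F] F))

instance : Module k (Du F E) := inferInstanceAs (Module k (E →ₗ[F] F))

instance : IsScalarTower k F (Du F E) := inferInstanceAs (IsScalarTower k F (E →ₗ[F] F))

instance [FiniteDimensional F E] : FiniteDimensional F (Du F E) :=
  inferInstanceAs (FiniteDimensional F (Module.Dual F E))

instance : FunLike (Du F E) E F := inferInstanceAs (FunLike (E →ₗ[F] F) E F)

variable {k F E}

/-- the tautological equivalence -/
def Du.equiv : Du F E ≃ₗ[F] (E →ₗ[F] F) := LinearEquiv.refl F (E →ₗ[F] F)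

@[simp] theorem Du.equiv_apply (φ : Du F E) (x : E) : Du.equiv φ x = φ x := rfl

@[simp] theorem Du.equiv_symm_apply (φ : E →ₗ[F] F) (x : E) : Du.equiv.symm φ x = φ x := rfl

@[ext] theorem Du.ext {φ ψ : Du F E} (h : ∀ x, φ x = ψ x) : φ = ψ := by
  apply Du.equiv.injective
  ext x
  exact h x

@[simp] theorem Du.add_apply (φ ψ : Du F E) (x : E) : (φ + ψ) x = φ x + ψ x := rfl

@[simp] theorem Du.sub_apply (φ ψ : Du F E) (x : E) : (φ - ψ) x = φ x - ψ x := rfl

@[simp] theorem Du.neg_apply (φ : Du F E) (x : E) : (-φ) x = -φ x := rfl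

@[simp] theorem Du.zero_apply (x : E) : (0 : Du F E) x = 0 := rfl

@[simp] theorem Du.smul_apply (c : F) (φ : Du F E) (x : E) : (c • φ) x = c * φ x := rfl

@[simp] theorem Du.map_add (φ : Du F E) (x y : E) : φ (x + y) = φ x + φ y :=
  LinearMap.map_add (Du.equiv φ) x y

@[simp] theorem Du.map_sub (φ : Du F E) (x y : E) : φ (x - y) = φ x - φ y :=
  LinearMap.map_sub (Du.equiv φ) x y

@[simp] theorem Du.map_zero (φ : Du F E) : φ (0 : E) = 0 :=
  LinearMap.map_zero (Du.equiv φ)

@[simp] theorem Du.map_smul (φ : Du F E) (c : F) (x : E) : φ (c • x) = c * φ x :=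
  LinearMap.map_smul (Du.equiv φ) c x

end Du

/-- bilinear forms with `B(y, x) = ε B(x, y)` -/
def formsE (F E : Type*) [Field F] [AddCommGroup E] [Module F E] (ε : F) :
    Submodule F (E →ₗ[F] Du F E) where
  carrier := {B | ∀ x y, B y x = ε * B x y}
  zero_mem' := fun x y => by simp
  add_mem' := fun {A B} hA hB x y => by
    rw [LinearMap.add_apply, LinearMap.add_apply, Du.add_apply, Du.add_apply, hA, hB]
    ring
  smul_mem' := fun c B hB x y => by
    rw [LinearMap.smul_apply, LinearMap.smul_apply, Du.smul_apply, Du.smul_apply, hB]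
    ring

theorem mem_formsE {F E : Type*} [Field F] [AddCommGroup E] [Module F E] {ε : F}
    {B : E →ₗ[F] Du F E} : B ∈ formsE F E ε ↔ ∀ x y, B y x = ε * B x y := Iff.rfl

/-- pullback of functionals -/
def Du.pull {F E E' : Type*} [Field F] [AddCommGroup E] [Module F E] [AddCommGroup E']
    [Module F E'] (u : E' →ₗ[F] E) : Du F E →ₗ[F] Du F E' where
  toFun φ := Du.equiv.symm (Du.equiv φ ∘ₗ u)
  map_add' _ _ := rfl
  map_smul' _ _ := rfl

@[simp] theorem Du.pull_apply {F E E' : Type*} [Field F] [AddCommGroup E] [Module F E]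
    [AddCommGroup E'] [Module F E'] (u : E' →ₗ[F] E) (φ : Du F E) (x : E') :
    Du.pull u φ x = φ (u x) := rfl

/-- pullback of bilinear forms -/
def pb {F E E' : Type*} [Field F] [AddCommGroup E] [Module F E] [AddCommGroup E'] [Module F E']
    (u : E' →ₗ[F] E) : (E →ₗ[F] Du F E) →ₗ[F] (E' →ₗ[F] Du F E') where
  toFun B := Du.pull u ∘ₗ B ∘ₗ u
  map_add' A B := by
    ext x y
    rfl
  map_smul' c B := by
    ext x y
    rfl

@[simp] theorem pb_apply {F E E' : Type*} [Field F] [AddCommGroup E] [Module F E]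
    [AddCommGroup E'] [Module F E'] (u : E' →ₗ[F] E) (B : E →ₗ[F] Du F E) (x y : E') :
    pb u B x y = B (u x) (u y) := rfl

/-- a theta characteristic -/
structure Theta {k F P : Type*} [Field k] [Field F] [Algebra k F] (C : Curve k F P)
    (θ : P → ℤ) : Prop where
  fin : {p | θ p ≠ 0}.Finite
  cong : ∀ p, 2 * (θ p % (C.per p : ℤ)) = (C.per p : ℤ) - 1
  deg : Curve.deg C θ = -1

section Theta

variable {k F P : Type*} [Field k] [Field F] [Algebra k F] {C : Curve k F P} {θ : P → ℤ}

theorem Theta.div_identity (hθ : Theta C θ) (p : P) (w : ℤ) :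
    (-(2 * w)) / (C.per p : ℤ) = (-w) / C.per p + (θ p - w) / C.per p - θ p / C.per p := by
  have hpp : (0 : ℤ) < C.per p := by exact_mod_cast C.per_pos p
  have h1 := hθ.cong p
  obtain ⟨m, hm⟩ : ∃ m : ℤ, m = (C.per p : ℤ) := ⟨_, rfl⟩
  rw [← hm] at hpp h1 ⊢
  set t := θ p / m with ht
  set r := θ p % m with hr
  have hθe : θ p = r + m * t := (Int.emod_add_mul_ediv (θ p) m).symm
  set q := (-w) / m with hq
  set s := (-w) % m with hs
  have hwe : -w = s + m * q := (Int.emod_add_mul_ediv (-w) m).symm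
  have hs0 : 0 ≤ s := Int.emod_nonneg _ hpp.ne'
  have hsm : s < m := Int.emod_lt_of_pos _ hpp
  by_cases hcase : 2 * s < m
  · have e1 : (-(2 * w)) / m = 2 * q := by
      refine ((Int.ediv_emod_unique (r := 2 * s) hpp).2 ⟨?_, ?_, ?_⟩).1
      · linear_combination (-2) * hwe
      · linarith
      · linarith
    have e2 : (θ p - w) / m = t + q := by
      refine ((Int.ediv_emod_unique (r := r + s) hpp).2 ⟨?_, ?_, ?_⟩).1
      · linear_combination (-1) * hθe - hwe
      · omega
      · omega
    rw [e1, e2]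
    ring
  · have e1 : (-(2 * w)) / m = 2 * q + 1 := by
      refine ((Int.ediv_emod_unique (r := 2 * s - m) hpp).2 ⟨?_, ?_, ?_⟩).1
      · linear_combination (-2) * hwe
      · linarith
      · linarith
    have e2 : (θ p - w) / m = t + q + 1 := by
      refine ((Int.ediv_emod_unique (r := r + s - m) hpp).2 ⟨?_, ?_, ?_⟩).1
      · linear_combination (-1) * hθe - hwe
      · omega
      · omega
    rw [e1, e2]
    ring

theorem Theta.dualizing (hθ : Theta C θ) : Dualizing C (fun p => 2 * θ p) := by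
  refine ⟨?_, ?_, ?_⟩
  · refine hθ.fin.subset ?_
    intro p hp h
    exact hp (by simp [h])
  · intro p
    have hpp : (0 : ℤ) < C.per p := by exact_mod_cast C.per_pos p
    have h1 := hθ.cong p
    have h2 := Int.emod_add_mul_ediv (θ p) (C.per p)
    refine ((Int.ediv_emod_unique (q := 2 * (θ p / C.per p)) hpp).2 ⟨?_, ?_, ?_⟩).2
    · linear_combination 2 * h2 - h1
    · linarith
    · linarith
  · obtain ⟨h1, h2, h3⟩ := hθ
    have e1 := C.deg_eq_sum (n := θ) h1.toFinset (by
      intro p hp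
      by_contra h0
      exact hp (h1.mem_toFinset.2 h0))
    have e2 := C.deg_eq_sum (n := fun p => 2 * θ p) h1.toFinset (by
      intro p hp
      by_contra h0
      refine hp (h1.mem_toFinset.2 ?_)
      intro h
      exact h0 (by simp [h]))
    rw [e1] at h3
    rw [e2]
    have e3 : ∀ p, (2 * θ p) / (C.per p : ℤ) = 2 * (θ p / C.per p) := by
      intro p
      have hpp : (0 : ℤ) < C.per p := by exact_mod_cast C.per_pos p
      have h4 := h2 p
      have h5 := Int.emod_add_mul_ediv (θ p) (C.per p)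
      refine ((Int.ediv_emod_unique (r := C.per p - 1) hpp).2 ⟨?_, ?_, ?_⟩).1
      · linear_combination 2 * h5 - h4
      · linarith
      · linarith
    simp only [e3]
    rw [← Finset.mul_sum, h3]
    norm_num

theorem Theta.deg_identity (hθ : Theta C θ) {w : P → ℤ} (hw : {p | w p ≠ 0}.Finite) :
    1 + C.deg (fun p => -(2 * w p)) =
      (1 + C.deg (fun p => - w p)) + (1 + C.deg (fun p => θ p - w p)) := by
  classical
  let S : Finset P := hw.toFinset ∪ hθ.fin.toFinset
  have hS : ∀ p, p ∉ S → w p = 0 ∧ θ p = 0 := by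
    intro p hp
    simp only [S, Finset.mem_union, Set.Finite.mem_toFinset, Set.mem_ofPred_eq, not_or,
      not_not] at hp
    exact hp
  have e1 := C.deg_eq_sum (n := fun p => -(2 * w p)) S (fun p hp => by
    simp [(hS p hp).1])
  have e2 := C.deg_eq_sum (n := fun p => - w p) S (fun p hp => by
    simp [(hS p hp).1])
  have e3 := C.deg_eq_sum (n := fun p => θ p - w p) S (fun p hp => by
    simp [(hS p hp).1, (hS p hp).2])
  have e4 := C.deg_eq_sum (n := θ) S (fun p hp => (hS p hp).2)
  have e5 := hθ.deg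
  rw [e4] at e5
  rw [e1, e2, e3]
  have e6 : ∑ p ∈ S, (-(2 * w p)) / (C.per p : ℤ) = ∑ p ∈ S, (-w p) / (C.per p : ℤ) +
      ∑ p ∈ S, (θ p - w p) / (C.per p : ℤ) - ∑ p ∈ S, θ p / (C.per p : ℤ) := by
    rw [← Finset.sum_add_distrib, ← Finset.sum_sub_distrib]
    exact Finset.sum_congr rfl fun p _ => hθ.div_identity p (w p)
  rw [e6, e5]
  ring

end Theta

namespace Bun

variable {k F P : Type*} [Field k] [Field F] [Algebra k F] {C : Curve k F P}
  {E : Type*} [AddCommGroup E] [Module F E] [Module k E] [IsScalarTower k F E]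
  {E₂ : Type*} [AddCommGroup E₂] [Module F E₂] [Module k E₂] [IsScalarTower k F E₂]

/-- additivity for a map from a sub-bundle -/
theorem chi_sub_add (B : Bun C E) (X K : Submodule F E) (B₂ : Bun C E₂) (f : X →ₗ[F] E₂)
    (hKX : K ≤ X) (hK : ∀ x : X, f x = 0 ↔ (x : E) ∈ K) (hf : Function.Surjective f)
    (h1 : ∀ p (x : X), (x : E) ∈ B.lat p → f x ∈ B₂.lat p)
    (h2 : ∀ p y, y ∈ B₂.lat p → ∃ x : X, (x : E) ∈ B.lat p ∧ f x = y) :
    chi (B.sub X).lat = chi (B.sub K).lat + chi B₂.lat := by
  have h3 := (B.sub X).chi_add_of_surj B₂ f hf h1 h2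
  rw [h3]
  congr 1
  have hker : ∀ x : X, x ∈ LinearMap.ker f ↔ (x : E) ∈ K := fun x => hK x
  let e : LinearMap.ker f ≃ₗ[F] K :=
    { toFun := fun x => ⟨x.1.1, (hker x.1).mp x.2⟩
      map_add' := fun x y => rfl
      map_smul' := fun c x => rfl
      invFun := fun x => ⟨⟨x.1, hKX x.2⟩, (hker _).mpr x.2⟩
      left_inv := fun x => rfl
      right_inv := fun x => rfl }
  exact (((B.sub X).sub (LinearMap.ker f)).chi_eq_of_equiv (B.sub K) e
    (fun p x => Iff.rfl)).1

/-- the dual bundle on the type `Du F E` -/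
def du [FiniteDimensional F E] (B : Bun C E) : Bun C (Du F E) where
  ch p :=
    { L := fun c =>
        { carrier := {φ | ∀ a x, x ∈ (B.ch p).L a → φ x ∈ (C.pl p).M (C.per p) (a + c)}
          zero_mem' := fun _ _ _ => Submodule.zero_mem _
          add_mem' := fun hφ hψ a x hx => Submodule.add_mem _ (hφ a x hx) (hψ a x hx)
          smul_mem' := fun r _ hφ a x hx => Submodule.smul_mem _ r (hφ a x hx) }
      pos := C.per_pos p
      anti := ((B.ch p).dual).anti
      smul_iff := ((B.ch p).dual).smul_iff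
      exhaust := ((B.ch p).dual).exhaust
      bdd := fun φ => ((B.ch p).dual).bdd φ }
  std := (B.hom (unit C)).std

variable [FiniteDimensional F E]

theorem mem_du_ch (B : Bun C E) (p : P) (c : ℤ) (φ : Du F E) :
    φ ∈ (B.du.ch p).L c ↔ ∀ a x, x ∈ (B.ch p).L a →
      φ x ∈ (C.pl p).M (C.per p) (a + c) := Iff.rfl

/-- the bundle of bilinear forms, on the type `E →ₗ[F] Du F E` -/
def bl (B : Bun C E) : Bun C (E →ₗ[F] Du F E) := B.hom B.du

theorem mem_bl_ch (B : Bun C E) (p : P) (c : ℤ) (A : E →ₗ[F] Du F E) :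
    A ∈ (B.bl.ch p).L c ↔ ∀ a x, x ∈ (B.ch p).L a → ∀ b y, y ∈ (B.ch p).L b →
      A x y ∈ (C.pl p).M (C.per p) (a + b + c) := by
  change (∀ a x, x ∈ (B.ch p).L a → ∀ b y, y ∈ (B.ch p).L b →
      A x y ∈ (C.pl p).M (C.per p) (b + (a + c))) ↔ _
  refine forall_congr' fun a => forall_congr' fun x => imp_congr_right fun _ =>
    forall_congr' fun b => forall_congr' fun y => imp_congr_right fun _ => ?_
  rw [show b + (a + c) = a + b + c by ring]

theorem mem_bl_lat (B : Bun C E) (p : P) (A : E →ₗ[F] Du F E) :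
    A ∈ B.bl.lat p ↔ ∀ a x, x ∈ (B.ch p).L a → ∀ b y, y ∈ (B.ch p).L b →
      A x y ∈ (C.pl p).M (C.per p) (a + b) := by
  have := B.mem_bl_ch p 0 A
  simp only [add_zero] at this
  exact this

/-- the Euler characteristic of the bundle of `ε`-symmetric forms -/
noncomputable def chiF (B : Bun C E) (ε : F) : ℤ := chi (B.bl.sub (formsE F E ε)).lat

/-- the middle term -/
def midT (F : Type*) [Field F] {E : Type*} [AddCommGroup E] [Module F E] (S : Submodule F E) :
    Submodule F (S →ₗ[F] Du F E) where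
  carrier := {φ | ∀ s t : S, φ s t = 0}
  zero_mem' := fun s t => rfl
  add_mem' := fun {φ ψ} hφ hψ s t => by
    rw [LinearMap.add_apply, Du.add_apply, hφ, hψ, add_zero]
  smul_mem' := fun c φ hφ s t => by
    rw [LinearMap.smul_apply, Du.smul_apply, hφ, mul_zero]

/-- the step formula for `ε`-symmetric forms -/
theorem chiF_step (B : Bun C E) (S : Submodule F E) (ε : F) (hε : ε * ε = 1) :
    B.chiF ε = (B.sub S).chiF ε + (B.quo S).chiF ε +
      chi (((B.sub S).hom B.du).sub (midT F S)).lat := by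
  have hε0 : ε ≠ 0 := by
    rintro rfl
    simp at hε
  -- the kernel of restriction to `S`
  let K₁ : Submodule F (E →ₗ[F] Du F E) :=
    formsE F E ε ⊓ LinearMap.ker (pb S.subtype)
  have hK₁ : ∀ A, A ∈ K₁ ↔ A ∈ formsE F E ε ∧ ∀ s t : S, A s t = 0 := by
    intro A
    refine and_congr_right fun _ => ?_
    constructor
    · intro h s t
      have h1 : pb S.subtype A = 0 := h
      have h2 : pb S.subtype A s t = 0 := by
        rw [h1]
        rfl
      exact h2
    · intro h
      change pb S.subtype A = 0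
      ext s t
      exact h s t
  let f₁ : formsE F E ε →ₗ[F] formsE F S ε :=
    ((pb S.subtype) ∘ₗ (formsE F E ε).subtype).codRestrict (formsE F S ε)
      (fun A x y => A.2 x y)
  have hf₁ : ∀ (A : formsE F E ε) (s t : S), (f₁ A).1 s t = A.1 s t := fun A s t => rfl
  -- lifting forms from `S`
  have lift₁ : ∀ e : E →ₗ[F] E, ∀ he1 : (∀ x, e x ∈ S), (∀ x ∈ S, e x = x) →
      ∀ A : formsE F S ε, ∃ A' : formsE F E ε, f₁ A' = A ∧
        ∀ (x y : E), A'.1 x y = A.1 ⟨e x, he1 x⟩ ⟨e y, he1 y⟩ := by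
    intro e he1 he2 A
    refine ⟨⟨pb (e.codRestrict S he1) A.1, fun x y => A.2 _ _⟩, ?_, fun x y => rfl⟩
    apply Subtype.ext
    ext s t
    rw [hf₁]
    change A.1 (e.codRestrict S he1 s) (e.codRestrict S he1 t) = A.1 s t
    have h1 : ∀ s : S, e.codRestrict S he1 (s : E) = s := fun s => Subtype.ext (he2 s s.2)
    rw [h1, h1]
  obtain ⟨T, hT⟩ := S.exists_isCompl
  let e0 : E →ₗ[F] E := S.subtype ∘ₗ S.projectionOnto T hT
  have he01 : ∀ x, e0 x ∈ S := fun x => (S.projectionOnto T hT x).2
  have he02 : ∀ x ∈ S, e0 x = x := fun x hx =>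
    congrArg Subtype.val (Submodule.projectionOnto_apply_left hT ⟨x, hx⟩)
  have c1 := (B.bl).chi_sub_add (formsE F E ε) K₁ ((B.sub S).bl.sub (formsE F S ε)) f₁
    (fun A hA => ((hK₁ A).mp hA).1)
    (by
      intro A
      rw [hK₁]
      constructor
      · intro h
        refine ⟨A.2, fun s t => ?_⟩
        rw [← hf₁, h]
        rfl
      · rintro ⟨-, h⟩
        apply Subtype.ext
        ext s t
        exact h s t)
    (by
      intro A
      obtain ⟨A', h, -⟩ := lift₁ e0 he01 he02 A
      exact ⟨A', h⟩)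
    (by
      intro p A hA
      change (f₁ A).1 ∈ (B.sub S).bl.lat p
      rw [mem_bl_lat] at hA ⊢
      intro a x hx b y hy
      exact hA a x hx b y hy)
    (by
      intro p A hA
      obtain ⟨e, he1, he2, he3⟩ := (B.ch p).exists_proj S
      obtain ⟨A', h, h'⟩ := lift₁ e he1 he2 A
      refine ⟨A', ?_, h⟩
      have hA' : A.1 ∈ (B.sub S).bl.lat p := hA
      rw [mem_bl_lat] at hA' ⊢
      intro a x hx b y hy
      rw [h' x y]
      exact hA' a _ (he3 a x hx) b _ (he3 b y hy))
  -- the second map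
  let g₂ : (E →ₗ[F] Du F E) →ₗ[F] (S →ₗ[F] Du F E) :=
    { toFun := fun A => A ∘ₗ S.subtype
      map_add' := fun A A' => by
        ext s t
        rfl
      map_smul' := fun c A => by
        ext s t
        rfl }
  have hg₂ : ∀ (A : E →ₗ[F] Du F E) (s : S) (t : E), g₂ A s t = A s t := fun A s t => rfl
  let K₂ : Submodule F (E →ₗ[F] Du F E) := formsE F E ε ⊓ LinearMap.ker g₂
  have hK₂ : ∀ A, A ∈ K₂ ↔ A ∈ formsE F E ε ∧ ∀ (s : S) (t : E), A s t = 0 := by
    intro A
    refine and_congr_right fun _ => ?_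
    constructor
    · intro h s t
      have h1 : g₂ A = 0 := h
      rw [← hg₂, h1]
      rfl
    · intro h
      change g₂ A = 0
      ext s t
      exact h s t
  let f₂ : K₁ →ₗ[F] midT F S :=
    (g₂ ∘ₗ K₁.subtype).codRestrict (midT F S) (fun A s t => ((hK₁ A.1).mp A.2).2 s t)
  have hf₂ : ∀ (A : K₁) (s : S) (t : E), (f₂ A).1 s t = A.1 s t := fun A s t => rfl
  have lift₂ : ∀ e : E →ₗ[F] E, ∀ he1 : (∀ x, e x ∈ S), (∀ x ∈ S, e x = x) →
      ∀ φ : midT F S, ∃ A' : K₁, f₂ A' = φ ∧
        ∀ (x y : E), A'.1 x y = φ.1 ⟨e x, he1 x⟩ y + ε * φ.1 ⟨e y, he1 y⟩ (x - e x) := by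
    intro e he1 he2 φ
    have hφ : ∀ (s t : S), φ.1 s t = 0 := φ.2
    have hφe : ∀ (s : S) (x : E), φ.1 s (e x) = 0 := fun s x => hφ s ⟨e x, he1 x⟩
    let A0 : E →ₗ[F] Du F E := φ.1 ∘ₗ e.codRestrict S he1
    have hA0 : ∀ x y, A0 x y = φ.1 ⟨e x, he1 x⟩ y := fun x y => rfl
    let A1 : E →ₗ[F] Du F E :=
      { toFun := fun x => Du.equiv.symm
          { toFun := fun y => A0 y (x - e x)
            map_add' := fun y y' => by rw [_root_.map_add, Du.add_apply]
            map_smul' := fun c y => by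
              rw [LinearMap.map_smul, Du.smul_apply, RingHom.id_apply, smul_eq_mul] }
        map_add' := fun x x' => by
          ext y
          change A0 y (x + x' - e (x + x')) = A0 y (x - e x) + A0 y (x' - e x')
          rw [← Du.map_add, _root_.map_add]
          congr 1
          abel
        map_smul' := fun c x => by
          ext y
          change A0 y (c • x - e (c • x)) = c * A0 y (x - e x)
          rw [← Du.map_smul, LinearMap.map_smul, smul_sub] }
    have hA1 : ∀ x y, A1 x y = A0 y (x - e x) := fun x y => rfl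
    have hval : ∀ x y, (A0 + ε • A1) x y =
        φ.1 ⟨e x, he1 x⟩ y + ε * φ.1 ⟨e y, he1 y⟩ (x - e x) := fun x y => rfl
    have hform : A0 + ε • A1 ∈ formsE F E ε := by
      intro x y
      rw [hval, hval, Du.map_sub, Du.map_sub, hφe, hφe, sub_zero, sub_zero, mul_add,
        ← mul_assoc, hε, one_mul]
      ring
    have hmem : A0 + ε • A1 ∈ K₁ := by
      rw [hK₁]
      refine ⟨hform, fun s t => ?_⟩
      rw [hval]
      have h1 : (s : E) - e s = 0 := by rw [he2 s s.2, sub_self]
      rw [h1, Du.map_zero, mul_zero, add_zero]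
      exact hφ _ t
    refine ⟨⟨_, hmem⟩, ?_, hval⟩
    apply Subtype.ext
    ext s t
    rw [hf₂]
    change (A0 + ε • A1) s t = φ.1 s t
    rw [hval]
    have h1 : (s : E) - e s = 0 := by rw [he2 s s.2, sub_self]
    have h2 : (⟨e s, he1 s⟩ : S) = s := Subtype.ext (he2 s s.2)
    rw [h1, h2, Du.map_zero, mul_zero, add_zero]
  have c2 := (B.bl).chi_sub_add K₁ K₂ (((B.sub S).hom B.du).sub (midT F S)) f₂
    (fun A hA => by
      rw [hK₂] at hA
      rw [hK₁]
      exact ⟨hA.1, fun s t => hA.2 s t⟩)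
    (by
      intro A
      rw [hK₂]
      constructor
      · intro h
        refine ⟨((hK₁ A.1).mp A.2).1, fun s t => ?_⟩
        rw [← hf₂, h]
        rfl
      · rintro ⟨-, h⟩
        apply Subtype.ext
        ext s t
        exact h s t)
    (by
      intro φ
      obtain ⟨A', h, -⟩ := lift₂ e0 he01 he02 φ
      exact ⟨A', h⟩)
    (by
      intro p A hA
      change (f₂ A).1 ∈ ((B.sub S).hom B.du).lat p
      rw [mem_bl_lat] at hA
      rw [mem_hom_lat]
      intro a x hx
      rw [mem_du_ch]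
      intro b y hy
      have := hA a x hx b y hy
      rwa [add_comm] at this)
    (by
      intro p φ hφ
      obtain ⟨e, he1, he2, he3⟩ := (B.ch p).exists_proj S
      obtain ⟨A', h, h'⟩ := lift₂ e he1 he2 φ
      refine ⟨A', ?_, h⟩
      have hφ' : φ.1 ∈ ((B.sub S).hom B.du).lat p := hφ
      rw [mem_hom_lat] at hφ'
      rw [mem_bl_lat]
      intro a x hx b y hy
      rw [h' x y]
      have hεM : ε ∈ (C.pl p).M (C.per p) 0 := by
        refine Or.inr ?_
        have h1 := (C.pl p).ord_mul ε ε hε0 hε0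
        rw [hε, (C.pl p).ord_one] at h1
        have h2 : (C.pl p).ord ε = 0 := by omega
        rw [h2, mul_zero]
      refine Submodule.add_mem _ ?_ ?_
      · have := hφ' a ⟨e x, he1 x⟩ (he3 a x hx) b y hy
        rwa [add_comm] at this
      · have h3 := hφ' b ⟨e y, he1 y⟩ (he3 b y hy) a (x - e x)
          (Submodule.sub_mem _ hx (he3 a x hx))
        have h4 := (C.pl p).mul_mem_M hεM h3
        rwa [zero_add] at h4)
  -- the kernel of the second map is the space of forms on the quotient
  have hmk : ∀ x : E, ∀ s : S, ∀ A ∈ K₂, A (x + s) = A x := by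
    intro x s A hA
    have hA' := (hK₂ A).mp hA
    ext y
    rw [_root_.map_add, Du.add_apply, hA'.2 s y, add_zero]
  let e₃ : formsE F (E ⧸ S) ε ≃ₗ[F] K₂ := LinearEquiv.ofBijective
    (((pb S.mkQ) ∘ₗ (formsE F (E ⧸ S) ε).subtype).codRestrict K₂ (fun A => by
      rw [hK₂]
      refine ⟨fun x y => A.2 _ _, fun s t => ?_⟩
      change A.1 (S.mkQ (s : E)) (S.mkQ t) = 0
      have : S.mkQ (s : E) = 0 := by simp
      rw [this, LinearMap.map_zero]
      rfl))
    (by
      constructor
      · intro A A' h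
        apply Subtype.ext
        apply LinearMap.ext
        intro x
        apply Du.ext
        intro y
        obtain ⟨x, rfl⟩ := S.mkQ_surjective x
        obtain ⟨y, rfl⟩ := S.mkQ_surjective y
        exact DFunLike.congr_fun (LinearMap.congr_fun (congrArg Subtype.val h) x) y
      · rintro ⟨A, hA⟩
        have hA' := (hK₂ A).mp hA
        have hs1 : ∀ s ∈ S, A s = 0 := by
          intro s hs
          ext y
          exact hA'.2 ⟨s, hs⟩ y
        have hs2 : ∀ x, ∀ s ∈ S, A x s = 0 := by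
          intro x s hs
          rw [hA'.1 s x, hA'.2 ⟨s, hs⟩ x, mul_zero]
        let A1 : E →ₗ[F] Du F (E ⧸ S) :=
          { toFun := fun x => Du.equiv.symm (S.liftQ (Du.equiv (A x)) (fun s hs => hs2 x s hs))
            map_add' := fun x x' => by
              ext y
              obtain ⟨y, rfl⟩ := S.mkQ_surjective y
              change A (x + x') y = A x y + A x' y
              rw [LinearMap.map_add, Du.add_apply]
            map_smul' := fun c x => by
              ext y
              obtain ⟨y, rfl⟩ := S.mkQ_surjective y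
              change A (c • x) y = c * A x y
              rw [LinearMap.map_smul, Du.smul_apply] }
        have hA1 : ∀ x y, A1 x (S.mkQ y) = A x y := fun x y => rfl
        let A2 : (E ⧸ S) →ₗ[F] Du F (E ⧸ S) := S.liftQ A1 (by
          intro s hs
          rw [LinearMap.mem_ker]
          ext y
          obtain ⟨y, rfl⟩ := S.mkQ_surjective y
          rw [hA1, hs1 s hs]
          rfl)
        have hA2 : ∀ x y, A2 (S.mkQ x) (S.mkQ y) = A x y := fun x y => rfl
        refine ⟨⟨A2, ?_⟩, ?_⟩
        · intro x y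
          obtain ⟨x, rfl⟩ := S.mkQ_surjective x
          obtain ⟨y, rfl⟩ := S.mkQ_surjective y
          rw [hA2, hA2]
          exact hA'.1 x y
        · apply Subtype.ext
          ext x y
          rfl)
  have he₃ : ∀ (A : formsE F (E ⧸ S) ε) (x y : E),
      (e₃ A).1 x y = A.1 (S.mkQ x) (S.mkQ y) := fun A x y => rfl
  have c3 := (((B.quo S).bl.sub (formsE F (E ⧸ S) ε)).chi_eq_of_equiv (B.bl.sub K₂) e₃ (by
    intro p A
    change A.1 ∈ (B.quo S).bl.lat p ↔ (e₃ A).1 ∈ B.bl.lat p
    rw [mem_bl_lat, mem_bl_lat]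
    constructor
    · intro h a x hx b y hy
      rw [he₃]
      exact h a _ ((B.ch p).mkQ_mem_quo S hx) b _ ((B.ch p).mkQ_mem_quo S hy)
    · rintro h a _ ⟨x, hx, rfl⟩ b _ ⟨y, hy, rfl⟩
      exact h a x hx b y hy)).1
  change chi (B.bl.sub (formsE F E ε)).lat = chi ((B.sub S).bl.sub (formsE F S ε)).lat +
    chi ((B.quo S).bl.sub (formsE F (E ⧸ S) ε)).lat + _
  rw [c1, c2, c3]
  ring

end Bun

end Vale.Agent.P182.H430
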