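import Vale.Agent.P182.H430.RatCurve
import Vale.Agent.P182.H62.Adams

/-!
# Existence of theta characteristics
-/

namespace Vale.Agent.P182.H430

/-- theta characteristics exist as soon as all periods are odd and there is an unmarked place -/
theorem exists_theta {k F P : Type*} [Field k] [Field F] [Algebra k F] (C : Curve k F P)
    (p0 : P) (h0 : C.per p0 = 1) (hodd : ∀ p, C.per p % 2 = 1) :
    Theta C (fun p => by classical exact if p = p0 then -1 else ((C.per p : ℤ) - 1) / 2) := by
  classical
  refine ⟨?_, ?_, ?_⟩
  · refine (C.per_ae.union (Set.finite_singleton p0)).subset ?_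
    intro p hp
    by_contra h
    simp only [Set.mem_union, Set.mem_ofPred_eq, Set.mem_singleton_iff, not_or, not_not] at h
    apply hp
    simp [h.1, h.2]
  · intro p
    have hp := C.per_pos p
    have h2 := hodd p
    by_cases h : p = p0
    · subst h
      simp [h0]
    · simp only [if_neg h]
      rw [Int.emod_eq_of_lt (by omega) (by omega)]
      omega
  · unfold Curve.deg
    rw [finsum_eq_single _ p0]
    · simp [h0]
    · intro p hp
      have h3 := C.per_pos p
      simp only [if_neg hp]
      exact Int.ediv_eq_zero_of_lt (by omega) (by omega)

end Vale.Agent.P182.H430
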