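import Vale.Agent.P182.H62.MS
import Mathlib.LinearAlgebra.BilinearForm.TensorProduct
import Mathlib.LinearAlgebra.TensorProduct.Basis

/-!
# Base change of configurations
-/

namespace Vale.Agent.P182.H62

open Module Matrix TensorProduct Vale.Agent.P182.H533 Vale.Agent.P182.B1

section ev

variable {L : Type*} {L' : Type*} {V : Type*} [Field L] [Field L'] [Algebra L L']
  [AddCommGroup V] [Module L V]

/-- the component of an element of the base change along a functional of the big field -/
noncomputable def ev (f : L' →ₗ[L] L) : L' ⊗[L] V →ₗ[L] V :=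
  (TensorProduct.lid L V).toLinearMap ∘ₗ f.rTensor V

@[simp] theorem ev_tmul (f : L' →ₗ[L] L) (a : L') (v : V) : ev f (a ⊗ₜ[L] v) = f a • v := by
  simp [ev]

/-- expansion along a basis of the big field -/
theorem exists_expand (x : L' ⊗[L] V) : ∃ (s : Finset (Module.Free.ChooseBasisIndex L L')),
    x = ∑ i ∈ s, (Module.Free.chooseBasis L L' i) ⊗ₜ[L]
      ev ((Module.Free.chooseBasis L L').coord i) x := by
  classical
  have h1 := (TensorProduct.equivFinsuppOfBasisLeft (N := V)
    (Module.Free.chooseBasis L L')).symm_apply_apply x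
  rw [TensorProduct.equivFinsuppOfBasisLeft_symm_apply] at h1
  refine ⟨((TensorProduct.equivFinsuppOfBasisLeft (N := V)
    (Module.Free.chooseBasis L L')) x).support, ?_⟩
  conv_lhs => rw [← h1]
  rw [Finsupp.sum]
  refine Finset.sum_congr rfl fun i _ => ?_
  rw [TensorProduct.equivFinsuppOfBasisLeft_apply]
  rfl

theorem ev_sep {x : L' ⊗[L] V} (h : ∀ f : L' →ₗ[L] L, ev f x = 0) : x = 0 := by
  obtain ⟨s, hs⟩ := exists_expand x
  rw [hs]
  exact Finset.sum_eq_zero fun i _ => by rw [h, tmul_zero]

theorem fun_sep {a : L'} (h : ∀ f : L' →ₗ[L] L, f a = 0) : a = 0 := by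
  have := (Module.Free.chooseBasis L L').ext_elem (x := a) (y := 0) fun i => by
    rw [map_zero, Finsupp.zero_apply]
    exact h ((Module.Free.chooseBasis L L').coord i)
  exact this

theorem mem_bc_iff {F : Submodule L V} {x : L' ⊗[L] V} :
    x ∈ F.baseChange L' ↔ ∀ f : L' →ₗ[L] L, ev f x ∈ F := by
  constructor
  · rintro hx f
    obtain ⟨y, rfl⟩ := hx
    induction y with
    | zero => rw [map_zero, map_zero]; exact zero_mem _
    | tmul a v =>
      rw [LinearMap.baseChange_tmul, ev_tmul]
      exact F.smul_mem _ v.2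
    | add y z hy hz => rw [map_add, map_add]; exact add_mem hy hz
  · intro h
    obtain ⟨s, hs⟩ := exists_expand x
    rw [hs]
    exact Submodule.sum_mem _ fun i _ => Submodule.tmul_mem_baseChange_of_mem _ (h _)

variable (L') in
theorem bc_inf (A B : Submodule L V) :
    (A ⊓ B).baseChange L' = A.baseChange L' ⊓ B.baseChange L' := by
  ext x
  rw [Submodule.mem_inf, mem_bc_iff, mem_bc_iff, mem_bc_iff]
  exact ⟨fun h => ⟨fun f => (h f).1, fun f => (h f).2⟩, fun h f => ⟨h.1 f, h.2 f⟩⟩

variable (L') in
theorem finrank_bc (F : Submodule L V) : finrank L' (F.baseChange L') = finrank L F := by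
  have h1 : Function.Injective (F.subtype.baseChange L') := by
    intro x y hxy
    have h2 : ∀ z : L' ⊗[L] F, F.subtype.baseChange L' z = 0 → z = 0 := by
      intro z hz
      refine ev_sep fun f => ?_
      have h3 : ∀ z : L' ⊗[L] F, ev f (F.subtype.baseChange L' z) = F.subtype (ev f z) := by
        intro z
        induction z with
        | zero => rw [map_zero, map_zero, map_zero]; rfl
        | tmul a v => rw [LinearMap.baseChange_tmul, ev_tmul, ev_tmul]; rfl
        | add y z hy hz => rw [map_add, map_add, hy, hz, map_add]; rfl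
      have h4 := h3 z
      rw [hz, map_zero] at h4
      exact Subtype.ext h4.symm
    have := h2 (x - y) (by rw [map_sub, hxy, sub_self])
    exact sub_eq_zero.mp this
  rw [Submodule.baseChange, LinearMap.finrank_range_of_inj h1, Module.finrank_baseChange]

/-- the base change of a form -/
noncomputable def qbc (L' : Type*) [Field L'] [Algebra L L'] (q : V →ₗ[L] V →ₗ[L] L) :
    (L' ⊗[L] V) →ₗ[L'] (L' ⊗[L] V) →ₗ[L'] L' :=
  LinearMap.BilinForm.baseChange L' q

theorem qbc_tmul (q : V →ₗ[L] V →ₗ[L] L) (a b : L') (u v : V) :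
    qbc L' q (a ⊗ₜ u) (b ⊗ₜ v) = a * b * algebraMap L L' (q u v) := by
  rw [qbc, LinearMap.BilinForm.baseChange_tmul, Algebra.smul_def, mul_comm]

theorem ev_qbc (q : V →ₗ[L] V →ₗ[L] L) (f : L' →ₗ[L] L) (x : L' ⊗[L] V) (v : V) :
    f (qbc L' q x (1 ⊗ₜ v)) = q (ev f x) v := by
  induction x with
  | zero => simp
  | tmul a u =>
    rw [qbc_tmul, ev_tmul, mul_one, mul_comm, ← Algebra.smul_def, map_smul, map_smul,
      LinearMap.smul_apply, smul_eq_mul, smul_eq_mul, mul_comm]
  | add x y hx hy =>
    rw [map_add, LinearMap.add_apply, map_add, hx, hy, map_add, map_add, LinearMap.add_apply]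

theorem isForm_qbc {q : V →ₗ[L] V →ₗ[L] L} (hq : IsForm q) : IsForm (qbc L' q) where
  symm := fun x y => by
    induction x with
    | zero => simp
    | tmul a u =>
      induction y with
      | zero => simp
      | tmul b v => rw [qbc_tmul, qbc_tmul, hq.symm u v, mul_comm a b]
      | add y z hy hz => rw [map_add, hy, hz, map_add, LinearMap.add_apply]
    | add x z hx hz => rw [map_add, LinearMap.add_apply, hx, hz, map_add]
  nondeg := fun x hx => ev_sep fun f => hq.nondeg _ fun v => by
    rw [← ev_qbc, hx, map_zero]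

theorem perp_bc (q : V →ₗ[L] V →ₗ[L] L) (F : Submodule L V) :
    perp (qbc L' q) (F.baseChange L') = (perp q F).baseChange L' := by
  ext x
  rw [mem_bc_iff]
  constructor
  · intro h f v hv
    rw [← ev_qbc, h _ (Submodule.tmul_mem_baseChange_of_mem 1 hv), map_zero]
  · intro h y hy
    rw [Submodule.baseChange_eq_span] at hy
    induction hy using Submodule.span_induction with
    | mem y hy =>
      obtain ⟨v, hv, rfl⟩ := hy
      refine fun_sep (L := L) fun f => ?_
      rw [TensorProduct.mk_apply, ev_qbc]
      exact h f v hv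
    | zero => rw [map_zero]
    | add y z _ _ hy hz => rw [map_add, hy, hz, add_zero]
    | smul a y _ hy => rw [map_smul, hy, smul_zero]

end ev

end Vale.Agent.P182.H62
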