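import Vale.Agent.P182.H62.BCfg

/-!
# Base change of versal configurations
-/

namespace Vale.Agent.P182.H62

open Module Matrix TensorProduct Vale.Agent.P182.H533 Vale.Agent.P182.B1

universe u v w

section conn

variable {L V : Type*} [Field L] [AddCommGroup V] [Module L V] {q : V →ₗ[L] V →ₗ[L] L}

/-- the zero connection -/
def cnZero (q : V →ₗ[L] V →ₗ[L] L) : Conn q where
  d := 0
  δ := 0
  leib := fun a b => by simp
  smul := fun a v => by simp
  metric := fun u v => by simp

/-- sum of connections -/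
def cnAdd (n m : Conn q) : Conn q where
  d := n.d + m.d
  δ := n.δ + m.δ
  leib := fun a b => by
    simp only [AddMonoidHom.add_apply, n.leib, m.leib]; ring
  smul := fun a v => by
    simp only [AddMonoidHom.add_apply, n.smul, m.smul, add_smul, smul_add]; abel
  metric := fun u v => by
    simp only [AddMonoidHom.add_apply, n.metric, m.metric, map_add, LinearMap.add_apply]; ring

/-- multiple of a connection -/
def cnSmul (a : L) (n : Conn q) : Conn q where
  d := (AddMonoidHom.mulLeft a).comp n.d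
  δ := (DistribSMul.toAddMonoidHom V a).comp n.δ
  leib := fun b c => by
    show a * n.d (b * c) = (a * n.d b) * c + b * (a * n.d c)
    rw [n.leib]; ring
  smul := fun b v => by
    show a • n.δ (b • v) = (a * n.d b) • v + b • (a • n.δ v)
    rw [n.smul, smul_add, smul_smul, smul_comm a b]
  metric := fun u v => by
    show a * n.d (q u v) = q (a • n.δ u) v + q u (a • n.δ v)
    rw [n.metric, map_smul, map_smul, LinearMap.smul_apply, smul_eq_mul, smul_eq_mul]; ring

/-- adding a skew endomorphism -/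
def cnSkew (n : Conn q) (X : End L V) (hX : IsSk q X) : Conn q where
  d := n.d
  δ := n.δ + X.toAddMonoidHom
  leib := n.leib
  smul := fun a v => by
    simp only [AddMonoidHom.add_apply, n.smul]
    show _ + X (a • v) = _ + a • (n.δ v + X v)
    rw [map_smul, smul_add]; abel
  metric := fun u v => by
    simp only [AddMonoidHom.add_apply, n.metric]
    show _ = q (n.δ u + X u) v + q u (n.δ v + X v)
    rw [map_add, map_add, LinearMap.add_apply, hX]; ring

end conn

section bcconn

variable {L : Type u} {V : Type v} {J : Type w} [Field L] [AddCommGroup V] [Module L V]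
  {L' : Type u} [Field L'] [Algebra L L']

/-- the extension of a connection to the base change -/
noncomputable def bcδ (δ : V →+ V) (d : L →+ L) (d' : L' →+ L')
    (hl : ∀ a b, d' (a * b) = d' a * b + a * d' b)
    (hd : ∀ a, d' (algebraMap L L' a) = algebraMap L L' (d a))
    (hs : ∀ a v, δ (a • v) = d a • v + a • δ v) : L' ⊗[L] V →+ L' ⊗[L] V :=
  TensorProduct.liftAddHom
    { toFun := fun a =>
        { toFun := fun v => d' a ⊗ₜ[L] v + a ⊗ₜ[L] δ v
          map_zero' := by rw [map_zero, tmul_zero, tmul_zero, add_zero]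
          map_add' := fun v w => by rw [map_add, tmul_add, tmul_add]; abel }
      map_zero' := by
        ext v
        show d' 0 ⊗ₜ[L] v + (0 : L') ⊗ₜ[L] δ v = 0
        rw [map_zero, zero_tmul, zero_tmul, add_zero]
      map_add' := fun a b => by
        ext v
        show d' (a + b) ⊗ₜ[L] v + (a + b) ⊗ₜ[L] δ v =
          (d' a ⊗ₜ[L] v + a ⊗ₜ[L] δ v) + (d' b ⊗ₜ[L] v + b ⊗ₜ[L] δ v)
        rw [map_add, add_tmul, add_tmul]; abel }
    (fun r a v => by
      show d' (r • a) ⊗ₜ[L] v + (r • a) ⊗ₜ[L] δ v = d' a ⊗ₜ[L] (r • v) + a ⊗ₜ[L] δ (r • v)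
      have e1 : d' (r • a) = d r • a + r • d' a := by
        rw [Algebra.smul_def, hl, hd, Algebra.smul_def, Algebra.smul_def]
      rw [e1, hs, tmul_add, add_tmul, smul_tmul, smul_tmul, smul_tmul]
      abel)

theorem bcδ_tmul {δ : V →+ V} {d : L →+ L} {d' : L' →+ L'}
    (hl : ∀ a b, d' (a * b) = d' a * b + a * d' b)
    (hd : ∀ a, d' (algebraMap L L' a) = algebraMap L L' (d a))
    (hs : ∀ a v, δ (a • v) = d a • v + a • δ v) (a : L') (v : V) :
    bcδ δ d d' hl hd hs (a ⊗ₜ[L] v) = d' a ⊗ₜ[L] v + a ⊗ₜ[L] δ v := rfl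

/-- the extension of a metric connection -/
noncomputable def bcConn {q : V →ₗ[L] V →ₗ[L] L} (n : Conn q) (d' : L' →+ L')
    (hl : ∀ a b, d' (a * b) = d' a * b + a * d' b)
    (hd : ∀ a, d' (algebraMap L L' a) = algebraMap L L' (n.d a)) : Conn (qbc L' q) where
  d := d'
  δ := bcδ n.δ n.d d' hl hd n.smul
  leib := hl
  smul := fun a x => by
    induction x with
    | zero => rw [smul_zero, map_zero, smul_zero, smul_zero, add_zero]
    | tmul b v =>
      rw [smul_tmul', bcδ_tmul, bcδ_tmul, smul_eq_mul, hl, add_tmul, smul_add, smul_tmul',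
        smul_tmul', smul_tmul', smul_eq_mul, smul_eq_mul, smul_eq_mul]
      abel
    | add x y hx hy => rw [smul_add, map_add, hx, hy, map_add, smul_add, smul_add]; abel
  metric := fun x y => by
    induction x with
    | zero => simp
    | tmul a u =>
      induction y with
      | zero => simp
      | tmul b v =>
        rw [qbc_tmul, bcδ_tmul, bcδ_tmul, map_add, map_add, LinearMap.add_apply, qbc_tmul,
          qbc_tmul, qbc_tmul, qbc_tmul, hl, hl, hd, n.metric, map_add]
        ring
      | add y z hy hz =>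
        simp only [map_add] at hy hz ⊢
        rw [hy, hz]; ring
    | add x z hx hz =>
      simp only [map_add, LinearMap.add_apply] at hx hz ⊢
      rw [hx, hz]; ring

end bcconn

section real

variable {L : Type u} {V : Type v} {J : Type w} [Field L] [AddCommGroup V] [Module L V]

/-- the first order variations which are realised by a connection -/
def realM (𝒟 : Cfg L V J) : Submodule L ((Fin 3 → End L V) × Matrix J J L) where
  carrier := {p | ∃ n : Conn 𝒟.q, (∀ s i, ∀ v ∈ 𝒟.F s i, n.δ v - p.1 s v ∈ 𝒟.F s i) ∧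
    ∀ l k, n.d (𝒟.Ω l k) = p.2 l k}
  add_mem' := by
    rintro a b ⟨n, hn, hn'⟩ ⟨m, hm, hm'⟩
    refine ⟨cnAdd n m, fun s i v hv => ?_, fun l k => ?_⟩
    · have := add_mem (hn s i v hv) (hm s i v hv)
      convert this using 1
      show n.δ v + m.δ v - (a.1 s v + b.1 s v) = _
      abel
    · show n.d _ + m.d _ = _
      rw [hn', hm']; rfl
  zero_mem' := by
    refine ⟨cnZero 𝒟.q, fun s i v hv => ?_, fun l k => rfl⟩
    show (0 : V) - 0 ∈ _
    rw [sub_zero]; exact zero_mem _
  smul_mem' := by
    rintro c a ⟨n, hn, hn'⟩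
    refine ⟨cnSmul c n, fun s i v hv => ?_, fun l k => ?_⟩
    · have := Submodule.smul_mem _ c (hn s i v hv)
      convert this using 1
      show c • n.δ v - c • a.1 s v = _
      rw [smul_sub]
    · show c * n.d _ = _
      rw [hn']; rfl

theorem mem_realM {𝒟 : Cfg L V J} {p : (Fin 3 → End L V) × Matrix J J L} :
    p ∈ realM 𝒟 ↔ ∃ n : Conn 𝒟.q, (∀ s i, ∀ v ∈ 𝒟.F s i, n.δ v - p.1 s v ∈ 𝒟.F s i) ∧
      ∀ l k, n.d (𝒟.Ω l k) = p.2 l k := Iff.rfl

theorem versal_iff {𝒟 : Cfg L V J} : 𝒟.Versal ↔ ∀ Y : Fin 3 → End L V, (∀ s, IsSk 𝒟.q (Y s)) →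
    ∀ η : Matrix J J L, ηᵀ = -η → (Y, η) ∈ realM 𝒟 := Iff.rfl

/-- the rank two skew endomorphisms -/
def wdg (q : V →ₗ[L] V →ₗ[L] L) (u w : V) : End L V := (q u).smulRight w - (q w).smulRight u

theorem wdg_apply (q : V →ₗ[L] V →ₗ[L] L) (u w x : V) : wdg q u w x = q u x • w - q w x • u := rfl

theorem wdg_skew {q : V →ₗ[L] V →ₗ[L] L} (hq : IsForm q) (u w : V) : IsSk q (wdg q u w) := by
  intro x y
  rw [wdg_apply, wdg_apply, map_sub, map_smul, map_smul, LinearMap.sub_apply,
    LinearMap.smul_apply, LinearMap.smul_apply, map_sub, map_smul, map_smul, smul_eq_mul,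
    smul_eq_mul, smul_eq_mul, smul_eq_mul, hq.symm w y, hq.symm u y, hq.symm x u, hq.symm x w]
  rw [hq.symm y w, hq.symm y u]
  ring

theorem wdg_add (q : V →ₗ[L] V →ₗ[L] L) (u w w' : V) :
    wdg q u (w + w') = wdg q u w + wdg q u w' := by
  ext x
  rw [LinearMap.add_apply, wdg_apply, wdg_apply, wdg_apply, map_add, LinearMap.add_apply,
    smul_add, add_smul]
  abel

theorem wdg_smul (q : V →ₗ[L] V →ₗ[L] L) (a : L) (u w : V) :
    wdg q u (a • w) = a • wdg q u w := by
  ext x
  rw [LinearMap.smul_apply, wdg_apply, wdg_apply, map_smul, LinearMap.smul_apply, smul_sub,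
    smul_comm, smul_eq_mul, mul_smul]

/-- every skew endomorphism is a combination of rank two ones, with dual bases -/
theorem exists_wdg [FiniteDimensional L V] {q : V →ₗ[L] V →ₗ[L] L} (hq : IsForm q) : ∃ (ι : Type) (_ : Fintype ι) (e e' : ι → V),
      (∀ x, x = ∑ j, q (e' j) x • e j) ∧ (∀ x, x = ∑ j, q (e j) x • e' j) := by
  classical
  let b := Module.finBasis L V
  refine ⟨Fin (finrank L V), inferInstance, b, fun j => hq.eqv.symm (b.coord j), ?_, ?_⟩
  · intro x
    conv_lhs => rw [← b.sum_repr x]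
    refine Finset.sum_congr rfl fun j _ => ?_
    rw [hq.eqv_symm_apply]; rfl
  · intro x
    apply hq.ext
    intro y
    rw [map_sum, LinearMap.sum_apply]
    conv_lhs => rw [← b.sum_repr y, map_sum]
    refine Finset.sum_congr rfl fun j _ => ?_
    rw [map_smul, map_smul, LinearMap.smul_apply, hq.eqv_symm_apply, hq.symm x, smul_eq_mul,
      smul_eq_mul, mul_comm]
    rfl

end real

section versal

variable {L : Type u} {V : Type v} {J : Type w} [Field L] [AddCommGroup V] [Module L V]
  {L' : Type u} [Field L'] [Algebra L L'] {𝒟 : Cfg L V J}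

/-- realised variations over `L` are realised over `L'` -/
theorem real_bc (hE : DExt L L') {Y : Fin 3 → End L V} {η : Matrix J J L}
    (h : (Y, η) ∈ realM 𝒟) :
    ((fun s => (Y s).baseChange L'), η.map (algebraMap L L')) ∈ realM (bcC 𝒟 L') := by
  obtain ⟨n, h1, h2⟩ := h
  obtain ⟨d', hl, hd⟩ := hE n.d n.leib
  refine ⟨bcConn n d' hl hd, fun s i x hx => ?_, fun l k => ?_⟩
  · have hx' : x ∈ (𝒟.F s i).baseChange L' := hx
    obtain ⟨y, rfl⟩ := hx'
    show _ ∈ (𝒟.F s i).baseChange L'
    induction y with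
    | zero => simp only [map_zero, sub_zero]; exact zero_mem _
    | tmul a v =>
      have e1 : (bcConn n d' hl hd).δ ((𝒟.F s i).subtype.baseChange L' (a ⊗ₜ[L] v)) -
          (Y s).baseChange L' ((𝒟.F s i).subtype.baseChange L' (a ⊗ₜ[L] v)) =
          d' a ⊗ₜ[L] (v : V) + a ⊗ₜ[L] (n.δ v - Y s v) := by
        rw [LinearMap.baseChange_tmul, LinearMap.baseChange_tmul, tmul_sub]
        show d' a ⊗ₜ[L] (v : V) + a ⊗ₜ[L] n.δ v - _ = _
        rw [Submodule.subtype_apply]
        abel
      have e2 : d' a ⊗ₜ[L] (v : V) + a ⊗ₜ[L] (n.δ v - Y s v) ∈ (𝒟.F s i).baseChange L' :=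
        add_mem (Submodule.tmul_mem_baseChange_of_mem _ v.2)
          (Submodule.tmul_mem_baseChange_of_mem _ (h1 s i v v.2))
      rw [← e1] at e2
      exact e2
    | add y z hy hz =>
      have := add_mem (hy ⟨y, rfl⟩) (hz ⟨z, rfl⟩)
      simp only [map_add] at this ⊢
      convert this using 1
      abel
  · show d' (algebraMap L L' (𝒟.Ω l k)) = algebraMap L L' (η l k)
    rw [hd]
    exact congrArg _ (h2 l k)

theorem wdg_bc (u w : V) :
    (wdg 𝒟.q u w).baseChange L' = wdg (qbc L' 𝒟.q) (1 ⊗ₜ[L] u) (1 ⊗ₜ[L] w) := by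
  ext x
  simp only [TensorProduct.AlgebraTensorModule.curry_apply, LinearMap.coe_restrictScalars,
    TensorProduct.curry_apply, LinearMap.baseChange_tmul, wdg_apply]
  rw [qbc_tmul, qbc_tmul, mul_one, one_mul, one_mul, tmul_sub, tmul_smul, tmul_smul,
    algebraMap_smul, algebraMap_smul]

theorem tmul_aux (a : L') (c : L) (e : V) :
    a ⊗ₜ[L] (c • e) = (a * algebraMap L L' c) • ((1 : L') ⊗ₜ[L] e) := by
  rw [smul_tmul', smul_eq_mul, mul_one, mul_comm, ← Algebra.smul_def, smul_tmul]

variable [FiniteDimensional L V] [Fintype J] [DecidableEq J]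

/-- **Versality is preserved by base change.** -/
theorem versal_bcC (g : 𝒟.Good) (h2 : (2 : L) ≠ 0) (hV : 𝒟.Versal) (hE : DExt L L') :
    (bcC 𝒟 L').Versal := by
  have h2' : (2 : L') ≠ 0 := by
    intro h
    apply h2
    have : algebraMap L L' 2 = 0 := by rw [map_ofNat]; exact h
    exact (map_eq_zero _).mp this
  rw [versal_iff]
  intro Y hY η hη
  -- the part of `Ω`
  have e1 : ((0 : Fin 3 → End L' (L' ⊗[L] V)), η) ∈ realM (bcC 𝒟 L') := by
    have e2 : ∀ l k, ((0 : Fin 3 → End L' (L' ⊗[L] V)),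
        (Matrix.single l k (1 : L') - Matrix.single k l 1)) ∈ realM (bcC 𝒟 L') := by
      intro l k
      have e3 := real_bc hE (hV (fun _ => 0) (fun s u v => by simp)
        (Matrix.single l k 1 - Matrix.single k l 1) (by
          rw [Matrix.transpose_sub, Matrix.transpose_single, Matrix.transpose_single, neg_sub]))
      convert e3 using 2
      · funext s
        exact (LinearMap.baseChange_zero).symm
      · rw [Matrix.map_sub _ (map_sub _), Matrix.map_single, Matrix.map_single, map_one]
    have e4 : ((0 : Fin 3 → End L' (L' ⊗[L] V)), η) = (2 : L')⁻¹ • ∑ l, ∑ k,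
        η l k • ((0 : Fin 3 → End L' (L' ⊗[L] V)),
          (Matrix.single l k (1 : L') - Matrix.single k l 1)) := by
      refine Prod.ext ?_ ?_
      · simp [Prod.fst_sum]
      · rw [Prod.smul_snd, Prod.snd_sum]
        simp only [Prod.snd_sum, Prod.smul_snd]
        ext p r
        rw [Matrix.smul_apply, Matrix.sum_apply]
        simp only [Matrix.sum_apply, Matrix.smul_apply, Matrix.sub_apply, Matrix.single_apply,
          smul_eq_mul, mul_sub, Finset.sum_sub_distrib]
        have h3 : η r p = - η p r := congrFun (congrFun hη p) r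
        have h4 : ∑ l, ∑ k, η l k * (if l = p ∧ k = r then (1 : L') else 0) = η p r := by
          rw [Finset.sum_eq_single p, Finset.sum_eq_single r]
          · simp
          · intro k _ hk; simp [hk]
          · intro h; exact absurd (Finset.mem_univ _) h
          · intro l _ hl; simp [hl]
          · intro h; exact absurd (Finset.mem_univ _) h
        have h5 : ∑ l, ∑ k, η l k * (if k = p ∧ l = r then (1 : L') else 0) = η r p := by
          rw [Finset.sum_eq_single r, Finset.sum_eq_single p]
          · simp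
          · intro k _ hk; simp [hk]
          · intro h; exact absurd (Finset.mem_univ _) h
          · intro l _ hl; simp [hl]
          · intro h; exact absurd (Finset.mem_univ _) h
        rw [h4, h5, h3]
        have h6 : (2 : L')⁻¹ * 2 = 1 := inv_mul_cancel₀ h2'
        linear_combination (- η p r) * h6
    rw [e4]
    exact Submodule.smul_mem _ _ (Submodule.sum_mem _ fun l _ => Submodule.sum_mem _ fun k _ =>
      Submodule.smul_mem _ _ (e2 l k))
  -- the part of one arm
  have e5 : ∀ s (u : V) (y : L' ⊗[L] V),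
      ((Pi.single s (wdg (qbc L' 𝒟.q) (1 ⊗ₜ[L] u) y) : Fin 3 → End L' (L' ⊗[L] V)),
        (0 : Matrix J J L')) ∈ realM (bcC 𝒟 L') := by
    intro s u y
    induction y with
    | zero =>
      have : wdg (qbc L' 𝒟.q) (1 ⊗ₜ[L] u) 0 = 0 := by
        ext x; simp [wdg_apply]
      rw [this, Pi.single_zero]
      exact zero_mem _
    | tmul a w =>
      have e6 : a ⊗ₜ[L] w = a • ((1 : L') ⊗ₜ[L] w) := by rw [smul_tmul', smul_eq_mul, mul_one]
      rw [e6, wdg_smul]
      have e7 := real_bc hE (hV (Pi.single s (wdg 𝒟.q u w)) (fun s' => by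
        by_cases h : s' = s
        · subst h; rw [Pi.single_eq_same]; exact wdg_skew g.form u w
        · rw [Pi.single_eq_of_ne h]; intro u v; simp) 0 (by simp))
      have e8 := Submodule.smul_mem _ a e7
      convert e8 using 1
      refine Prod.ext ?_ ?_
      · funext s'
        show (Pi.single s _ : Fin 3 → End L' (L' ⊗[L] V)) s' =
          a • LinearMap.baseChange L' ((Pi.single s (wdg 𝒟.q u w) : Fin 3 → End L V) s')
        by_cases h : s' = s
        · subst h
          rw [Pi.single_eq_same, Pi.single_eq_same, wdg_bc]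
        · rw [Pi.single_eq_of_ne h, Pi.single_eq_of_ne h, LinearMap.baseChange_zero, smul_zero]
      · ext p r
        simp
    | add y z hy hz =>
      rw [wdg_add, Pi.single_add]
      have := add_mem hy hz
      convert this using 1
      refine Prod.ext rfl ?_
      simp
  obtain ⟨ι, _, e, e', he, he'⟩ := exists_wdg g.form
  have e9 : ∀ s, ((Pi.single s (Y s) : Fin 3 → End L' (L' ⊗[L] V)), (0 : Matrix J J L')) ∈
      realM (bcC 𝒟 L') := by
    intro s
    have e10 : Y s = (2 : L')⁻¹ • ∑ j, wdg (qbc L' 𝒟.q) (1 ⊗ₜ[L] e' j)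
        (Y s (1 ⊗ₜ[L] e j)) := by
      have hx : ∀ x : L' ⊗[L] V, x = ∑ j, qbc L' 𝒟.q (1 ⊗ₜ[L] e' j) x • (1 ⊗ₜ[L] e j) := by
        intro x
        induction x with
        | zero => simp
        | tmul a v =>
          simp only [qbc_tmul, one_mul]
          conv_lhs => rw [he v, tmul_sum]
          exact Finset.sum_congr rfl fun j _ => tmul_aux _ _ _
        | add x y hx hy =>
          conv_lhs => rw [hx, hy]
          rw [← Finset.sum_add_distrib]
          refine Finset.sum_congr rfl fun j _ => ?_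
          rw [map_add, add_smul]
      have hx' : ∀ x : L' ⊗[L] V, x = ∑ j, qbc L' 𝒟.q (1 ⊗ₜ[L] e j) x • (1 ⊗ₜ[L] e' j) := by
        intro x
        induction x with
        | zero => simp
        | tmul a v =>
          simp only [qbc_tmul, one_mul]
          conv_lhs => rw [he' v, tmul_sum]
          exact Finset.sum_congr rfl fun j _ => tmul_aux _ _ _
        | add x y hx hy =>
          conv_lhs => rw [hx, hy]
          rw [← Finset.sum_add_distrib]
          refine Finset.sum_congr rfl fun j _ => ?_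
          rw [map_add, add_smul]
      refine LinearMap.ext fun x => ?_
      rw [LinearMap.smul_apply, LinearMap.sum_apply]
      simp only [wdg_apply]
      rw [Finset.sum_sub_distrib]
      have h3 : ∑ j, qbc L' 𝒟.q (1 ⊗ₜ[L] e' j) x • Y s (1 ⊗ₜ[L] e j) = Y s x := by
        conv_rhs => rw [hx x]
        rw [map_sum]
        exact Finset.sum_congr rfl fun j _ => (map_smul _ _ _).symm
      have h4 : ∑ j, qbc L' 𝒟.q (Y s (1 ⊗ₜ[L] e j)) x • ((1 : L') ⊗ₜ[L] e' j) = - Y s x := by
        rw [← neg_neg (∑ j, _), ← Finset.sum_neg_distrib]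
        conv_rhs => rw [hx' (Y s x)]
        congr 1
        refine Finset.sum_congr rfl fun j _ => ?_
        have h5 := hY s (1 ⊗ₜ[L] e j) x
        have h6 : qbc L' 𝒟.q (Y s (1 ⊗ₜ[L] e j)) x = - qbc L' 𝒟.q (1 ⊗ₜ[L] e j) (Y s x) := h5
        rw [h6]
        have h7 : ∀ (c : L') (z : L' ⊗[L] V), -((-c) • z) = c • z := fun c z => by
          have h8 : (-c) • z + c • z = 0 := by
            rw [← add_smul, neg_add_cancel, zero_smul]
          exact neg_eq_of_add_eq_zero_right h8
        exact h7 _ _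
      rw [h3, h4, sub_neg_eq_add, ← two_smul L', smul_smul, inv_mul_cancel₀ h2', one_smul]
    have e11 : ((Pi.single s (Y s) : Fin 3 → End L' (L' ⊗[L] V)), (0 : Matrix J J L')) =
        (2 : L')⁻¹ • ∑ j, ((Pi.single s (wdg (qbc L' 𝒟.q) (1 ⊗ₜ[L] e' j)
          (Y s (1 ⊗ₜ[L] e j))) : Fin 3 → End L' (L' ⊗[L] V)), (0 : Matrix J J L')) := by
      refine Prod.ext ?_ ?_
      · rw [Prod.smul_fst, Prod.fst_sum]
        show Pi.single s (Y s) = (2 : L')⁻¹ • ∑ j, (Pi.single s
          (wdg (qbc L' 𝒟.q) (1 ⊗ₜ[L] e' j) (Y s (1 ⊗ₜ[L] e j))) : Fin 3 → End L' (L' ⊗[L] V))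
        funext s'
        rw [Pi.smul_apply, Finset.sum_apply]
        by_cases h : s' = s
        · subst h
          simp only [Pi.single_eq_same]
          exact e10
        · simp [Pi.single_eq_of_ne h]
      · rw [Prod.smul_snd, Prod.snd_sum]
        simp
    rw [e11]
    exact Submodule.smul_mem _ _ (Submodule.sum_mem _ fun j _ => e5 s _ _)
  have e12 : (Y, η) = ∑ s, ((Pi.single s (Y s) : Fin 3 → End L' (L' ⊗[L] V)),
      (0 : Matrix J J L')) +
      ((0 : Fin 3 → End L' (L' ⊗[L] V)), η) := by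
    refine Prod.ext ?_ ?_
    · rw [Prod.fst_add, Prod.fst_sum]
      show Y = ∑ s, Pi.single s (Y s) + 0
      rw [add_zero]
      exact (Finset.univ_sum_single Y).symm
    · rw [Prod.snd_add, Prod.snd_sum]
      simp
  rw [e12]
  exact add_mem (Submodule.sum_mem _ fun s _ => e9 s) e1

end versal

end Vale.Agent.P182.H62
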