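import Vale.Agent.P182.H533.Compat

/-!
# The blocks of the stable image

`perf S X` is the largest perfect submodule of `X`; the blocks of the stable image `W` of a core
are the perfect parts of the preimages of the blocks of `V₁`.
-/

namespace Vale.Agent.P182.H62

open Module Vale.Agent.P182.H533

section perf

variable {L V : Type*} [Field L] [AddCommGroup V] [Module L V] {ι : Type*}

/-- the largest perfect submodule of `X` -/
def perf (S : ι → End L V) (X : Submodule L V) : Submodule L V :=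
  sSup {Y | Y ≤ X ∧ Y ≤ ⨆ s, Y.map (S s)}

/-- the words of length `r` applied to `X` -/
def won (S : ι → End L V) (X : Submodule L V) : ℕ → Submodule L V
  | 0 => X
  | r + 1 => ⨆ s, (won S X r).map (S s)

/-- words -/
def wd (S : ι → End L V) (l : List ι) : End L V := (l.map S).prod

variable (S : ι → End L V)

@[simp] theorem wd_nil : wd S ([] : List ι) = 1 := rfl

theorem wd_cons (a : ι) (l : List ι) : wd S (a :: l) = S a * wd S l := by
  simp [wd]

theorem wd_append (l l' : List ι) : wd S (l ++ l') = wd S l * wd S l' := by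
  simp [wd]

theorem wd_cons_apply (a : ι) (l : List ι) (v : V) : wd S (a :: l) v = S a (wd S l v) := by
  rw [wd_cons]; rfl

theorem wd_append_apply (l l' : List ι) (v : V) : wd S (l ++ l') v = wd S l (wd S l' v) := by
  rw [wd_append]; rfl

theorem perf_le (X : Submodule L V) : perf S X ≤ X := sSup_le fun _ hY => hY.1

theorem le_perf {X Y : Submodule L V} (h1 : Y ≤ X) (h2 : Y ≤ ⨆ s, Y.map (S s)) : Y ≤ perf S X :=
  le_sSup ⟨h1, h2⟩

theorem perf_le_map (X : Submodule L V) : perf S X ≤ ⨆ s, (perf S X).map (S s) := by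
  refine sSup_le fun Y hY => hY.2.trans (iSup_mono fun s => Submodule.map_mono (le_perf S hY.1 hY.2))

variable {S}

theorem perf_map {X : Submodule L V} (hX : ∀ s, ∀ v ∈ X, S s v ∈ X) (s : ι) {v : V}
    (hv : v ∈ perf S X) : S s v ∈ perf S X := by
  have h1 : perf S X ⊔ ⨆ s, (perf S X).map (S s) ≤ perf S X := by
    refine le_perf S (sup_le (perf_le S X) (iSup_le fun s => ?_)) ?_
    · rintro _ ⟨w, hw, rfl⟩
      exact hX s w (perf_le S X hw)
    · refine sup_le ((perf_le_map S X).trans ?_) ?_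
      · exact iSup_mono fun s => Submodule.map_mono le_sup_left
      · exact iSup_mono fun s => Submodule.map_mono le_sup_left
  exact h1 (Submodule.mem_sup_right
    (Submodule.mem_iSup_of_mem s (Submodule.mem_map_of_mem hv)))

theorem perf_iSup {X : Submodule L V} (hX : ∀ s, ∀ v ∈ X, S s v ∈ X) :
    ⨆ s, (perf S X).map (S s) = perf S X := by
  refine le_antisymm (iSup_le fun s => ?_) (perf_le_map S X)
  rintro _ ⟨w, hw, rfl⟩
  exact perf_map hX s hw

theorem won_mono {X Y : Submodule L V} (h : X ≤ Y) (r : ℕ) : won S X r ≤ won S Y r := by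
  induction r with
  | zero => exact h
  | succ r ih => exact iSup_mono fun s => Submodule.map_mono ih

theorem won_top (r : ℕ) : won S ⊤ r = words S r := by
  induction r with
  | zero => rfl
  | succ r ih => rw [won, ih, words_succ]

theorem won_antitone {X : Submodule L V} (hX : ∀ s, ∀ v ∈ X, S s v ∈ X) : Antitone (won S X) := by
  apply antitone_nat_of_succ_le
  intro r
  induction r with
  | zero =>
    refine iSup_le fun s => ?_
    rintro _ ⟨w, hw, rfl⟩
    exact hX s w hw
  | succ r ih => exact iSup_mono fun s => Submodule.map_mono ih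

/-- a perfect submodule is its own word module -/
theorem le_won {Y : Submodule L V} (h : Y ≤ ⨆ s, Y.map (S s)) (r : ℕ) : Y ≤ won S Y r := by
  induction r with
  | zero => exact le_rfl
  | succ r ih => exact h.trans (iSup_mono fun s => Submodule.map_mono ih)

theorem won_iSup {κ : Type*} (X : κ → Submodule L V) (r : ℕ) :
    won S (⨆ k, X k) r = ⨆ k, won S (X k) r := by
  induction r with
  | zero => rfl
  | succ r ih =>
    show ⨆ s, (won S (⨆ k, X k) r).map (S s) = ⨆ k, ⨆ s, (won S (X k) r).map (S s)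
    rw [ih, iSup_comm]
    exact iSup_congr fun s => by rw [Submodule.map_iSup]

/-- the word modules are spanned by words -/
theorem won_eq (X : Submodule L V) (r : ℕ) :
    won S X r = ⨆ l : {l : List ι // l.length = r}, X.map (wd S l.1) := by
  induction r with
  | zero =>
    apply le_antisymm
    · intro v hv
      exact Submodule.mem_iSup_of_mem ⟨[], rfl⟩ ⟨v, hv, rfl⟩
    · refine iSup_le ?_
      rintro ⟨l, hl⟩
      obtain rfl := List.length_eq_zero_iff.mp hl
      rintro _ ⟨v, hv, rfl⟩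
      exact hv
  | succ r ih =>
    apply le_antisymm
    · refine iSup_le fun s => ?_
      rw [ih, Submodule.map_iSup]
      refine iSup_le ?_
      rintro ⟨l, hl⟩
      rw [← Submodule.map_comp]
      refine le_iSup_of_le ⟨s :: l, by simp [hl]⟩ ?_
      dsimp only
      rw [wd_cons]
      exact le_rfl
    · refine iSup_le ?_
      rintro ⟨l, hl⟩
      match l, hl with
      | a :: l, hl =>
        rw [List.length_cons, Nat.succ_inj] at hl
        rintro _ ⟨v, hv, rfl⟩
        refine Submodule.mem_iSup_of_mem a ?_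
        refine ⟨wd S l v, ?_, (wd_cons_apply S a l v).symm⟩
        show wd S l v ∈ won S X r
        rw [ih]
        exact Submodule.mem_iSup_of_mem ⟨l, hl⟩ ⟨v, hv, rfl⟩

/-- induction over words, on perfect submodules -/
theorem perf_ind {Y : Submodule L V} (h : Y ≤ ⨆ s, Y.map (S s)) (N : ℕ) {p : V → Prop}
    (h0 : p 0) (hadd : ∀ a b, p a → p b → p (a + b))
    (hw : ∀ l : List ι, l.length = N → ∀ u ∈ Y, p (wd S l u)) {u : V} (hu : u ∈ Y) : p u := by
  have h1 := le_won h N hu
  rw [won_eq] at h1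
  refine Submodule.iSup_induction (fun l : {l : List ι // l.length = N} => Y.map (wd S l.1))
    (motive := p) h1 ?_ h0 hadd
  rintro ⟨l, hl⟩ _ ⟨w, hw', rfl⟩
  exact hw l hl w hw'

/-- equivariant maps from perfect modules to nilpotent ones are zero -/
theorem perf_hom_zero {X : Type*} [AddCommGroup X] [Module L X] {Y : Submodule L V}
    (h : Y ≤ ⨆ s, Y.map (S s)) (hst : ∀ s, ∀ u ∈ Y, S s u ∈ Y) {T : ι → End L X}
    (f : V →ₗ[L] X) (hf : ∀ s, ∀ u ∈ Y, f (S s u) = T s (f u)) {N : ℕ}
    (hN : ∀ l : List ι, l.length = N → ∀ u ∈ Y, wd T l (f u) = 0) {u : V} (hu : u ∈ Y) :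
    f u = 0 := by
  have hwd : ∀ l : List ι, ∀ u ∈ Y, wd S l u ∈ Y ∧ f (wd S l u) = wd T l (f u) := by
    intro l
    induction l with
    | nil => intro u hu; exact ⟨hu, rfl⟩
    | cons a l ih =>
      intro u hu
      rw [wd_cons_apply, wd_cons_apply]
      exact ⟨hst a _ (ih u hu).1, by rw [hf a _ (ih u hu).1, (ih u hu).2]⟩
  refine perf_ind h N (p := fun u => f u = 0) (map_zero f)
    (fun a b ha hb => by rw [map_add, ha, hb, add_zero]) ?_ hu
  intro l hl w hw
  rw [(hwd l w hw).2]
  exact hN l hl w hw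

theorem perf_le_won (X : Submodule L V) (r : ℕ) : perf S X ≤ won S X r :=
  (le_won (perf_le_map S X) r).trans (won_mono (perf_le S X) r)

/-- the perfect part is the stable image -/
theorem exists_won_eq [FiniteDimensional L V] {X : Submodule L V}
    (hX : ∀ s, ∀ v ∈ X, S s v ∈ X) : ∃ N, ∀ n, N ≤ n → won S X n = perf S X := by
  obtain ⟨N, hN⟩ := IsArtinian.monotone_stabilizes
    (⟨fun r => OrderDual.toDual (won S X r), fun a b h => won_antitone hX h⟩ :
      ℕ →o (Submodule L V)ᵒᵈ)
  refine ⟨N, fun n hn => le_antisymm ?_ (perf_le_won X n)⟩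
  have h1 : won S X N = won S X n := hN n hn
  have h2 : won S X N = won S X (n + 1) := hN (n + 1) (Nat.le_succ_of_le hn)
  refine le_perf S ?_ ?_
  · exact won_antitone hX (Nat.zero_le n)
  · exact (h1.symm.trans h2).le

end perf

section core

variable {L V : Type*} [Field L] [AddCommGroup V] [Module L V] {ι : Type*}
  {q : V →ₗ[L] V →ₗ[L] L} {S : ι → End L V}

theorem Core.perfect (C : Core q S) : C.W ≤ ⨆ s, C.W.map (S s) := C.hW.ge

/-- long words kill the orthogonal space of the stable image -/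
theorem wd_perp (C : Core q S) (hq : IsForm q) (hS : ∀ s, IsSA q (S s)) {l : List ι}
    (hl : C.N ≤ l.length) {v : V} (hv : v ∈ perp q C.W) : wd S l v = 0 := by
  have hadj : ∀ l : List ι, ∀ v w, q (wd S l v) w = q v (wd S l.reverse w) := by
    intro l
    induction l with
    | nil => intro v w; rfl
    | cons a l ih =>
      intro v w
      rw [wd_cons_apply, hS a, ih, List.reverse_cons, wd_append_apply]
      rfl
  have hmem : ∀ l : List ι, ∀ w : V, wd S l w ∈ words S l.length := by
    intro l w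
    rw [← won_top, won_eq]
    exact Submodule.mem_iSup_of_mem ⟨l, rfl⟩ ⟨w, trivial, rfl⟩
  apply hq.nondeg
  intro w
  rw [hadj]
  apply hv
  rw [C.hN]
  refine words_antitone S hl ?_
  have h1 := hmem l.reverse w
  rwa [List.length_reverse] at h1

variable [FiniteDimensional L V]

/-- the compression and the projection -/
theorem P_res (C : Core q S) (hq : IsForm q) {f : End L V}
    (hf : ∀ v ∈ perp q C.W, f v ∈ perp q C.W) {w : V} (hw : w ∈ C.W) :
    C.P hq (f w) = C.res hq f (C.P hq w) := by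
  have h1 := C.P_eq_zero hq (hf _ (C.sub_P_mem hq (C.W_le_perp hq hw)))
  rw [map_sub, map_sub, sub_eq_zero] at h1
  rw [h1, C.res_apply]

theorem mem_I_of_P (C : Core q S) (hq : IsForm q) {w : V} (hw : w ∈ C.W) (h : C.P hq w = 0) :
    w ∈ C.I := by
  have h1 := C.sub_P_mem_I hq hw
  rwa [h, Submodule.coe_zero, sub_zero] at h1

theorem P_of_mem_I (C : Core q S) (hq : IsForm q) {w : V} (hw : w ∈ C.I) : C.P hq w = 0 :=
  C.P_eq_zero hq hw.2

/-- the form on the stable image -/
theorem q_W (C : Core q S) (hq : IsForm q) {w w' : V} (hw : w ∈ C.W) (hw' : w' ∈ C.W) :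
    q w w' = C.q1 (C.P hq w) (C.P hq w') := by
  have h1 := C.sub_P_mem hq (C.W_le_perp hq hw) w' hw'
  rw [map_sub, LinearMap.sub_apply, sub_eq_zero] at h1
  rw [h1, hq.symm, (C.isForm hq).symm, C.q_P]

/-- orthogonal idempotents of the commutant of the core -/
structure Idm {κ : Type*} [Fintype κ] [DecidableEq κ] (C : Core q S) (hq : IsForm q)
    (P : κ → End L C.V1) : Prop where
  sa : ∀ k, IsSA C.q1 (P k)
  comm : ∀ k s, P k * C.S1 hq s = C.S1 hq s * P k
  mul : ∀ i j, P i * P j = if i = j then P i else 0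
  sum : ∑ k, P k = 1

variable {κ : Type*} [Fintype κ] [DecidableEq κ] (C : Core q S) (hq : IsForm q)
  (P : κ → End L C.V1)

/-- the preimage of a block of `V₁` in the stable image -/
noncomputable def Wk (k : κ) : Submodule L V := C.W ⊓ (LinearMap.range (P k)).comap (C.P hq)

/-- **the blocks of the stable image** -/
noncomputable def Ub (k : κ) : Submodule L V := perf S (Wk C hq P k)

variable {P}

omit [Fintype κ] [DecidableEq κ] in
theorem mem_Wk {k : κ} {w : V} :
    w ∈ Wk C hq P k ↔ w ∈ C.W ∧ ∃ v, P k v = C.P hq w := Iff.rfl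

omit [Fintype κ] [DecidableEq κ] in
theorem I_le_Wk (k : κ) : C.I ≤ Wk C hq P k := fun i hi =>
  ⟨hi.1, 0, by rw [map_zero, P_of_mem_I C hq hi]⟩

omit [Fintype κ] [DecidableEq κ] in
theorem Ub_le_Wk (k : κ) : Ub C hq P k ≤ Wk C hq P k := perf_le S _

omit [Fintype κ] [DecidableEq κ] in
theorem Ub_le_W (k : κ) : Ub C hq P k ≤ C.W := (Ub_le_Wk C hq k).trans inf_le_left

variable (hS : ∀ s, IsSA q (S s)) (hP : Idm C hq P)

include hP

theorem Idm.P_Wk {k : κ} {w : V} (hw : w ∈ Wk C hq P k) (j : κ) :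
    P j (C.P hq w) = if j = k then C.P hq w else 0 := by
  obtain ⟨-, v, hv⟩ := (mem_Wk C hq).mp hw
  rw [← hv, ← Module.End.mul_apply, hP.mul]
  by_cases h : j = k
  · subst h; rw [if_pos rfl, if_pos rfl]
  · rw [if_neg h, if_neg h]; rfl

include hS

theorem Idm.Wk_map (k : κ) (s : ι) : ∀ w ∈ Wk C hq P k, S s w ∈ Wk C hq P k := by
  intro w hw
  obtain ⟨h1, v, hv⟩ := (mem_Wk C hq).mp hw
  refine (mem_Wk C hq).mpr ⟨C.map_W h1, C.S1 hq s v, ?_⟩
  rw [C.P_S hq hS s (C.W_le_perp hq h1), ← hv]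
  exact LinearMap.congr_fun (hP.comm k s) v

theorem Idm.Ub_map (k : κ) (s : ι) {u : V} (hu : u ∈ Ub C hq P k) : S s u ∈ Ub C hq P k :=
  perf_map (fun s => hP.Wk_map C hq hS k s) s hu

theorem Idm.Ub_iSup (k : κ) : ⨆ s, (Ub C hq P k).map (S s) = Ub C hq P k :=
  perf_iSup fun s => hP.Wk_map C hq hS k s

omit hS in
theorem Idm.iSup_Wk [Nonempty κ] : ⨆ k, Wk C hq P k = C.W := by
  apply le_antisymm
  · exact iSup_le fun k => inf_le_left
  · intro w hw
    have h1 : w = ∑ k, ((P k (C.P hq w) : C.V1) : V) + (w - C.P hq w) := by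
      have h2 : ∑ k, ((P k (C.P hq w) : C.V1) : V) = ((C.P hq w : C.V1) : V) := by
        rw [← Submodule.coe_sum, ← LinearMap.sum_apply, hP.sum]
        rfl
      rw [h2]
      abel
    rw [h1]
    refine Submodule.add_mem _ (Submodule.sum_mem _ fun k _ => ?_) ?_
    · refine Submodule.mem_iSup_of_mem k ((mem_Wk C hq).mpr ⟨C.V1_le (P k (C.P hq w)).2,
        C.P hq w, ?_⟩)
      rw [C.P_coe]
    · exact Submodule.mem_iSup_of_mem (Classical.arbitrary κ)
        (I_le_Wk C hq _ (C.sub_P_mem_I hq hw))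

/-- **The stable image is the sum of the blocks.** -/
theorem Idm.iSup_Ub [Nonempty κ] : ⨆ k, Ub C hq P k = C.W := by
  apply le_antisymm
  · exact iSup_le fun k => Ub_le_W C hq k
  · choose N hN using fun k => exists_won_eq (S := S) (X := Wk C hq P k)
      (fun s => hP.Wk_map C hq hS k s)
    let M := Finset.univ.sup N
    have h1 : C.W ≤ won S C.W M := le_won C.hW.ge M
    have h2 : won S C.W M = ⨆ k, won S (Wk C hq P k) M := by
      rw [← won_iSup, hP.iSup_Wk C hq]
    rw [h2] at h1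
    refine h1.trans (iSup_mono fun k => ?_)
    rw [hN k M (Finset.le_sup (Finset.mem_univ k))]
    exact le_rfl

omit hS in
/-- the blocks of `V₁` are perfect -/
theorem Idm.range_perfect (hS : ∀ s, IsSA q (S s)) (k : κ) :
    LinearMap.range (P k) ≤ ⨆ s, (LinearMap.range (P k)).map (C.S1 hq s) := by
  have h1 : LinearMap.range (P k) = (⊤ : Submodule L C.V1).map (P k) :=
    (Submodule.map_top _).symm
  rw [h1]
  conv_lhs => rw [← C.S1_span hq hS, Submodule.map_iSup]
  refine iSup_mono fun s => ?_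
  rintro _ ⟨_, ⟨v, rfl⟩, rfl⟩
  refine ⟨P k v, ⟨v, trivial, rfl⟩, ?_⟩
  exact (LinearMap.congr_fun (hP.comm k s) v).symm

/-- the blocks map onto the blocks of `V₁` -/
theorem Idm.map_Ub (k : κ) : (Ub C hq P k).map (C.P hq) = LinearMap.range (P k) := by
  apply le_antisymm
  · rintro _ ⟨u, hu, rfl⟩
    exact (Ub_le_Wk C hq k hu).2
  · obtain ⟨N, hN⟩ := exists_won_eq (S := S) (X := Wk C hq P k)
      (fun s => hP.Wk_map C hq hS k s)
    have h1 : ∀ r, LinearMap.range (P k) ≤ (won S (Wk C hq P k) r).map (C.P hq) := by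
      intro r
      induction r with
      | zero =>
        rintro _ ⟨v, rfl⟩
        refine ⟨P k v, (mem_Wk C hq).mpr ⟨C.V1_le (P k v).2, v, ?_⟩, C.P_coe hq _⟩
        rw [C.P_coe]
      | succ r ih =>
        refine (hP.range_perfect C hq hS k).trans (iSup_le fun s => ?_)
        rintro _ ⟨v, hv, rfl⟩
        obtain ⟨w, hw, rfl⟩ := ih hv
        have hwW : w ∈ C.W :=
          (won_antitone (fun s => hP.Wk_map C hq hS k s) (Nat.zero_le r) hw).1
        refine ⟨S s w, ?_, C.P_S hq hS s (C.W_le_perp hq hwW)⟩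
        exact Submodule.mem_iSup_of_mem s (Submodule.mem_map_of_mem hw)
    have h2 := h1 N
    rw [hN N le_rfl] at h2
    exact h2

theorem Idm.exists_lift (k : κ) (v : C.V1) : ∃ u ∈ Ub C hq P k, C.P hq u = P k v := by
  have h1 : P k v ∈ (Ub C hq P k).map (C.P hq) := by
    rw [hP.map_Ub C hq hS k]; exact ⟨v, rfl⟩
  exact h1

omit hS in
/-- the blocks are orthogonal -/
theorem Idm.ortho {i j : κ} (hij : i ≠ j) {u v : V} (hu : u ∈ Ub C hq P i)
    (hv : v ∈ Ub C hq P j) : q u v = 0 := by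
  rw [q_W C hq (Ub_le_W C hq i hu) (Ub_le_W C hq j hv)]
  have h1 := hP.P_Wk C hq (Ub_le_Wk C hq i hu) i
  have h2 := hP.P_Wk C hq (Ub_le_Wk C hq j hv) i
  rw [if_pos rfl] at h1
  rw [if_neg hij] at h2
  rw [← h1, hP.sa i, h2, map_zero]

/-- the radical is the sum of the radical parts of the blocks -/
theorem Idm.iSup_I [Nonempty κ] : ⨆ k, (C.I ⊓ Ub C hq P k) = C.I := by
  apply le_antisymm
  · exact iSup_le fun k => inf_le_left
  · intro w hw
    have h1 : w ∈ ⨆ k, Ub C hq P k := by rw [hP.iSup_Ub C hq hS]; exact hw.1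
    obtain ⟨f, hf, hfw⟩ := (Submodule.mem_iSup_iff_exists_finsupp _ _).mp h1
    rw [← hfw]
    rw [Finsupp.sum]
    refine Submodule.sum_mem _ fun k _ => Submodule.mem_iSup_of_mem k ⟨?_, hf k⟩
    refine mem_I_of_P C hq (Ub_le_W C hq k (hf k)) ?_
    have h2 : P k (C.P hq w) = C.P hq (f k) := by
      rw [← hfw, Finsupp.sum, map_sum, map_sum]
      have h3 : ∀ j ∈ f.support, P k (C.P hq (f j)) = if k = j then C.P hq (f j) else 0 :=
        fun j _ => hP.P_Wk C hq (Ub_le_Wk C hq j (hf j)) k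
      rw [Finset.sum_congr rfl h3]
      by_cases hk : k ∈ f.support
      · rw [Finset.sum_ite_eq, if_pos hk]
      · rw [Finset.sum_ite_eq, if_neg hk, Finsupp.notMem_support_iff.mp hk, map_zero]
    rw [← h2, P_of_mem_I C hq hw, map_zero]

/-- every vector of `W` is a sum of vectors of the blocks -/
theorem Idm.exists_sum [Nonempty κ] {w : V} (hw : w ∈ C.W) :
    ∃ u : κ → V, (∀ k, u k ∈ Ub C hq P k) ∧ ∑ k, u k = w := by
  have h1 : w ∈ ⨆ k, Ub C hq P k := by rw [hP.iSup_Ub C hq hS]; exact hw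
  obtain ⟨f, hf, hfw⟩ := (Submodule.mem_iSup_iff_exists_finsupp _ _).mp h1
  refine ⟨f, hf, ?_⟩
  rw [← hfw, Finsupp.sum_fintype _ _ fun _ => rfl]

/-- the same for the radical -/
theorem Idm.exists_sum_I [Nonempty κ] {w : V} (hw : w ∈ C.I) :
    ∃ u : κ → V, (∀ k, u k ∈ C.I ∧ u k ∈ Ub C hq P k) ∧ ∑ k, u k = w := by
  have h1 : w ∈ ⨆ k, (C.I ⊓ Ub C hq P k) := by rw [hP.iSup_I C hq hS]; exact hw
  obtain ⟨f, hf, hfw⟩ := (Submodule.mem_iSup_iff_exists_finsupp _ _).mp h1
  refine ⟨f, hf, ?_⟩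
  rw [← hfw, Finsupp.sum_fintype _ _ fun _ => rfl]

end core

end Vale.Agent.P182.H62
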