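import Vale.Agent.P182.H922.NullL
import Vale.Agent.P182.H62.BlkA

/-!
# The blocks of the stable image of a configuration

`t' = d_k t` on the block `U_k`, exactly in `V`; the residues of `μ₀ t + μ₁ t'` on the blocks.
-/

namespace Vale.Agent.P182.H62

open Module Matrix Vale.Agent.P182.H533 Vale.Agent.P182.B1 Vale.Agent.P182.H922
  Vale.Agent.P182.H578

section cfg

variable {L V J : Type*} [Field L] [AddCommGroup V] [Module L V] [FiniteDimensional L V]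
  [Fintype J] [DecidableEq J] {𝒟 : Cfg L V J}

omit [FiniteDimensional L V] [Fintype J] [DecidableEq J] in
/-- moving a word through a compatible family -/
theorem compat_wd {q : V →ₗ[L] V →ₗ[L] L} {ι : Type*} {S Ψ : ι → End L V} (h : Compat q S Ψ)
    (a b : ι) (l : List ι) (v : V) : Ψ a (wd S (l ++ [b]) v) = wd S (a :: l) (Ψ b v) := by
  induction l generalizing a with
  | nil =>
    rw [List.nil_append, wd_cons_apply, wd_nil, wd_cons_apply, wd_nil]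
    exact h.rel b a v
  | cons c l ih =>
    rw [List.cons_append, wd_cons_apply, h.rel, ih, wd_cons_apply S a]

omit [FiniteDimensional L V] in
/-- `r^* S_b = t^* Ψ_b` for a family related to `t` -/
theorem rel_Res (hG : 𝒟.Good) {t r : J → V} (h : Rel 𝒟 t r) (b : Fin 3) (v : V) (l : J) :
    𝒟.q (r l) (Res 𝒟 t b v) =
      𝒟.q (t l) (opr 𝒟.q (Tt L t) (Gm 𝒟.arm 𝒟.Ω b) (Tt L r) v) := by
  rw [h.swap hG]
  show 𝒟.q (r l) (opr 𝒟.q (Tt L t) (Gm 𝒟.arm 𝒟.Ω b) (Tt L t) v) = _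
  rw [opr_apply, opr_apply, Tt_apply, Tt_apply, map_sum, map_sum]
  refine Finset.sum_congr rfl fun k _ => ?_
  rw [map_smul, map_smul, ← h.1 l k]

/-- the same for words -/
theorem rel_wd (hG : 𝒟.Good) {t r : J → V} (h : Rel 𝒟 t r) (w : List (Fin 3)) (b : Fin 3) (v : V)
    (l : J) : 𝒟.q (r l) (wd (Res 𝒟 t) (w ++ [b]) v) =
      𝒟.q (t l) (wd (Res 𝒟 t) w (opr 𝒟.q (Tt L t) (Gm 𝒟.arm 𝒟.Ω b) (Tt L r) v)) := by
  have hc := compat_of_rel hG h
  match w with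
  | [] =>
    rw [List.nil_append, wd_cons_apply, wd_nil]
    exact rel_Res hG h b v l
  | a :: w =>
    rw [List.cons_append, wd_cons_apply, rel_Res hG h]
    have := compat_wd hc a b w v
    rw [this]

omit [FiniteDimensional L V] in
theorem rel_sub_smul (hG : 𝒟.Good) {t r : J → V} (h : Rel 𝒟 t r) (c : L) :
    Rel 𝒟 t (r - c • t) := by
  constructor
  · intro l k
    rw [Pi.sub_apply, Pi.sub_apply, Pi.smul_apply, Pi.smul_apply, map_sub, map_sub,
      LinearMap.sub_apply, map_smul, map_smul, LinearMap.smul_apply, h.1]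
  · intro s u v
    have e : ∀ v, opr 𝒟.q (Tt L t) (Gm 𝒟.arm 𝒟.Ω s) (Tt L (r - c • t)) v =
        opr 𝒟.q (Tt L t) (Gm 𝒟.arm 𝒟.Ω s) (Tt L r) v - c • Res 𝒟 t s v := by
      intro v
      rw [Tt_sub, Tt_smul, sub_eq_add_neg, ← neg_smul, opr_add_right, opr_smul_right]
      show _ + (-c) • Res 𝒟 t s v = _
      rw [neg_smul, sub_eq_add_neg]
    have h3 : 𝒟.q (Res 𝒟 t s u) v = 𝒟.q u (Res 𝒟 t s v) :=
      Sop_SA 𝒟.arm hG.form (Tt L t) hG.skew s u v
    rw [e, e, map_sub, LinearMap.sub_apply, map_sub, map_smul, LinearMap.smul_apply, map_smul,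
      h.2 s, h3]

variable (hG : 𝒟.Good) {t t' : J → V} (C : Core 𝒟.q (Res 𝒟 t)) {D : End L C.V1}
  {κ : Type*} [Fintype κ] [DecidableEq κ] {P : κ → End L C.V1} (hP : Idm C hG.form P)
  {d : κ → L} (hDP : D = ∑ k, d k • P k) (ht : Rel 𝒟 t t')
  (hD1 : ∀ s, C.res hG.form (opr 𝒟.q (Tt L t) (Gm 𝒟.arm 𝒟.Ω s) (Tt L t')) =
    C.S1 hG.form s * D)

include hP hDP

theorem D_Wk {k : κ} {w : V} (hw : w ∈ Wk C hG.form P k) :
    D (C.P hG.form w) = d k • C.P hG.form w := by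
  rw [hDP, LinearMap.sum_apply, Finset.sum_eq_single k]
  · rw [LinearMap.smul_apply, hP.P_Wk C hG.form hw, if_pos rfl]
  · intro j _ hj
    rw [LinearMap.smul_apply, hP.P_Wk C hG.form hw, if_neg hj, smul_zero]
  · intro h
    exact absurd (Finset.mem_univ k) h

include ht hD1

/-- **`t'^* = d_k t^*` on the block `U_k`, exactly.** -/
theorem q_t'_Ub {k : κ} {u : V} (hu : u ∈ Ub C hG.form P k) (l : J) :
    𝒟.q (t' l) u = d k * 𝒟.q (t l) u := by
  have hq := hG.form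
  have hSA : ∀ s, IsSA 𝒟.q (Res 𝒟 t s) := Sop_SA 𝒟.arm hq (Tt L t) hG.skew
  have hr := rel_sub_smul hG ht (d k)
  have hc := compat_of_rel hG hr
  -- the mixed operator maps the preimage of the block to the radical
  have key : ∀ b, ∀ w ∈ Wk C hG.form P k,
      opr 𝒟.q (Tt L t) (Gm 𝒟.arm 𝒟.Ω b) (Tt L (t' - d k • t)) w ∈ C.I := by
    intro b w hw
    refine mem_I_of_P C hq (hc.map_W C b hw.1) ?_
    have h1 : C.P hq (opr 𝒟.q (Tt L t) (Gm 𝒟.arm 𝒟.Ω b) (Tt L (t' - d k • t)) w) =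
        C.res hq (opr 𝒟.q (Tt L t) (Gm 𝒟.arm 𝒟.Ω b) (Tt L (t' - d k • t))) (C.P hq w) :=
      P_res C hq (fun v hv => hc.map_perp C b hv) hw.1
    rw [h1]
    have e : C.res hq (opr 𝒟.q (Tt L t) (Gm 𝒟.arm 𝒟.Ω b) (Tt L (t' - d k • t))) =
        C.S1 hq b * D - d k • C.S1 hq b := by
      rw [Tt_sub, Tt_smul, sub_eq_add_neg, ← neg_smul, opr_add_right, opr_smul_right, C.res_add,
        C.res_smul, hD1 b]
      show _ + (-d k) • C.res hq (Res 𝒟 t b) = _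
      rw [C.res_S, sub_eq_add_neg]
      exact congrArg (C.S1 hq b * D + ·) (neg_smul (d k) (C.S1 hq b))
    rw [e, LinearMap.sub_apply, Module.End.mul_apply, D_Wk hG C hP hDP hw, map_smul,
      LinearMap.smul_apply, sub_self]
  have h0 : 𝒟.q ((t' - d k • t) l) u = 0 := by
    refine perf_ind (S := Res 𝒟 t) (perf_le_map _ _) (C.N + 1)
      (p := fun u => 𝒟.q ((t' - d k • t) l) u = 0) (map_zero _)
      (fun a b ha hb => by rw [map_add, ha, hb, add_zero]) ?_ hu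
    intro w hw v hv
    obtain ⟨w', b, rfl⟩ : ∃ w' b, w = w' ++ [b] := by
      refine ⟨w.dropLast, w.getLast (by rintro rfl; simp at hw), ?_⟩
      exact (List.dropLast_append_getLast _).symm
    rw [rel_wd hG hr]
    have h2 : C.N ≤ w'.length := by
      rw [List.length_append, List.length_singleton] at hw
      omega
    rw [wd_perp C hq hSA h2 (C.I_le_perp (key b v (perf_le _ _ hv))), map_zero]
  rw [Pi.sub_apply, Pi.smul_apply, map_sub, LinearMap.sub_apply, map_smul,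
    LinearMap.smul_apply, sub_eq_zero, smul_eq_mul] at h0
  exact h0

theorem ad_t'_Ub {k : κ} {u : V} (hu : u ∈ Ub C hG.form P k) :
    ad 𝒟.q (Tt L t') u = d k • ad 𝒟.q (Tt L t) u := by
  funext l
  rw [ad_apply, Tt_single, Pi.smul_apply, ad_apply, Tt_single,
    q_t'_Ub hG C hP hDP ht hD1 hu, smul_eq_mul]

theorem q_om'_Ub {k : κ} {u : V} (hu : u ∈ Ub C hG.form P k) (l : J) :
    𝒟.q (𝒟.om t' l) u = d k * 𝒟.q (𝒟.om t l) u := by
  rw [hG.form.symm, hG.form.symm (𝒟.om t l), om_lin (𝒟.q u) t' l, om_lin (𝒟.q u) t l,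
    Finset.mul_sum]
  refine Finset.sum_congr rfl fun m _ => ?_
  rw [hG.form.symm u, hG.form.symm u, q_t'_Ub hG C hP hDP ht hD1 hu, smul_eq_mul, smul_eq_mul]
  ring

/-- mixed operators on the blocks: right argument -/
theorem opr_right_Ub {k : κ} {u : V} (hu : u ∈ Ub C hG.form P k) (r : J → V) (a : Fin 3) :
    opr 𝒟.q (Tt L r) (Gm 𝒟.arm 𝒟.Ω a) (Tt L t') u =
      d k • opr 𝒟.q (Tt L r) (Gm 𝒟.arm 𝒟.Ω a) (Tt L t) u := by
  rw [opr_apply, opr_apply, ad_t'_Ub hG C hP hDP ht hD1 hu, Matrix.mulVec_smul, map_smul]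

theorem opr_tt'_Ub {k : κ} {u : V} (hu : u ∈ Ub C hG.form P k) (a : Fin 3) :
    opr 𝒟.q (Tt L t) (Gm 𝒟.arm 𝒟.Ω a) (Tt L t') u = d k • Res 𝒟 t a u :=
  opr_right_Ub hG C hP hDP ht hD1 hu t a

theorem opr_t't_Ub {k : κ} {u : V} (hu : u ∈ Ub C hG.form P k) (a : Fin 3) :
    opr 𝒟.q (Tt L t') (Gm 𝒟.arm 𝒟.Ω a) (Tt L t) u = d k • Res 𝒟 t a u := by
  rw [← ht.swap hG]
  exact opr_tt'_Ub hG C hP hDP ht hD1 hu a

/-! ### The base `μ₀ t + μ₁ t'` -/

/-- the base `μ₀ t + μ₁ t'` on the blocks -/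
theorem q_mu_Ub {k : κ} {u : V} (hu : u ∈ Ub C hG.form P k) (m0 m1 : L) (l : J) :
    𝒟.q ((m0 • t + m1 • t') l) u = (m0 + m1 * d k) * 𝒟.q (t l) u := by
  rw [Pi.add_apply, Pi.smul_apply, Pi.smul_apply, map_add, LinearMap.add_apply, map_smul,
    map_smul, LinearMap.smul_apply, LinearMap.smul_apply, q_t'_Ub hG C hP hDP ht hD1 hu,
    smul_eq_mul, smul_eq_mul]
  ring

theorem q_om_mu_Ub {k : κ} {u : V} (hu : u ∈ Ub C hG.form P k) (m0 m1 : L) (l : J) :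
    𝒟.q (𝒟.om (m0 • t + m1 • t') l) u = (m0 + m1 * d k) * 𝒟.q (𝒟.om t l) u := by
  have e : 𝒟.om (m0 • t + m1 • t') l = m0 • 𝒟.om t l + m1 • 𝒟.om t' l := by
    simp only [Cfg.om, Pi.add_apply, Pi.smul_apply, smul_add, Finset.sum_add_distrib,
      Finset.smul_sum]
    congr 1
    · exact Finset.sum_congr rfl fun _ _ => smul_comm _ _ _
    · exact Finset.sum_congr rfl fun _ _ => smul_comm _ _ _
  rw [e, map_add, LinearMap.add_apply, map_smul, map_smul, LinearMap.smul_apply,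
    LinearMap.smul_apply, q_om'_Ub hG C hP hDP ht hD1 hu, smul_eq_mul, smul_eq_mul]
  ring

theorem ad_mu_Ub {k : κ} {u : V} (hu : u ∈ Ub C hG.form P k) (m0 m1 : L) :
    ad 𝒟.q (Tt L (m0 • t + m1 • t')) u = (m0 + m1 * d k) • ad 𝒟.q (Tt L t) u := by
  funext l
  rw [ad_apply, Tt_single, Pi.smul_apply, ad_apply, Tt_single,
    q_mu_Ub hG C hP hDP ht hD1 hu, smul_eq_mul]

theorem opr_right_mu {k : κ} {u : V} (hu : u ∈ Ub C hG.form P k) (m0 m1 : L) (r : J → V)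
    (a : Fin 3) : opr 𝒟.q (Tt L r) (Gm 𝒟.arm 𝒟.Ω a) (Tt L (m0 • t + m1 • t')) u =
      (m0 + m1 * d k) • opr 𝒟.q (Tt L r) (Gm 𝒟.arm 𝒟.Ω a) (Tt L t) u := by
  rw [opr_apply, opr_apply, ad_mu_Ub hG C hP hDP ht hD1 hu, Matrix.mulVec_smul, map_smul]

/-- **The residues of `μ₀ t + μ₁ t'` on the block `U_k`.** -/
theorem Res_mu {k : κ} {u : V} (hu : u ∈ Ub C hG.form P k) (m0 m1 : L) (a : Fin 3) :
    Res 𝒟 (m0 • t + m1 • t') a u = (m0 + m1 * d k) ^ 2 • Res 𝒟 t a u := by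
  show opr 𝒟.q (Tt L (m0 • t + m1 • t')) (Gm 𝒟.arm 𝒟.Ω a) (Tt L (m0 • t + m1 • t')) u = _
  rw [opr_right_mu hG C hP hDP ht hD1 hu]
  have e : opr 𝒟.q (Tt L (m0 • t + m1 • t')) (Gm 𝒟.arm 𝒟.Ω a) (Tt L t) u =
      (m0 + m1 * d k) • Res 𝒟 t a u := by
    rw [Tt_add, Tt_smul, Tt_smul, opr_add_left, LinearMap.add_apply, opr_smul_left,
      opr_smul_left, LinearMap.smul_apply, LinearMap.smul_apply,
      opr_t't_Ub hG C hP hDP ht hD1 hu]
    show m0 • Res 𝒟 t a u + _ = _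
    rw [smul_smul, ← add_smul]
  rw [e, smul_smul, pow_two]

/-- the stable image is contained in the words of the new residues -/
theorem W_le_words_mu [Nonempty κ] {m0 m1 : L} (hu : ∀ k, m0 + m1 * d k ≠ 0) (n : ℕ) :
    C.W ≤ words (Res 𝒟 (m0 • t + m1 • t')) n := by
  have hSA : ∀ s, IsSA 𝒟.q (Res 𝒟 t s) := Sop_SA 𝒟.arm hG.form (Tt L t) hG.skew
  have h1 : C.W ≤ ⨆ s, C.W.map (Res 𝒟 (m0 • t + m1 • t') s) := by
    conv_lhs => rw [← hP.iSup_Ub C hG.form hSA]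
    refine iSup_le fun k => ?_
    conv_lhs => rw [← hP.Ub_iSup C hG.form hSA k]
    refine iSup_mono fun s => ?_
    rintro _ ⟨u, hu', rfl⟩
    refine ⟨((m0 + m1 * d k) ^ 2)⁻¹ • u, Submodule.smul_mem _ _ (Ub_le_W C hG.form k hu'), ?_⟩
    rw [map_smul, Res_mu hG C hP hDP ht hD1 hu', smul_smul, inv_mul_cancel₀ (pow_ne_zero 2 (hu k)),
      one_smul]
  induction n with
  | zero => exact le_top
  | succ n ih => exact h1.trans (iSup_mono fun s => Submodule.map_mono ih)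

end cfg

end Vale.Agent.P182.H62
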