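import Mathlib.RingTheory.PowerSeries.Basic
import Mathlib.LinearAlgebra.Dimension.Finrank
import Mathlib.Algebra.Algebra.Subalgebra.Basic

/-!
# Formal curves: solving `g = b_s p_s` in orthogonal power series
-/

namespace Vale.Agent.P182.H62

open PowerSeries

section series

variable {R : Type*} [Ring R]

theorem coeff_mul_congr {φ φ' ψ ψ' : PowerSeries R} {m : ℕ}
    (h1 : ∀ j ≤ m, coeff j φ = coeff j φ') (h2 : ∀ j ≤ m, coeff j ψ = coeff j ψ') :
    coeff m (φ * ψ) = coeff m (φ' * ψ') := by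
  rw [coeff_mul, coeff_mul]
  refine Finset.sum_congr rfl fun p hp => ?_
  have := Finset.mem_antidiagonal.mp hp
  rw [h1 _ (by omega), h2 _ (by omega)]

theorem coeff_mul_ord {φ ρ : PowerSeries R} {n : ℕ} (h : ∀ j < n, coeff j ρ = 0) :
    coeff n (φ * ρ) = coeff 0 φ * coeff n ρ := by
  rw [coeff_mul, Finset.sum_eq_single (0, n)]
  · rintro ⟨i, j⟩ hij hne
    have h1 := Finset.mem_antidiagonal.mp hij
    have h2 : j < n := by
      rcases Nat.eq_zero_or_pos i with h0 | h0
      · exfalso; apply hne; subst h0; simp only [zero_add] at h1; rw [h1]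
      · simp only at h1; omega
    rw [h j h2, mul_zero]
  · intro h0
    exact absurd (Finset.mem_antidiagonal.mpr (by simp)) h0

theorem coeff_ord_mul {φ ρ : PowerSeries R} {n : ℕ} (h : ∀ j < n, coeff j ρ = 0) :
    coeff n (ρ * φ) = coeff n ρ * coeff 0 φ := by
  rw [coeff_mul, Finset.sum_eq_single (n, 0)]
  · rintro ⟨i, j⟩ hij hne
    have h1 := Finset.mem_antidiagonal.mp hij
    have h2 : i < n := by
      rcases Nat.eq_zero_or_pos j with h0 | h0
      · exfalso; apply hne; subst h0; simp only [add_zero] at h1; rw [h1]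
      · simp only at h1; omega
    rw [h i h2, zero_mul]
  · intro h0
    exact absurd (Finset.mem_antidiagonal.mpr (by simp)) h0

theorem coeff_mul_ord_lt {φ ρ : PowerSeries R} {n m : ℕ} (h : ∀ j < n, coeff j ρ = 0)
    (hm : m < n) : coeff m (φ * ρ) = 0 := by
  rw [coeff_mul]
  refine Finset.sum_eq_zero fun p hp => ?_
  have := Finset.mem_antidiagonal.mp hp
  rw [h _ (by omega), mul_zero]

theorem coeff_add_mul_add {φ ψ ρ σ : PowerSeries R} {n : ℕ} (hn : 1 ≤ n)
    (hρ : ∀ j < n, coeff j ρ = 0) (hσ : ∀ j < n, coeff j σ = 0) :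
    coeff n ((φ + ρ) * (ψ + σ)) =
      coeff n (φ * ψ) + coeff 0 φ * coeff n σ + coeff n ρ * coeff 0 ψ := by
  have h1 : (φ + ρ) * (ψ + σ) = φ * ψ + φ * σ + (ρ * ψ + ρ * σ) := by
    rw [add_mul, mul_add, mul_add]
  rw [h1, map_add, map_add, map_add, coeff_mul_ord hσ, coeff_ord_mul hρ, coeff_mul_ord hσ,
    hρ 0 (by omega), zero_mul, add_zero]

variable (ad : R →+ R)

/-- the coefficientwise adjoint -/
noncomputable def St (φ : PowerSeries R) : PowerSeries R := PowerSeries.mk fun n => ad (coeff n φ)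

@[simp] theorem coeff_St (n : ℕ) (φ : PowerSeries R) : coeff n (St ad φ) = ad (coeff n φ) := by
  rw [St, coeff_mk]

theorem St_add (φ ψ : PowerSeries R) : St ad (φ + ψ) = St ad φ + St ad ψ := by
  ext n; simp

theorem St_mul (hm : ∀ x y, ad (x * y) = ad y * ad x) (φ ψ : PowerSeries R) :
    St ad (φ * ψ) = St ad ψ * St ad φ := by
  ext n
  rw [coeff_St, coeff_mul, coeff_mul, map_sum, ← Finset.Nat.sum_antidiagonal_swap]
  exact Finset.sum_congr rfl fun p _ => by rw [hm, coeff_St, coeff_St]; rfl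

end series

section rec

variable {L R : Type*} [Field L] [Ring R] [Algebra L R] (ad : R →+ R)
  (B : Fin 3 → Subalgebra L R) (P : Subalgebra L R)

/-- approximate solutions -/
structure Apx (R : Type*) where
  g : PowerSeries R
  b : Fin 3 → PowerSeries R
  p : Fin 3 → PowerSeries R

/-- solution up to order `n` -/
structure IsApx (n : ℕ) (x : Apx R) : Prop where
  g0 : coeff 0 x.g = 1
  b0 : ∀ s, coeff 0 (x.b s) = 1
  p0 : ∀ s, coeff 0 (x.p s) = 1
  bB : ∀ s m, coeff m (x.b s) ∈ B s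
  pP : ∀ s m, coeff m (x.p s) ∈ P
  gg : ∀ m < n, coeff m (St ad x.g * x.g) = coeff m 1
  bb : ∀ s, ∀ m < n, coeff m (St ad (x.b s) * x.b s) = coeff m 1
  pp : ∀ s, ∀ m < n, coeff m (St ad (x.p s) * x.p s) = coeff m 1
  bp : ∀ s, ∀ m < n, coeff m (x.b s * x.p s) = coeff m x.g

/-- the approximations agree below `n` -/
structure Agree (n : ℕ) (x y : Apx R) : Prop where
  g : ∀ m < n, coeff m x.g = coeff m y.g
  b : ∀ s, ∀ m < n, coeff m (x.b s) = coeff m (y.b s)
  p : ∀ s, ∀ m < n, coeff m (x.p s) = coeff m (y.p s)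

variable {ad B P}

theorem coeff_one_mid {u φ v : PowerSeries R} {n : ℕ} (hn : 1 ≤ n)
    (h : ∀ m < n, coeff m φ = coeff m (1 : PowerSeries R)) (hu : coeff 0 u = 1)
    (hv : coeff 0 v = 1) : coeff n (u * φ * v) = coeff n (u * v) + coeff n φ := by
  have h1 : ∀ j < n, coeff j (φ - 1) = 0 := fun j hj => by rw [map_sub, h j hj, sub_self]
  have h2 : u * φ * v = u * v + u * (φ - 1) * v := by
    rw [mul_sub, sub_mul, mul_one]; abel
  have h3 : ∀ j < n, coeff j (u * (φ - 1)) = 0 := fun j hj => coeff_mul_ord_lt h1 hj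
  rw [h2, map_add, coeff_ord_mul h3, coeff_mul_ord h1, hu, hv, one_mul, mul_one, map_sub]
  have h4 : coeff n (1 : PowerSeries R) = 0 := by
    rw [coeff_one, if_neg (by omega)]
  rw [h4, sub_zero]

/-- **The step.** -/
theorem exists_step (h2 : (2 : L) ≠ 0) (hsm : ∀ (a : L) x, ad (a • x) = a • ad x)
    (hm : ∀ x y, ad (x * y) = ad y * ad x) (hi : ∀ x, ad (ad x) = x) (h1 : ad 1 = 1)
    (hB : ∀ s, ∀ x ∈ B s, ad x ∈ B s) (hP : ∀ x ∈ P, ad x ∈ P)
    (H : ∀ Z : Fin 3 → R, (∀ s, ad (Z s) = - Z s) → ∃ A, ad A = -A ∧ ∀ s, ∃ b ∈ B s, ad b = -b ∧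
      ∃ p ∈ P, ad p = -p ∧ Z s = A + b + p) {n : ℕ} (hn : 1 ≤ n) {x : Apx R}
    (hx : IsApx ad B P n x) : ∃ y : Apx R, IsApx ad B P (n + 1) y ∧ Agree n x y := by
  -- the defects
  set κ := coeff n (St ad x.g * x.g) with hκ
  set β := fun s => coeff n (St ad (x.b s) * x.b s) with hβ
  set π := fun s => coeff n (St ad (x.p s) * x.p s) with hπ
  set ζ := fun s => coeff n (x.b s * x.p s) - coeff n x.g with hζ
  have hn0 : coeff n (1 : PowerSeries R) = 0 := by rw [coeff_one, if_neg (by omega)]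
  have hself : ∀ φ : PowerSeries R, ad (coeff n (St ad φ * φ)) = coeff n (St ad φ * φ) := by
    intro φ
    rw [← coeff_St, St_mul ad hm]
    congr 2
    ext m
    rw [coeff_St, coeff_St, hi]
  have hκs : ad κ = κ := hself _
  have hβs : ∀ s, ad (β s) = β s := fun s => hself _
  have hπs : ∀ s, ad (π s) = π s := fun s => hself _
  -- the identity between the defects
  have hid : ∀ s, π s + β s = κ + ad (ζ s) + ζ s := by
    intro s
    have e1 : coeff n (St ad (x.b s * x.p s) * (x.b s * x.p s)) = π s + β s := by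
      have : St ad (x.b s * x.p s) * (x.b s * x.p s) =
          St ad (x.p s) * (St ad (x.b s) * x.b s) * x.p s := by
        rw [St_mul ad hm]
        simp only [mul_assoc]
      rw [this, coeff_one_mid hn (hx.bb s) (by rw [coeff_St, hx.p0, h1]) (hx.p0 s)]
    have e2 : x.b s * x.p s = x.g + (x.b s * x.p s - x.g) := by abel
    have e3 : ∀ j < n, coeff j (x.b s * x.p s - x.g) = 0 := fun j hj => by
      rw [map_sub, hx.bp s j hj, sub_self]
    have e4 : ∀ j < n, coeff j (St ad (x.b s * x.p s - x.g)) = 0 := fun j hj => by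
      rw [coeff_St, e3 j hj, map_zero]
    rw [← e1, e2, St_add, coeff_add_mul_add hn e4 e3, coeff_St, coeff_St, hx.g0, h1, one_mul,
      mul_one, map_sub]
    show κ + ζ s + ad (ζ s) = κ + ad (ζ s) + ζ s
    abel
  obtain ⟨A, hA, hBP⟩ := H (fun s => (2 : L)⁻¹ • (β s + π s - κ) - ζ s) (fun s => by
    have h3 : ad ((2 : L)⁻¹ • (β s + π s - κ) - ζ s) =
        (2 : L)⁻¹ • (β s + π s - κ) - ad (ζ s) := by
      rw [map_sub, hsm, map_sub, map_add, hβs, hπs, hκs]
    have h4 : (2 : L)⁻¹ • (β s + π s - κ) = (2 : L)⁻¹ • (ad (ζ s) + ζ s) := by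
      congr 1
      rw [add_comm (β s), hid]
      abel
    rw [h3, h4]
    have h5 : (2 : L)⁻¹ • (ad (ζ s) + ζ s) + (2 : L)⁻¹ • (ad (ζ s) + ζ s) = ad (ζ s) + ζ s := by
      rw [← two_smul L, smul_smul, mul_inv_cancel₀ h2, one_smul]
    rw [eq_neg_iff_add_eq_zero]
    have h6 : (2 : L)⁻¹ • (ad (ζ s) + ζ s) - ad (ζ s) + ((2 : L)⁻¹ • (ad (ζ s) + ζ s) - ζ s) =
        ((2 : L)⁻¹ • (ad (ζ s) + ζ s) + (2 : L)⁻¹ • (ad (ζ s) + ζ s)) - (ad (ζ s) + ζ s) := by
      abel
    rw [h6, h5, sub_self])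
  choose b hb hb' p hp hp' hZ using hBP
  -- the corrections
  let γ : R := -((2 : L)⁻¹ • κ) - A
  let β' : Fin 3 → R := fun s => -((2 : L)⁻¹ • β s) + b s
  let π' : Fin 3 → R := fun s => -((2 : L)⁻¹ • π s) + p s
  have hord : ∀ a : R, ∀ j < n, coeff j (monomial n a) = 0 := fun a j hj => by
    rw [coeff_monomial, if_neg (by omega)]
  have hcoef : ∀ a : R, coeff n (monomial n a) = a := fun a => by rw [coeff_monomial, if_pos rfl]
  have hlt : ∀ (φ : PowerSeries R) (a : R), ∀ j < n, coeff j (φ + monomial n a) = coeff j φ :=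
    fun φ a j hj => by rw [map_add, hord a j hj, add_zero]
  have hhalf : ∀ w : R, (2 : L)⁻¹ • w + (2 : L)⁻¹ • w = w := fun w => by
    rw [← two_smul L, smul_smul, mul_inv_cancel₀ h2, one_smul]
  -- the orthogonality in degree `n`
  have key : ∀ (φ : PowerSeries R) (a : R), coeff 0 φ = 1 →
      (∀ m < n, coeff m (St ad φ * φ) = coeff m (1 : PowerSeries R)) →
      ad a + a = - coeff n (St ad φ * φ) →
      ∀ m < n + 1, coeff m (St ad (φ + monomial n a) * (φ + monomial n a)) =
        coeff m (1 : PowerSeries R) := by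
    intro φ a h3 h4 h5 m hm'
    rcases Nat.lt_succ_iff_lt_or_eq.mp hm' with h | h
    · rw [← h4 m h]
      refine coeff_mul_congr (fun j hj => ?_) fun j hj => hlt _ _ _ (by omega)
      rw [coeff_St, coeff_St, hlt _ _ _ (by omega)]
    · subst h
      have h6 : ∀ j < m, coeff j (St ad (monomial m a)) = 0 := fun j hj => by
        rw [coeff_St, hord a j hj, map_zero]
      rw [St_add, coeff_add_mul_add hn h6 (hord a), coeff_St, coeff_St, hcoef, h3, h1, one_mul,
        mul_one, hn0]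
      have h7 : coeff m (St ad φ * φ) + a + ad a = coeff m (St ad φ * φ) + (ad a + a) := by abel
      rw [h7, h5, add_neg_cancel]
  refine ⟨⟨x.g + monomial n γ, fun s => x.b s + monomial n (β' s),
    fun s => x.p s + monomial n (π' s)⟩, ⟨?_, ?_, ?_, ?_, ?_, ?_, ?_, ?_, ?_⟩, ⟨?_, ?_, ?_⟩⟩
  · show coeff 0 (x.g + monomial n γ) = 1
    rw [hlt _ _ _ (by omega), hx.g0]
  · intro s
    show coeff 0 (x.b s + monomial n (β' s)) = 1
    rw [hlt _ _ _ (by omega), hx.b0]
  · intro s
    show coeff 0 (x.p s + monomial n (π' s)) = 1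
    rw [hlt _ _ _ (by omega), hx.p0]
  · intro s m
    show coeff m (x.b s + monomial n (β' s)) ∈ B s
    rw [map_add, coeff_monomial]
    refine add_mem (hx.bB s m) ?_
    split_ifs
    · refine add_mem (neg_mem (Subalgebra.smul_mem _ ?_ _)) (hb s)
      show coeff n (St ad (x.b s) * x.b s) ∈ B s
      rw [coeff_mul]
      exact sum_mem fun q _ => mul_mem (by rw [coeff_St]; exact hB s _ (hx.bB s _)) (hx.bB s _)
    · exact zero_mem _
  · intro s m
    show coeff m (x.p s + monomial n (π' s)) ∈ P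
    rw [map_add, coeff_monomial]
    refine add_mem (hx.pP s m) ?_
    split_ifs
    · refine add_mem (neg_mem (Subalgebra.smul_mem _ ?_ _)) (hp s)
      show coeff n (St ad (x.p s) * x.p s) ∈ P
      rw [coeff_mul]
      exact sum_mem fun q _ => mul_mem (by rw [coeff_St]; exact hP _ (hx.pP s _)) (hx.pP s _)
    · exact zero_mem _
  · refine key x.g γ hx.g0 hx.gg ?_
    show ad (-((2 : L)⁻¹ • κ) - A) + (-((2 : L)⁻¹ • κ) - A) = -κ
    rw [map_sub, map_neg, hsm, hκs, hA]
    conv_rhs => rw [← hhalf κ]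
    abel
  · intro s
    refine key (x.b s) (β' s) (hx.b0 s) (hx.bb s) ?_
    show ad (-((2 : L)⁻¹ • β s) + b s) + (-((2 : L)⁻¹ • β s) + b s) = -β s
    rw [map_add, map_neg, hsm, hβs, hb']
    conv_rhs => rw [← hhalf (β s)]
    abel
  · intro s
    refine key (x.p s) (π' s) (hx.p0 s) (hx.pp s) ?_
    show ad (-((2 : L)⁻¹ • π s) + p s) + (-((2 : L)⁻¹ • π s) + p s) = -π s
    rw [map_add, map_neg, hsm, hπs, hp']
    conv_rhs => rw [← hhalf (π s)]
    abel
  · intro s m hm'
    show coeff m ((x.b s + monomial n (β' s)) * (x.p s + monomial n (π' s))) =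
      coeff m (x.g + monomial n γ)
    rcases Nat.lt_succ_iff_lt_or_eq.mp hm' with h | h
    · rw [hlt _ _ _ h, ← hx.bp s m h]
      exact coeff_mul_congr (fun j hj => hlt _ _ _ (by omega)) fun j hj => hlt _ _ _ (by omega)
    · subst h
      rw [coeff_add_mul_add hn (hord _) (hord _), hcoef, hcoef, hx.b0, hx.p0, one_mul, mul_one,
        map_add, hcoef]
      have h3 : coeff m (x.b s * x.p s) = ζ s + coeff m x.g := by
        show _ = coeff m (x.b s * x.p s) - coeff m x.g + coeff m x.g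
        abel
      have h4 : (2 : L)⁻¹ • (β s + π s - κ) - ζ s = A + b s + p s := hZ s
      have h5 : (2 : L)⁻¹ • (β s + π s - κ) = (2 : L)⁻¹ • β s + (2 : L)⁻¹ • π s - (2 : L)⁻¹ • κ := by
        rw [smul_sub, smul_add]
      rw [h5, sub_eq_iff_eq_add] at h4
      rw [h3]
      show ζ s + coeff m x.g + (-((2 : L)⁻¹ • π s) + p s) + (-((2 : L)⁻¹ • β s) + b s) =
        coeff m x.g + (-((2 : L)⁻¹ • κ) - A)
      have h6 : (2 : L)⁻¹ • κ = (2 : L)⁻¹ • β s + (2 : L)⁻¹ • π s - (A + b s + p s + ζ s) := by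
        rw [← h4]; abel
      rw [h6]
      abel
  · intro m hm'
    exact (hlt _ _ _ hm').symm
  · intro s m hm'
    exact (hlt _ _ _ hm').symm
  · intro s m hm'
    exact (hlt _ _ _ hm').symm

/-- **Existence of the formal curve.** -/
theorem exists_curve (h2 : (2 : L) ≠ 0) (hsm : ∀ (a : L) x, ad (a • x) = a • ad x)
    (hm : ∀ x y, ad (x * y) = ad y * ad x) (hi : ∀ x, ad (ad x) = x) (h1 : ad 1 = 1)
    (hB : ∀ s, ∀ x ∈ B s, ad x ∈ B s) (hP : ∀ x ∈ P, ad x ∈ P)
    (H : ∀ Z : Fin 3 → R, (∀ s, ad (Z s) = - Z s) → ∃ A, ad A = -A ∧ ∀ s, ∃ b ∈ B s, ad b = -b ∧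
      ∃ p ∈ P, ad p = -p ∧ Z s = A + b + p) {A0 : R} (hA0 : ad A0 = -A0) {b0 p0 : Fin 3 → R}
    (hb : ∀ s, b0 s ∈ B s) (hb' : ∀ s, ad (b0 s) = -b0 s) (hp : ∀ s, p0 s ∈ P)
    (hp' : ∀ s, ad (p0 s) = -p0 s) (h0 : ∀ s, A0 = b0 s + p0 s) :
    ∃ x : Apx R, (∀ n, IsApx ad B P n x) ∧ coeff 1 x.g = A0 := by
  classical
  -- the first approximation
  have hcoef0 : ∀ a : R, coeff 0 (1 + monomial 1 a) = 1 := fun a => by
    rw [map_add, coeff_monomial, if_neg (by omega), add_zero, coeff_one, if_pos rfl]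
  have hcoef1 : ∀ a : R, coeff 1 (1 + monomial 1 a) = a := fun a => by
    rw [map_add, coeff_monomial, if_pos rfl, coeff_one, if_neg (by omega), zero_add]
  have hmem : ∀ (S : Subalgebra L R) (a : R), a ∈ S → ∀ m, coeff m (1 + monomial 1 a) ∈ S := by
    intro S a ha m
    rw [map_add, coeff_one, coeff_monomial]
    refine add_mem ?_ ?_
    · split_ifs
      · exact one_mem _
      · exact zero_mem _
    · split_ifs
      · exact ha
      · exact zero_mem _
  have horth : ∀ a : R, ad a = -a → ∀ m < 2,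
      coeff m (St ad (1 + monomial 1 a) * (1 + monomial 1 a)) = coeff m (1 : PowerSeries R) := by
    intro a ha m hm2
    have e1 : m = 0 ∨ m = 1 := by omega
    rcases e1 with rfl | rfl
    · rw [coeff_mul]
      simp only [Finset.Nat.antidiagonal_zero, Finset.sum_singleton]
      rw [coeff_St, hcoef0, h1, one_mul, coeff_one, if_pos rfl]
    · rw [coeff_mul, Finset.Nat.antidiagonal_succ]
      simp only [Finset.Nat.antidiagonal_zero, Finset.map_singleton, Finset.sum_cons,
        Finset.sum_singleton]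
      show coeff 0 (St ad (1 + monomial 1 a)) * coeff 1 (1 + monomial 1 a) +
        coeff 1 (St ad (1 + monomial 1 a)) * coeff 0 (1 + monomial 1 a) = _
      rw [coeff_St, coeff_St, hcoef0, hcoef1, h1, ha, coeff_one, if_neg (by omega)]
      simp
  have init : IsApx ad B P 2 ⟨1 + monomial 1 A0, fun s => 1 + monomial 1 (b0 s),
      fun s => 1 + monomial 1 (p0 s)⟩ := by
    refine ⟨hcoef0 _, fun s => hcoef0 _, fun s => hcoef0 _, fun s => hmem _ _ (hb s),
      fun s => hmem _ _ (hp s), horth _ hA0, fun s => horth _ (hb' s), fun s => horth _ (hp' s),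
      ?_⟩
    intro s m hm2
    have e1 : m = 0 ∨ m = 1 := by omega
    rcases e1 with rfl | rfl
    · rw [coeff_mul]
      simp only [Finset.Nat.antidiagonal_zero, Finset.sum_singleton]
      rw [hcoef0, hcoef0, hcoef0, one_mul]
    · rw [coeff_mul, Finset.Nat.antidiagonal_succ]
      simp only [Finset.Nat.antidiagonal_zero, Finset.map_singleton, Finset.sum_cons,
        Finset.sum_singleton]
      show coeff 0 (1 + monomial 1 (b0 s)) * coeff 1 (1 + monomial 1 (p0 s)) +
        coeff 1 (1 + monomial 1 (b0 s)) * coeff 0 (1 + monomial 1 (p0 s)) = _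
      rw [hcoef0, hcoef0, hcoef1, hcoef1, hcoef1, one_mul, mul_one, h0 s, add_comm]
  -- the sequence of approximations
  have step : ∀ n (x : {x : Apx R // IsApx ad B P (n + 2) x}),
      ∃ y : {y : Apx R // IsApx ad B P (n + 1 + 2) y}, Agree (n + 2) x.1 y.1 := by
    rintro n ⟨x, hx⟩
    obtain ⟨y, hy, hxy⟩ := exists_step h2 hsm hm hi h1 hB hP H (n := n + 2) (by omega) hx
    exact ⟨⟨y, hy⟩, hxy⟩
  choose st hst using step
  let f : (n : ℕ) → {x : Apx R // IsApx ad B P (n + 2) x} := fun n =>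
    Nat.rec (motive := fun n => {x : Apx R // IsApx ad B P (n + 2) x}) ⟨_, init⟩
      (fun n x => st n x) n
  have hf : ∀ n, Agree (n + 2) (f n).1 (f (n + 1)).1 := fun n => hst n (f n)
  have hag : ∀ n k, Agree (n + 2) (f n).1 (f (n + k)).1 := by
    intro n k
    induction k with
    | zero => exact ⟨fun _ _ => rfl, fun _ _ _ => rfl, fun _ _ _ => rfl⟩
    | succ k ih =>
      have h3 := hf (n + k)
      refine ⟨fun m hm2 => ?_, fun s m hm2 => ?_, fun s m hm2 => ?_⟩
      · rw [ih.g m hm2]; exact h3.g m (by omega)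
      · rw [ih.b s m hm2]; exact h3.b s m (by omega)
      · rw [ih.p s m hm2]; exact h3.p s m (by omega)
  let lim : Apx R := ⟨PowerSeries.mk fun j => coeff j (f j).1.g,
    fun s => PowerSeries.mk fun j => coeff j ((f j).1.b s),
    fun s => PowerSeries.mk fun j => coeff j ((f j).1.p s)⟩
  have lg : ∀ m j, j ≤ m → coeff j lim.g = coeff j (f m).1.g := by
    intro m j hjm
    obtain ⟨k, rfl⟩ := Nat.exists_eq_add_of_le hjm
    simp only [lim, coeff_mk]
    exact (hag j k).g j (by omega)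
  have lb : ∀ s m j, j ≤ m → coeff j (lim.b s) = coeff j ((f m).1.b s) := by
    intro s m j hjm
    obtain ⟨k, rfl⟩ := Nat.exists_eq_add_of_le hjm
    simp only [lim, coeff_mk]
    exact (hag j k).b s j (by omega)
  have lp : ∀ s m j, j ≤ m → coeff j (lim.p s) = coeff j ((f m).1.p s) := by
    intro s m j hjm
    obtain ⟨k, rfl⟩ := Nat.exists_eq_add_of_le hjm
    simp only [lim, coeff_mk]
    exact (hag j k).p s j (by omega)
  refine ⟨lim, fun n => ⟨?_, ?_, ?_, ?_, ?_, ?_, ?_, ?_, ?_⟩, ?_⟩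
  · rw [lg 0 0 le_rfl]; exact (f 0).2.g0
  · intro s; rw [lb s 0 0 le_rfl]; exact (f 0).2.b0 s
  · intro s; rw [lp s 0 0 le_rfl]; exact (f 0).2.p0 s
  · intro s m; rw [lb s m m le_rfl]; exact (f m).2.bB s m
  · intro s m; rw [lp s m m le_rfl]; exact (f m).2.pP s m
  · intro m _
    rw [← (f m).2.gg m (by omega)]
    exact coeff_mul_congr (fun j hj => by rw [coeff_St, coeff_St, lg m j hj]) fun j hj => lg m j hj
  · intro s m _
    rw [← (f m).2.bb s m (by omega)]
    exact coeff_mul_congr (fun j hj => by rw [coeff_St, coeff_St, lb s m j hj])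
      fun j hj => lb s m j hj
  · intro s m _
    rw [← (f m).2.pp s m (by omega)]
    exact coeff_mul_congr (fun j hj => by rw [coeff_St, coeff_St, lp s m j hj])
      fun j hj => lp s m j hj
  · intro s m _
    rw [lg m m le_rfl, ← (f m).2.bp s m (by omega)]
    exact coeff_mul_congr (fun j hj => lb s m j hj) fun j hj => lp s m j hj
  · have h3 : coeff 1 lim.g = coeff 1 (f 0).1.g := by
      rw [lg 1 1 le_rfl]
      exact ((hag 0 1).g 1 (by omega)).symm
    rw [h3]
    exact hcoef1 _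

end rec

end Vale.Agent.P182.H62
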