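import Vale.Agent.P182.H62.Gen0
import Vale.Agent.P182.H62.Curve

/-!
# Power series of vectors and of endomorphisms inside the base change
-/

namespace Vale.Agent.P182.H62

open Module TensorProduct PowerSeries Vale.Agent.P182.H533 Vale.Agent.P182.B1

universe u v w

section sig

variable {L : Type u} {V : Type v} [Field L] [AddCommGroup V] [Module L V] [FiniteDimensional L V]
  {L1 : Type u} [Field L1] [Algebra (PowerSeries L) L1] [Algebra L L1]
  [IsScalarTower L (PowerSeries L) L1]

/-- the coefficient family -/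
noncomputable def cmk (L1 : Type u) [Field L1] [Algebra (PowerSeries L) L1] (c : ℕ → L) : L1 :=
  algebraMap (PowerSeries L) L1 (PowerSeries.mk c)

omit [Algebra L L1] [IsScalarTower L (PowerSeries L) L1] in
theorem cmk_add (c d : ℕ → L) : cmk L1 (fun n => c n + d n) = cmk L1 c + cmk L1 d := by
  rw [cmk, cmk, cmk, ← map_add]
  congr 1

theorem cmk_smul (a : L) (c : ℕ → L) : cmk L1 (fun n => a * c n) = a • cmk L1 c := by
  rw [cmk, cmk, ← algebraMap_smul (PowerSeries L) a, Algebra.smul_def, ← map_mul]
  congr 1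
  ext n
  rw [coeff_mk]
  show _ = coeff n (PowerSeries.C a * _)
  rw [coeff_C_mul, coeff_mk]

omit [Algebra L L1] [IsScalarTower L (PowerSeries L) L1] in
theorem cmk_zero : cmk L1 (fun _ => (0 : L)) = 0 := by
  rw [cmk]
  have : (PowerSeries.mk fun _ => (0 : L)) = 0 := by ext n; simp
  rw [this, map_zero]

omit [Algebra L L1] [IsScalarTower L (PowerSeries L) L1] in
theorem cmk_one : cmk L1 (fun n => if n = 0 then (1 : L) else 0) = 1 := by
  rw [cmk]
  have : (PowerSeries.mk fun n => if n = 0 then (1 : L) else 0) = 1 := by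
    ext n; rw [coeff_mk, coeff_one]
  rw [this, map_one]

variable (L L1) in
/-- `∑ w_n τ^n` -/
noncomputable def sg : (ℕ → V) →ₗ[L] L1 ⊗[L] V where
  toFun w := ∑ j, cmk L1 (fun n => (Module.finBasis L V).coord j (w n)) ⊗ₜ[L]
    (Module.finBasis L V j)
  map_add' w w' := by
    rw [← Finset.sum_add_distrib]
    refine Finset.sum_congr rfl fun j _ => ?_
    rw [← add_tmul, ← cmk_add]
    congr 2
    funext n
    rw [Pi.add_apply, map_add]
  map_smul' a w := by
    rw [Finset.smul_sum]
    refine Finset.sum_congr rfl fun j _ => ?_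
    rw [RingHom.id_apply, smul_tmul', ← cmk_smul]
    congr 2
    funext n
    rw [Pi.smul_apply, map_smul, smul_eq_mul]

theorem sg_def (w : ℕ → V) : sg L L1 w = ∑ j, cmk L1 (fun n => (Module.finBasis L V).coord j (w n))
    ⊗ₜ[L] (Module.finBasis L V j) := rfl

theorem sg_smul (c : ℕ → L) (v : V) : sg L L1 (fun n => c n • v) = cmk L1 c ⊗ₜ[L] v := by
  rw [sg_def]
  have h1 : ∀ j, cmk L1 (fun n => (Module.finBasis L V).coord j (c n • v)) ⊗ₜ[L]
      (Module.finBasis L V j) = cmk L1 c ⊗ₜ[L] ((Module.finBasis L V).coord j v •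
        Module.finBasis L V j) := by
    intro j
    rw [← smul_tmul, ← cmk_smul]
    congr 2
    funext n
    rw [map_smul, smul_eq_mul, mul_comm]
  simp_rw [h1]
  rw [← tmul_sum]
  congr 1
  exact (Module.finBasis L V).sum_repr v

/-- induction principle, relative to a subspace -/
theorem sg_induction {P : (ℕ → V) → Prop} (F : Submodule L V) (h0 : P 0)
    (ha : ∀ w w', P w → P w' → P (w + w')) (hs : ∀ (c : ℕ → L), ∀ v ∈ F, P (fun n => c n • v))
    {w : ℕ → V} (hw : ∀ n, w n ∈ F) : P w := by
  classical
  have h1 : w = ∑ j, fun n => (Module.finBasis L F).coord j ⟨w n, hw n⟩ •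
      (Module.finBasis L F j : V) := by
    funext n
    rw [Finset.sum_apply]
    have h2 := congrArg (Submodule.subtype F) ((Module.finBasis L F).sum_repr ⟨w n, hw n⟩)
    rw [map_sum] at h2
    exact h2.symm
  have h3 : ∀ s : Finset (Fin (finrank L F)), P (∑ j ∈ s, fun n =>
      (Module.finBasis L F).coord j ⟨w n, hw n⟩ • (Module.finBasis L F j : V)) := by
    intro s
    induction s using Finset.induction_on with
    | empty => rw [Finset.sum_empty]; exact h0
    | insert a s hin ih =>
      rw [Finset.sum_insert hin]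
      exact ha _ _ (hs _ _ (Module.finBasis L F a).2) ih
  rw [h1]
  exact h3 _

theorem sg_mem {F : Submodule L V} {w : ℕ → V} (hw : ∀ n, w n ∈ F) :
    sg L L1 w ∈ F.baseChange L1 := by
  refine sg_induction (P := fun w : ℕ → V => sg L L1 w ∈ F.baseChange L1) F ?_ ?_ ?_ hw
  · rw [map_zero]; exact zero_mem _
  · intro w w' h h'
    rw [map_add]; exact add_mem h h'
  · intro c v hv
    rw [sg_smul]
    exact Submodule.tmul_mem_baseChange_of_mem _ hv

theorem sg_induction' {P : (ℕ → V) → Prop} (h0 : P 0)
    (ha : ∀ w w', P w → P w' → P (w + w')) (hs : ∀ (c : ℕ → L) (v : V), P (fun n => c n • v))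
    (w : ℕ → V) : P w :=
  sg_induction ⊤ h0 ha (fun c v _ => hs c v) fun _ => Submodule.mem_top

theorem sg_delta (v : V) : sg L L1 (fun n => if n = 0 then v else 0) = 1 ⊗ₜ[L] v := by
  have : (fun n : ℕ => if n = 0 then v else 0) = fun n => (if n = 0 then (1 : L) else 0) • v := by
    funext n
    split_ifs <;> simp
  rw [this, sg_smul, cmk_one]

/-- multiplication by a power series -/
theorem smul_sg (f : PowerSeries L) (w : ℕ → V) : algebraMap (PowerSeries L) L1 f • sg L L1 w =
    sg L L1 (fun n => ∑ p ∈ Finset.HasAntidiagonal.antidiagonal n, coeff p.1 f • w p.2) := by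
  refine sg_induction' (L := L) (P := fun w : ℕ → V => algebraMap (PowerSeries L) L1 f • sg L L1 w =
    sg L L1 (fun n => ∑ p ∈ Finset.HasAntidiagonal.antidiagonal n, coeff p.1 f • w p.2)) ?_ ?_ ?_ w
  · simp only [Pi.zero_apply, smul_zero, Finset.sum_const_zero, map_zero]
    have : (fun _ : ℕ => (0 : V)) = 0 := rfl
    rw [this, map_zero]
  · intro w w' h h'
    rw [map_add, smul_add, h, h', ← map_add]
    congr 1
    funext n
    simp only [Pi.add_apply, smul_add, Finset.sum_add_distrib]
  · intro c v
    rw [sg_smul, smul_tmul', smul_eq_mul, cmk, ← map_mul]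
    have h1 : (fun n => ∑ p ∈ Finset.HasAntidiagonal.antidiagonal n, coeff p.1 f • c p.2 • v) =
        fun n => coeff n (f * PowerSeries.mk c) • v := by
      funext n
      rw [coeff_mul, Finset.sum_smul]
      refine Finset.sum_congr rfl fun p _ => ?_
      rw [coeff_mk, smul_smul]
    rw [h1, sg_smul, cmk]
    congr 2
    ext n
    rw [coeff_mk]

/-- the value of the form -/
theorem qbc_sg (q : V →ₗ[L] V →ₗ[L] L) (w : ℕ → V) (v : V) :
    qbc L1 q (sg L L1 w) (1 ⊗ₜ[L] v) = cmk L1 fun n => q (w n) v := by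
  refine sg_induction' (L := L) (P := fun w : ℕ → V => qbc L1 q (sg L L1 w) (1 ⊗ₜ[L] v) =
    cmk L1 fun n => q (w n) v) ?_ ?_ ?_ w
  · simp only [Pi.zero_apply, map_zero, LinearMap.zero_apply]
    exact cmk_zero.symm
  · intro w w' h h'
    rw [map_add, map_add, LinearMap.add_apply, h, h', ← cmk_add]
    congr 1
    funext n
    rw [Pi.add_apply, map_add, LinearMap.add_apply]
  · intro c u
    rw [sg_smul, qbc_tmul, mul_one, mul_comm, ← Algebra.smul_def, ← cmk_smul]
    congr 1
    funext n
    rw [map_smul, LinearMap.smul_apply, smul_eq_mul, mul_comm]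

/-- injectivity -/
theorem sg_inj [IsFractionRing (PowerSeries L) L1] {w : ℕ → V} (h : sg L L1 w = 0) : w = 0 := by
  classical
  have h1 : ∀ j, cmk L1 (fun n => (Module.finBasis L V).coord j (w n)) = 0 := by
    intro j
    have h2 := congrArg (fun x => (((Module.finBasis L V).baseChange L1).repr x) j) h
    simp only [sg_def, map_sum, map_zero, Finsupp.zero_apply] at h2
    rw [Finsupp.finsetSum_apply, Finset.sum_eq_single j] at h2
    · rwa [Basis.baseChange_repr_tmul, Basis.repr_self, Finsupp.single_eq_same, one_smul] at h2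
    · intro i _ hi
      rw [Basis.baseChange_repr_tmul, Basis.repr_self, Finsupp.single_eq_of_ne hi.symm, zero_smul]
    · intro h'; exact absurd (Finset.mem_univ _) h'
  funext n
  apply (Module.finBasis L V).ext_elem
  intro j
  have h3 : (PowerSeries.mk fun n => (Module.finBasis L V).coord j (w n)) = 0 := by
    refine (IsFractionRing.injective (PowerSeries L) L1) ?_
    rw [map_zero]
    exact h1 j
  have h4 := congrArg (coeff n) h3
  rw [coeff_mk, map_zero] at h4
  rw [Pi.zero_apply, map_zero, Finsupp.zero_apply]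
  exact h4

/-! ### Endomorphisms -/

/-- `∑ x_n τ^n` acting on the base change -/
noncomputable def Th (L1 : Type u) [Field L1] [Algebra (PowerSeries L) L1] [Algebra L L1]
    [IsScalarTower L (PowerSeries L) L1] (x : PowerSeries (End L V)) : End L1 (L1 ⊗[L] V) :=
  LinearMap.liftBaseChange L1
    { toFun := fun v => sg L L1 fun n => coeff n x v
      map_add' := fun v v' => by
        rw [← map_add]
        congr 1
        funext n
        exact map_add _ _ _
      map_smul' := fun a v => by
        rw [RingHom.id_apply, ← map_smul]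
        congr 1
        funext n
        exact map_smul _ _ _ }

theorem Th_tmul (x : PowerSeries (End L V)) (a : L1) (v : V) :
    Th L1 x (a ⊗ₜ[L] v) = a • sg L L1 fun n => coeff n x v := by
  rw [Th, LinearMap.liftBaseChange_tmul]
  rfl

theorem Th_one_tmul (x : PowerSeries (End L V)) (v : V) :
    Th L1 x (1 ⊗ₜ[L] v) = sg L L1 fun n => coeff n x v := by
  rw [Th_tmul, one_smul]

theorem End_ext {f g : End L1 (L1 ⊗[L] V)} (h : ∀ v : V, f (1 ⊗ₜ[L] v) = g (1 ⊗ₜ[L] v)) :
    f = g := by
  ext v
  exact h v

theorem Th_sg (x : PowerSeries (End L V)) (w : ℕ → V) : Th L1 x (sg L L1 w) =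
    sg L L1 (fun n => ∑ p ∈ Finset.HasAntidiagonal.antidiagonal n, coeff p.1 x (w p.2)) := by
  refine sg_induction' (L := L) (P := fun w : ℕ → V => Th L1 x (sg L L1 w) =
    sg L L1 (fun n => ∑ p ∈ Finset.HasAntidiagonal.antidiagonal n, coeff p.1 x (w p.2))) ?_ ?_ ?_ w
  · simp only [Pi.zero_apply, Finset.sum_const_zero, map_zero]
    have : (fun _ : ℕ => (0 : V)) = 0 := rfl
    rw [this, map_zero]
  · intro w w' h h'
    rw [map_add, map_add, h, h', ← map_add]
    congr 1
    funext n
    simp only [Pi.add_apply, map_add, Finset.sum_add_distrib]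
  · intro c v
    rw [sg_smul, Th_tmul, cmk, smul_sg]
    congr 1
    funext n
    rw [← Finset.Nat.sum_antidiagonal_swap]
    refine Finset.sum_congr rfl fun p _ => ?_
    rw [coeff_mk, map_smul]
    rfl

theorem Th_mul (x y : PowerSeries (End L V)) : Th L1 (x * y) = Th L1 x * Th L1 y := by
  refine End_ext fun v => ?_
  rw [Module.End.mul_apply, Th_one_tmul, Th_one_tmul, Th_sg]
  congr 1
  funext n
  rw [coeff_mul, LinearMap.sum_apply]
  rfl

theorem Th_one : Th L1 (1 : PowerSeries (End L V)) = 1 := by
  refine End_ext fun v => ?_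
  rw [Th_one_tmul, Module.End.one_apply, ← sg_delta]
  congr 1
  funext n
  rw [coeff_one]
  split_ifs <;> rfl

theorem Th_add (x y : PowerSeries (End L V)) : Th L1 (x + y) = Th L1 x + Th L1 y := by
  refine End_ext fun v => ?_
  rw [LinearMap.add_apply, Th_one_tmul, Th_one_tmul, Th_one_tmul, ← map_add]
  congr 1

theorem Th_zero : Th L1 (0 : PowerSeries (End L V)) = 0 := by
  refine End_ext fun v => ?_
  rw [Th_one_tmul, LinearMap.zero_apply]
  have : (fun n => coeff n (0 : PowerSeries (End L V)) v) = 0 := by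
    funext n
    rw [map_zero]
    rfl
  rw [this, map_zero]

/-- scalar power series -/
noncomputable def scl (f : PowerSeries L) : PowerSeries (End L V) :=
  PowerSeries.map (algebraMap L (End L V)) f

theorem Th_scl (f : PowerSeries L) :
    Th L1 (scl f : PowerSeries (End L V)) = algebraMap (PowerSeries L) L1 f • 1 := by
  refine End_ext fun v => ?_
  rw [Th_one_tmul, LinearMap.smul_apply, Module.End.one_apply, smul_tmul', smul_eq_mul, mul_one]
  have h1 : (fun n => coeff n (scl f : PowerSeries (End L V)) v) = fun n => coeff n f • v := by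
    funext n
    rw [scl, coeff_map]
    rfl
  rw [h1, sg_smul, cmk]
  congr 2
  ext n
  rw [coeff_mk]

theorem Th_inj [IsFractionRing (PowerSeries L) L1] {x : PowerSeries (End L V)}
    (h : Th L1 x = 0) : x = 0 := by
  ext n v
  have h1 : sg L L1 (fun n => coeff n x v) = 0 := by
    rw [← Th_one_tmul, h, LinearMap.zero_apply]
  have h2 := congrFun (sg_inj h1) n
  rw [map_zero]
  exact h2

theorem Th_mem {x : PowerSeries (End L V)} {F : Submodule L V}
    (h : ∀ n, ∀ v ∈ F, coeff n x v ∈ F) : ∀ y ∈ F.baseChange L1, Th L1 x y ∈ F.baseChange L1 := by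
  intro y hy
  rw [Submodule.baseChange_eq_span] at hy
  induction hy using Submodule.span_induction with
  | mem y hy =>
    obtain ⟨v, hv, rfl⟩ := hy
    rw [TensorProduct.mk_apply, Th_one_tmul]
    exact sg_mem fun n => h n v hv
  | zero => rw [map_zero]; exact zero_mem _
  | add y z _ _ hy hz => rw [map_add]; exact add_mem hy hz
  | smul a y _ hy => rw [map_smul]; exact Submodule.smul_mem _ _ hy

/-! ### The adjoint -/

section adj

variable {q : V →ₗ[L] V →ₗ[L] L} (hq : IsForm q)

/-- the adjoint endomorphism -/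
noncomputable def adj : End L V →+ End L V where
  toFun Y := hq.eqv.symm.toLinearMap ∘ₗ (q.compl₂ Y)
  map_zero' := by
    ext u
    apply hq.ext
    intro w
    rw [LinearMap.comp_apply, LinearEquiv.coe_coe, hq.eqv_symm_apply]
    simp
  map_add' Y Z := by
    ext u
    apply hq.ext
    intro w
    rw [LinearMap.add_apply, map_add, LinearMap.add_apply, LinearMap.comp_apply,
      LinearMap.comp_apply, LinearMap.comp_apply, LinearEquiv.coe_coe, hq.eqv_symm_apply,
      hq.eqv_symm_apply, hq.eqv_symm_apply]
    simp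

theorem q_adj (Y : End L V) (u v : V) : q (adj hq Y u) v = q u (Y v) := by
  show q (hq.eqv.symm (q.compl₂ Y u)) v = _
  rw [hq.eqv_symm_apply]
  rfl

theorem q_adj' (Y : End L V) (u v : V) : q u (adj hq Y v) = q (Y u) v := by
  rw [hq.symm, q_adj, hq.symm]

theorem adj_smul (a : L) (Y : End L V) : adj hq (a • Y) = a • adj hq Y := by
  ext u
  apply hq.ext
  intro w
  rw [q_adj, LinearMap.smul_apply, LinearMap.smul_apply, map_smul, map_smul,
    LinearMap.smul_apply, q_adj]

theorem adj_mul (Y Z : End L V) : adj hq (Y * Z) = adj hq Z * adj hq Y := by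
  ext u
  apply hq.ext
  intro w
  rw [q_adj, Module.End.mul_apply, Module.End.mul_apply, q_adj, q_adj]

theorem adj_adj (Y : End L V) : adj hq (adj hq Y) = Y := by
  ext u
  apply hq.ext
  intro w
  rw [q_adj, hq.symm, q_adj, hq.symm]

theorem adj_one : adj hq (1 : End L V) = 1 := by
  ext u
  apply hq.ext
  intro w
  rw [q_adj]
  rfl

theorem adj_skew {Y : End L V} : adj hq Y = -Y ↔ IsSk q Y := by
  constructor
  · intro h u v
    have h1 := q_adj hq Y u v
    rw [h, LinearMap.neg_apply, map_neg, LinearMap.neg_apply] at h1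
    rw [← h1, neg_neg]
  · intro h
    ext u
    apply hq.ext
    intro w
    rw [q_adj, LinearMap.neg_apply, map_neg, LinearMap.neg_apply, h u w, neg_neg]

/-- the adjoint over the base change -/
theorem Th_adj (x : PowerSeries (End L V)) (u v : L1 ⊗[L] V) :
    qbc L1 q (Th L1 x u) v = qbc L1 q u (Th L1 (St (adj hq) x) v) := by
  induction u with
  | zero => simp
  | tmul a u =>
    induction v with
    | zero => simp
    | tmul b v =>
      rw [Th_tmul, Th_tmul]
      have e1 : a ⊗ₜ[L] u = a • ((1 : L1) ⊗ₜ[L] u) := by rw [smul_tmul', smul_eq_mul, mul_one]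
      have e2 : b ⊗ₜ[L] v = b • ((1 : L1) ⊗ₜ[L] v) := by rw [smul_tmul', smul_eq_mul, mul_one]
      rw [e1, e2, map_smul, map_smul, map_smul, map_smul, LinearMap.smul_apply,
        LinearMap.smul_apply, qbc_sg, (isForm_qbc hq).symm (1 ⊗ₜ[L] u), qbc_sg]
      have e3 : (fun n => q (coeff n x u) v) = fun n => q (coeff n (St (adj hq) x) v) u := by
        funext n
        rw [coeff_St, q_adj, hq.symm]
      rw [e3]
    | add y z hy hz => rw [map_add, hy, hz, map_add, map_add]
  | add y z hy hz => rw [map_add, map_add, LinearMap.add_apply, hy, hz, map_add, LinearMap.add_apply]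

end adj

end sig

end Vale.Agent.P182.H62
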