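import Vale.Agent.P182.H62.Gen1

/-!
# Connections over the field of power series
-/

namespace Vale.Agent.P182.H62

open Module TensorProduct PowerSeries Vale.Agent.P182.H533 Vale.Agent.P182.B1

universe u v w

section conn

variable {L : Type u} {V : Type v} [Field L] [AddCommGroup V] [Module L V] [FiniteDimensional L V]
  {L1 : Type u} [Field L1] [Algebra (PowerSeries L) L1] [Algebra L L1]
  [IsScalarTower L (PowerSeries L) L1] {q : V →ₗ[L] V →ₗ[L] L}

omit [FiniteDimensional L V] in
theorem algebraMap_cst (a : L) :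
    algebraMap L L1 a = algebraMap (PowerSeries L) L1 (PowerSeries.C a) := by
  rw [IsScalarTower.algebraMap_apply L (PowerSeries L) L1]
  rfl

variable [IsFractionRing (PowerSeries L) L1]

/-- the coefficientwise extension of a connection -/
theorem exists_cw (n : Conn q) : ∃ n1 : Conn (qbc L1 q),
    (∀ a : L, n1.d (algebraMap L L1 a) = algebraMap L L1 (n.d a)) ∧
      ∀ w : ℕ → V, n1.δ (sg L L1 w) = sg L L1 fun k => n.δ (w k) := by
  obtain ⟨d', h1, h2⟩ := H388.exists_coeffwise (L1 := L1) n.d n.leib
  have h3 : ∀ a : L, d' (algebraMap L L1 a) = algebraMap L L1 (n.d a) := by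
    intro a
    rw [algebraMap_cst, h2, algebraMap_cst]
    congr 1
    ext k
    rw [coeff_mk, coeff_C, coeff_C]
    split_ifs
    · rfl
    · exact map_zero _
  refine ⟨bcConn n d' h1 h3, h3, fun w => ?_⟩
  refine sg_induction' (L := L) (P := fun w : ℕ → V => (bcConn n d' h1 h3).δ (sg L L1 w) =
    sg L L1 fun k => n.δ (w k)) ?_ ?_ ?_ w
  · simp only [Pi.zero_apply, map_zero]
    have : (fun _ : ℕ => (0 : V)) = 0 := rfl
    rw [this, map_zero]
  · intro w w' h h'
    rw [map_add, map_add, h, h', ← map_add]
    congr 1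
    funext k
    rw [Pi.add_apply, Pi.add_apply, map_add]
  · intro c v
    rw [sg_smul]
    show d' (cmk L1 c) ⊗ₜ[L] v + cmk L1 c ⊗ₜ[L] n.δ v = _
    have e1 : (fun k => n.δ (c k • v)) = (fun k => n.d (c k) • v) + fun k => c k • n.δ v := by
      funext k
      rw [n.smul]
      rfl
    rw [e1, map_add, sg_smul, sg_smul, cmk, h2]
    congr 2
    rw [cmk]
    congr 1
    ext k
    rw [coeff_mk, coeff_mk, coeff_mk]

/-- the derivative -/
theorem exists_dt (q : V →ₗ[L] V →ₗ[L] L) : ∃ n1 : Conn (qbc L1 q),
    (∀ a : L, n1.d (algebraMap L L1 a) = 0) ∧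
      ∀ w : ℕ → V, n1.δ (sg L L1 w) = sg L L1 fun k => ((k : L) + 1) • w (k + 1) := by
  obtain ⟨d', h1, h2⟩ := H388.exists_dtau L L1
  have h3 : ∀ a : L, d' (algebraMap L L1 a) = 0 := by
    intro a
    rw [algebraMap_cst, h2]
    have : (PowerSeries.mk fun n => ((n : L) + 1) * coeff (n + 1) (PowerSeries.C a)) = 0 := by
      ext k
      rw [coeff_mk, coeff_C, if_neg (Nat.succ_ne_zero k), mul_zero, map_zero]
    rw [this, map_zero]
  have h4 : ∀ a : L, d' (algebraMap L L1 a) = algebraMap L L1 ((cnZero q).d a) := by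
    intro a
    rw [h3]
    show 0 = algebraMap L L1 0
    rw [map_zero]
  refine ⟨bcConn (cnZero q) d' h1 h4, h3, fun w => ?_⟩
  refine sg_induction' (L := L) (P := fun w : ℕ → V => (bcConn (cnZero q) d' h1 h4).δ
    (sg L L1 w) = sg L L1 fun k => ((k : L) + 1) • w (k + 1)) ?_ ?_ ?_ w
  · simp only [Pi.zero_apply, map_zero, smul_zero]
    have : (fun _ : ℕ => (0 : V)) = 0 := rfl
    rw [this, map_zero]
  · intro w w' h h'
    rw [map_add, map_add, h, h', ← map_add]
    congr 1
    funext k
    rw [Pi.add_apply, Pi.add_apply, smul_add]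
  · intro c v
    rw [sg_smul]
    show d' (cmk L1 c) ⊗ₜ[L] v + cmk L1 c ⊗ₜ[L] (0 : V) = _
    have e1 : (fun k : ℕ => ((k : L) + 1) • c (k + 1) • v) =
        fun k : ℕ => (((k : L) + 1) * c (k + 1)) • v := by
      funext k
      rw [smul_smul]
    rw [e1, sg_smul, tmul_zero, add_zero, cmk, h2]
    congr 1
    rw [cmk]
    congr 1
    ext k
    rw [coeff_mk, coeff_mk, coeff_mk]

omit [FiniteDimensional L V] [Algebra (PowerSeries L) L1] [IsScalarTower L (PowerSeries L) L1]
  [IsFractionRing (PowerSeries L) L1] in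
/-- a connection preserves a base changed subspace if it does so on generators -/
theorem conn_bc_mem {L' : Type*} [Field L'] [Algebra L L'] (n1 : Conn (qbc L' q))
    {F : Submodule L V} {W : Submodule L' (L' ⊗[L] V)} {A : End L' (L' ⊗[L] V)}
    (hF : F.baseChange L' ≤ W) (h : ∀ v ∈ F, n1.δ (1 ⊗ₜ[L] v) - A (1 ⊗ₜ[L] v) ∈ W) :
    ∀ x ∈ F.baseChange L', n1.δ x - A x ∈ W := by
  intro x hx
  rw [Submodule.baseChange_eq_span] at hx
  induction hx using Submodule.span_induction with
  | mem y hy =>
    obtain ⟨v, hv, rfl⟩ := hy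
    exact h v hv
  | zero => rw [map_zero, map_zero, sub_zero]; exact zero_mem _
  | add y z _ _ hy hz =>
    rw [map_add, map_add]
    have := add_mem hy hz
    convert this using 1
    abel
  | smul a y hy' hy =>
    rw [n1.smul, map_smul]
    have h1 : y ∈ W := by
      apply hF
      rw [Submodule.baseChange_eq_span]
      exact hy'
    have := add_mem (W.smul_mem (n1.d a) h1) (W.smul_mem a hy)
    convert this using 1
    rw [smul_sub]
    abel

/-- the commutator with a connection -/
def brk (n : Conn q) (X : End L V) : End L V where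
  toFun v := n.δ (X v) - X (n.δ v)
  map_add' u v := by simp only [map_add]; abel
  map_smul' a v := by
    rw [map_smul, n.smul, n.smul, map_add, map_smul, map_smul, RingHom.id_apply, smul_sub]
    abel

omit [FiniteDimensional L V] in
theorem brk_apply (n : Conn q) (X : End L V) (v : V) : brk n X v = n.δ (X v) - X (n.δ v) := rfl

omit [FiniteDimensional L V] [Algebra (PowerSeries L) L1] [IsScalarTower L (PowerSeries L) L1]
  [IsFractionRing (PowerSeries L) L1] [Algebra L L1] in
theorem card_le_of_li {K M : Type*} [Field K] [AddCommGroup M] [Module K M]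
    {ι : Type*} [Fintype ι] (W : Submodule K M) [FiniteDimensional K W] (m : ι → M)
    (hm : ∀ i, m i ∈ W) (h : ∀ f : ι → K, ∑ i, f i • m i = 0 → ∀ i, f i = 0) :
    Fintype.card ι ≤ finrank K W := by
  have h4 : LinearIndependent K fun i => (⟨m i, hm i⟩ : W) := by
    refine LinearIndependent.of_comp W.subtype ?_
    exact Fintype.linearIndependent_iff.mpr h
  exact h4.fintype_card_le_finrank

/-- linear independence is inherited from the constant terms -/
theorem li_Th {ι : Type*} [Fintype ι] (a : ι → PowerSeries (End L V))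
    (h : LinearIndependent L fun i => coeff 0 (a i)) :
    ∀ f : ι → L1, ∑ i, f i • Th L1 (a i) = 0 → ∀ i, f i = 0 := by
  classical
  intro f hf i
  obtain ⟨b, hb⟩ := IsLocalization.exist_integer_multiples_of_finset
    (nonZeroDivisors (PowerSeries L)) (Finset.univ.image f)
  have hb' : ∀ i, ∃ φ : PowerSeries L, algebraMap (PowerSeries L) L1 φ =
      algebraMap (PowerSeries L) L1 b * f i := by
    intro i
    obtain ⟨φ, hφ⟩ := hb (f i) (Finset.mem_image_of_mem f (Finset.mem_univ i))
    exact ⟨φ, by rw [hφ, Algebra.smul_def]⟩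
  choose φ hφ using hb'
  have h1 : Th L1 (∑ i, scl (φ i) * a i) = 0 := by
    have h2 : ∀ s : Finset ι, Th L1 (∑ i ∈ s, scl (φ i) * a i) =
        ∑ i ∈ s, algebraMap (PowerSeries L) L1 (φ i) • Th L1 (a i) := by
      intro s
      induction s using Finset.induction_on with
      | empty => rw [Finset.sum_empty, Finset.sum_empty, Th_zero]
      | insert c s hc ih =>
        rw [Finset.sum_insert hc, Finset.sum_insert hc, Th_add, ih, Th_mul, Th_scl, smul_mul_assoc,
          one_mul]
    rw [h2]
    simp_rw [hφ, mul_smul]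
    rw [← Finset.smul_sum, hf, smul_zero]
  have h2 := Th_inj h1
  have h3 : ∀ n i, coeff n (φ i) = 0 := by
    intro n
    induction n using Nat.strong_induction_on with
    | _ n ih =>
    have h4 := congrArg (coeff n) h2
    rw [map_sum, map_zero] at h4
    have h5 : ∀ i, coeff n (scl (φ i) * a i) = coeff n (φ i) • coeff 0 (a i) := by
      intro i
      rw [coeff_ord_mul (n := n)]
      · rw [scl, coeff_map, Algebra.smul_def]
      · intro j hj
        rw [scl, coeff_map, ih j hj i, map_zero]
    simp_rw [h5] at h4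
    exact Fintype.linearIndependent_iff.mp h _ h4
  have h4 : φ i = 0 := by
    ext n
    rw [h3, map_zero]
  have h5 := hφ i
  rw [h4, map_zero] at h5
  have h6 : algebraMap (PowerSeries L) L1 b ≠ 0 := by
    intro h7
    have h8 : (b : PowerSeries L) = 0 := IsFractionRing.injective (PowerSeries L) L1 (by
      rw [h7, map_zero])
    exact nonZeroDivisors.ne_zero b.2 h8
  exact (mul_eq_zero.mp h5.symm).resolve_left h6

theorem finrank_le_Th {W : Submodule L (End L V)} {W1 : Submodule L1 (End L1 (L1 ⊗[L] V))}
    (h : ∀ A ∈ W, ∃ a : PowerSeries (End L V), coeff 0 a = A ∧ Th L1 a ∈ W1) :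
    finrank L W ≤ finrank L1 W1 := by
  classical
  let b := Module.finBasis L W
  choose a ha ha' using fun i => h (b i) (b i).2
  have h1 : LinearIndependent L fun i => coeff 0 (a i) := by
    have h2 : (fun i => coeff 0 (a i)) = fun i => (W.subtype (b i)) := by
      funext i
      rw [ha]
      rfl
    rw [h2]
    exact b.linearIndependent.map' W.subtype W.ker_subtype
  have h5 := card_le_of_li W1 (fun i => Th L1 (a i)) ha' (li_Th (L1 := L1) a h1)
  rwa [Fintype.card_fin] at h5

end conn

end Vale.Agent.P182.H62
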