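import Vale.Agent.P182.H62.Gen2

/-!
# The deformation step
-/

namespace Vale.Agent.P182.H62

open Module TensorProduct PowerSeries Vale.Agent.P182.H533 Vale.Agent.P182.B1

universe u v w

theorem finrank_map_inj {K M : Type*} [Field K] [AddCommGroup M] [Module K M] {f : End K M}
    (hf : Function.Injective f) (W : Submodule K M) : finrank K (W.map f) = finrank K W :=
  (Submodule.equivMapOfInjective f hf W).finrank_eq.symm

theorem c0mul {R : Type*} [Ring R] (φ ψ : PowerSeries R) :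
    coeff 0 (φ * ψ) = coeff 0 φ * coeff 0 ψ :=
  coeff_ord_mul (n := 0) fun j hj => absurd hj (Nat.not_lt_zero j)

section alg

variable {L : Type u} {V : Type v} {J : Type w} [Field L] [AddCommGroup V] [Module L V]

/-- the endomorphisms preserving a subspace, as a subalgebra -/
def stab (W : Submodule L V) : Subalgebra L (End L V) where
  carrier := {Y | ∀ v ∈ W, Y v ∈ W}
  mul_mem' := fun hX hY v hv => hX _ (hY v hv)
  one_mem' := fun _ hv => hv
  add_mem' := fun hX hY v hv => add_mem (hX v hv) (hY v hv)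
  zero_mem' := fun _ _ => zero_mem _
  algebraMap_mem' := fun a _ hv => W.smul_mem a hv

theorem mem_stab {W : Submodule L V} {Y : End L V} : Y ∈ stab W ↔ ∀ v ∈ W, Y v ∈ W := Iff.rfl

/-- preserving `W` and `W^⊥` -/
def stab2 (q : V →ₗ[L] V →ₗ[L] L) (W : Submodule L V) : Subalgebra L (End L V) :=
  stab W ⊓ stab (perp q W)

theorem skew_perp {q : V →ₗ[L] V →ₗ[L] L} {W : Submodule L V} {Y : End L V} (hY : IsSk q Y)
    (h : ∀ v ∈ W, Y v ∈ W) : ∀ v ∈ perp q W, Y v ∈ perp q W := by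
  intro v hv w hw
  rw [hY, hv _ (h w hw), neg_zero]

theorem mem_stab2_of_skew {q : V →ₗ[L] V →ₗ[L] L} {W : Submodule L V} {Y : End L V}
    (hY : IsSk q Y) (h : ∀ v ∈ W, Y v ∈ W) : Y ∈ stab2 q W := ⟨h, skew_perp hY h⟩

variable [FiniteDimensional L V]

theorem adj_stab2 {q : V →ₗ[L] V →ₗ[L] L} (hq : IsForm q) {W : Submodule L V} {Y : End L V}
    (h : Y ∈ stab2 q W) : adj hq Y ∈ stab2 q W := by
  constructor
  · intro v hv
    rw [← perp_perp hq W]
    intro w hw
    rw [q_adj]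
    have h1 := h.2 w hw v hv
    rw [hq.symm]
    exact h1
  · intro v hv w hw
    rw [q_adj]
    exact hv _ (h.1 w hw)

variable (𝒟 : Cfg L V J)

/-- preserving the flag of an arm -/
def stabF (s : Fin 3) : Subalgebra L (End L V) := ⨅ i, stab2 𝒟.q (𝒟.F s i)

theorem mem_stabF {s : Fin 3} {Y : End L V} :
    Y ∈ stabF 𝒟 s ↔ ∀ i, Y ∈ stab2 𝒟.q (𝒟.F s i) := by
  rw [stabF, Algebra.mem_iInf]

end alg

section step

variable {L : Type u} {V : Type v} {J : Type w} [Field L] [AddCommGroup V] [Module L V]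
  [FiniteDimensional L V] {L1 : Type u} [Field L1] [Algebra (PowerSeries L) L1] [Algebra L L1]
  [IsScalarTower L (PowerSeries L) L1] [IsFractionRing (PowerSeries L) L1]
  {𝒟 : Cfg L V J} {S : Submodule L V}

/-- an isometry which preserves `F` -/
theorem Th_isom {q : V →ₗ[L] V →ₗ[L] L} (hq : IsForm q) {g : PowerSeries (End L V)}
    (hg : St (adj hq) g * g = 1) :
    Th L1 (St (adj hq) g) * Th L1 g = 1 ∧ Th L1 g * Th L1 (St (adj hq) g) = 1 := by
  have h1 : Th L1 (St (adj hq) g) * Th L1 g = 1 := by rw [← Th_mul, hg, Th_one]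
  exact ⟨h1, mul_eq_one_comm.mp h1⟩

theorem Th_map_eq {g : PowerSeries (End L V)} {h : End L1 (L1 ⊗[L] V)} (hg : h * Th L1 g = 1)
    {F : Submodule L V} (hF : ∀ n, ∀ v ∈ F, coeff n g v ∈ F) :
    (F.baseChange L1).map (Th L1 g) = F.baseChange L1 := by
  have hinj : Function.Injective (Th L1 g) := by
    intro x y hxy
    have h1 : ∀ z, h (Th L1 g z) = z := fun z => LinearMap.congr_fun hg z
    rw [← h1 x, hxy, h1]
  refine Submodule.eq_of_le_of_finrank_eq ?_ (finrank_map_inj hinj _)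
  rintro _ ⟨y, hy, rfl⟩
  exact Th_mem hF y hy

theorem inj_of_left {g h : End L1 (L1 ⊗[L] V)} (hg : h * g = 1) : Function.Injective g := by
  intro x y hxy
  have h1 : ∀ z, h (g z) = z := fun z => LinearMap.congr_fun hg z
  rw [← h1 x, hxy, h1]

/-- the position of the moved subspace -/
theorem finrank_move {g b p h h' : PowerSeries (End L V)} (hb : h * b = 1) (hp : h' * p = 1)
    (hg : b * p = g) (hpS : ∀ n, ∀ v ∈ S, coeff n p v ∈ S) {F : Submodule L V}
    (hbF : ∀ n, ∀ v ∈ F, coeff n b v ∈ F) :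
    finrank L1 ↥((S.baseChange L1).map (Th L1 g) ⊓ F.baseChange L1) = finrank L ↥(S ⊓ F) := by
  have hb1 : Th L1 h * Th L1 b = 1 := by rw [← Th_mul, hb, Th_one]
  have hp1 : Th L1 h' * Th L1 p = 1 := by rw [← Th_mul, hp, Th_one]
  have hinj := inj_of_left hb1
  have e1 : (S.baseChange L1).map (Th L1 g) = (S.baseChange L1).map (Th L1 b) := by
    rw [← hg, Th_mul]
    have e2 : (S.baseChange L1).map (Th L1 b * Th L1 p) =
        ((S.baseChange L1).map (Th L1 p)).map (Th L1 b) := Submodule.map_comp _ _ _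
    rw [e2, Th_map_eq hp1 hpS]
  rw [e1]
  conv_lhs => rw [← Th_map_eq hb1 hbF]
  rw [← Submodule.map_inf _ hinj, finrank_map_inj hinj, ← bc_inf, finrank_bc]

/-- **The deformation step.** -/
theorem gen_step (g : 𝒟.Good) (h2 : (2 : L) ≠ 0) (hV : 𝒟.Versal) (hS : 𝒟.Iso S) {A0 : End L V}
    (hT : Tan 𝒟 S A0) (hA0 : A0 ∉ real0 𝒟 S) : ∃ S1 : Submodule L1 (L1 ⊗[L] V),
      (bcC 𝒟 L1).Iso S1 ∧ finrank L1 S1 = finrank L S ∧
      (∀ s i, finrank L1 ↥(S1 ⊓ (bcC 𝒟 L1).F s i) = finrank L ↥(S ⊓ 𝒟.F s i)) ∧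
      (∀ s i, finrank L1 ↥(S1 ⊓ perp (bcC 𝒟 L1).q ((bcC 𝒟 L1).F s i)) =
        finrank L ↥(S ⊓ perp 𝒟.q (𝒟.F s i))) ∧
      finrank L (real0 𝒟 S) < finrank L1 (real0 (bcC 𝒟 L1) S1) := by
  classical
  choose B0 hB0 hB0F hB0S using hT.2
  have hsub : ∀ {X Y : End L V}, IsSk 𝒟.q X → IsSk 𝒟.q Y → IsSk 𝒟.q (X - Y) := by
    intro X Y hX hY u v
    rw [LinearMap.sub_apply, LinearMap.sub_apply, map_sub, map_sub, LinearMap.sub_apply, hX, hY]
    ring
  obtain ⟨x, hx, hx1⟩ := exists_curve (ad := adj g.form) (B := stabF 𝒟) (P := stab2 𝒟.q S) h2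
    (adj_smul g.form) (adj_mul g.form) (adj_adj g.form) (adj_one g.form)
    (fun s Y hY => (mem_stabF 𝒟).mpr fun i => adj_stab2 g.form ((mem_stabF 𝒟).mp hY i))
    (fun Y hY => adj_stab2 g.form hY) (by
      intro Z hZ
      obtain ⟨A, hA, h3⟩ := h1_van g h2 hV hS Z fun s => (adj_skew g.form).mp (hZ s)
      refine ⟨A, (adj_skew g.form).mpr hA, fun s => ?_⟩
      obtain ⟨B, hB, hBF, P, hP, hPS, h4⟩ := h3 s
      exact ⟨B, (mem_stabF 𝒟).mpr fun i => mem_stab2_of_skew hB (hBF i),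
        (adj_skew g.form).mpr hB, P, mem_stab2_of_skew hP hPS, (adj_skew g.form).mpr hP, h4⟩)
    (A0 := A0) ((adj_skew g.form).mpr hT.1) (b0 := B0) (p0 := fun s => A0 - B0 s)
    (fun s => (mem_stabF 𝒟).mpr fun i => mem_stab2_of_skew (hB0 s) (hB0F s i))
    (fun s => (adj_skew g.form).mpr (hB0 s))
    (fun s => mem_stab2_of_skew (hsub hT.1 (hB0 s)) (hB0S s))
    (fun s => (adj_skew g.form).mpr (hsub hT.1 (hB0 s))) (fun s => by abel)
  have hgg : St (adj g.form) x.g * x.g = 1 := by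
    ext1 n; exact (hx (n + 1)).gg n (Nat.lt_succ_self n)
  have hbb : ∀ s, St (adj g.form) (x.b s) * x.b s = 1 := by
    intro s; ext1 n; exact (hx (n + 1)).bb s n (Nat.lt_succ_self n)
  have hpp : ∀ s, St (adj g.form) (x.p s) * x.p s = 1 := by
    intro s; ext1 n; exact (hx (n + 1)).pp s n (Nat.lt_succ_self n)
  have hbp : ∀ s, x.b s * x.p s = x.g := by
    intro s; ext1 n; exact (hx (n + 1)).bp s n (Nat.lt_succ_self n)
  obtain ⟨G1, G2⟩ := Th_isom (L1 := L1) g.form hgg
  set G := Th L1 x.g with hG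
  set G' := Th L1 (St (adj g.form) x.g) with hG'
  have hinj := inj_of_left G1
  have hG'G : ∀ y, G' (G y) = y := fun y => LinearMap.congr_fun G1 y
  have hle : ∀ v ∈ S, G (1 ⊗ₜ[L] v) ∈ (S.baseChange L1).map G := fun v hv =>
    ⟨_, Submodule.tmul_mem_baseChange_of_mem _ hv, rfl⟩
  -- a criterion
  have hcrit : ∀ (n1 : Conn (qbc L1 𝒟.q)) (A : End L1 (L1 ⊗[L] V)),
      (∀ v ∈ S, n1.δ (G (1 ⊗ₜ[L] v)) - A (G (1 ⊗ₜ[L] v)) ∈ (S.baseChange L1).map G) →
      ∀ y ∈ (S.baseChange L1).map G, n1.δ y - A y ∈ (S.baseChange L1).map G := by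
    intro n1 A h y hy
    obtain ⟨z, hz, rfl⟩ := hy
    rw [Submodule.baseChange_eq_span] at hz
    induction hz using Submodule.span_induction with
    | mem y hy =>
      obtain ⟨v, hv, rfl⟩ := hy
      exact h v hv
    | zero => rw [map_zero, map_zero, map_zero, sub_zero]; exact zero_mem _
    | add y z _ _ hy hz =>
      rw [map_add, map_add, map_add]
      have := add_mem hy hz
      convert this using 1
      abel
    | smul a y hy' hy =>
      rw [map_smul, n1.smul, map_smul]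
      have h1 : G y ∈ (S.baseChange L1).map G := by
        refine ⟨y, ?_, rfl⟩
        rw [Submodule.baseChange_eq_span]
        exact hy'
      have := add_mem (Submodule.smul_mem _ (n1.d a) h1) (Submodule.smul_mem _ a hy)
      convert this using 1
      rw [smul_sub]
      abel
  -- preserving the flags
  have hflag : ∀ (n1 : Conn (qbc L1 𝒟.q)), (∀ s i, ∀ v ∈ 𝒟.F s i,
      n1.δ (1 ⊗ₜ[L] v) ∈ (𝒟.F s i).baseChange L1) →
      ∀ s i, ∀ y ∈ (bcC 𝒟 L1).F s i, n1.δ y ∈ (bcC 𝒟 L1).F s i := by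
    intro n1 h s i y hy
    have h3 := conn_bc_mem n1 (A := 0) (le_refl ((𝒟.F s i).baseChange L1)) (fun v hv => by
      rw [LinearMap.zero_apply, sub_zero]; exact h s i v hv) y hy
    rwa [LinearMap.zero_apply, sub_zero] at h3
  refine ⟨(S.baseChange L1).map G, ?_, ?_, ?_, ?_, ?_⟩
  · -- isotropic
    rintro _ ⟨y, hy, rfl⟩ _ ⟨z, hz, rfl⟩
    have h3 : qbc L1 𝒟.q (G y) (G z) = qbc L1 𝒟.q y z := by
      rw [hG, Th_adj g.form, ← hG, ← hG', hG'G]
    show qbc L1 𝒟.q (G y) (G z) = 0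
    rw [h3]
    have h4 := iso_bcC (L' := L1) hS
    exact h4 hy z hz
  · rw [finrank_map_inj hinj, finrank_bc]
  · intro s i
    exact finrank_move (hbb s) (hpp s) (hbp s) (fun n v hv => ((hx n).pP s n).1 v hv)
      (fun n v hv => ((mem_stabF 𝒟).mp ((hx n).bB s n) i).1 v hv)
  · intro s i
    rw [perp_bcC]
    exact finrank_move (hbb s) (hpp s) (hbp s) (fun n v hv => ((hx n).pP s n).1 v hv)
      (fun n v hv => ((mem_stabF 𝒟).mp ((hx n).bB s n) i).2 v hv)
  · -- the realised directions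
    have hcoef0 : coeff 0 x.g = 1 := (hx 0).g0
    have claimA : ∀ A ∈ real0 𝒟 S, ∃ a : PowerSeries (End L V), coeff 0 a = A ∧
        Th L1 a ∈ real0 (bcC 𝒟 L1) ((S.baseChange L1).map G) := by
      rintro A ⟨n, hn, hnΩ, hnS⟩
      obtain ⟨n1, k1, k2⟩ := exists_cw (L1 := L1) n
      have k3 : ∀ v : V, n1.δ (1 ⊗ₜ[L] v) = 1 ⊗ₜ[L] n.δ v := by
        intro v
        rw [← sg_delta, k2, ← sg_delta]
        congr 1
        funext k
        split_ifs
        · rfl
        · exact map_zero _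
      let ng : PowerSeries (End L V) := PowerSeries.mk fun k => brk n (coeff k x.g)
      refine ⟨(x.g * PowerSeries.C A + ng) * St (adj g.form) x.g, ?_, n1, ?_, ?_, ?_⟩
      · rw [c0mul, map_add, c0mul, coeff_St, hcoef0, adj_one, mul_one,
          one_mul, coeff_zero_C, coeff_mk, hcoef0]
        have : brk n (1 : End L V) = 0 := by
          ext v
          rw [brk_apply]
          exact sub_self _
        rw [this, add_zero]
      · exact hflag n1 fun s i v hv => by
          rw [k3]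
          exact Submodule.tmul_mem_baseChange_of_mem _ (hn s i v hv)
      · intro l k
        show n1.d (algebraMap L L1 (𝒟.Ω l k)) = 0
        rw [k1, hnΩ, map_zero]
      · refine hcrit n1 _ fun v hv => ?_
        have e1 : n1.δ (G (1 ⊗ₜ[L] v)) = Th L1 ng (1 ⊗ₜ[L] v) + G (1 ⊗ₜ[L] n.δ v) := by
          rw [hG, Th_one_tmul, Th_one_tmul, Th_one_tmul, k2, ← map_add]
          congr 1
          funext k
          rw [Pi.add_apply, coeff_mk, brk_apply]
          abel
        have e2 : Th L1 ((x.g * PowerSeries.C A + ng) * St (adj g.form) x.g) (G (1 ⊗ₜ[L] v)) =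
            G (1 ⊗ₜ[L] A v) + Th L1 ng (1 ⊗ₜ[L] v) := by
          rw [Th_mul, Module.End.mul_apply, ← hG', hG'G, Th_add, LinearMap.add_apply, Th_mul,
            Module.End.mul_apply, ← hG, Th_one_tmul (PowerSeries.C A)]
          congr 2
          rw [← sg_delta]
          congr 1
          funext k
          rw [coeff_C]
          split_ifs <;> rfl
        rw [e1, e2]
        have e3 := hle _ (hnS v hv)
        rw [tmul_sub, map_sub] at e3
        convert e3 using 1
        abel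
    have claimB : ∃ a : PowerSeries (End L V), coeff 0 a = A0 ∧
        Th L1 a ∈ real0 (bcC 𝒟 L1) ((S.baseChange L1).map G) := by
      obtain ⟨n1, k1, k2⟩ := exists_dt (L1 := L1) 𝒟.q
      let dg : PowerSeries (End L V) := PowerSeries.mk fun k => ((k : L) + 1) • coeff (k + 1) x.g
      refine ⟨dg * St (adj g.form) x.g, ?_, n1, ?_, ?_, ?_⟩
      · rw [c0mul, coeff_St, hcoef0, adj_one, mul_one, coeff_mk, Nat.cast_zero, zero_add,
          one_smul, zero_add, hx1]
      · refine hflag n1 fun s i v hv => ?_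
        rw [← sg_delta, k2]
        have : (fun k : ℕ => ((k : L) + 1) • if k + 1 = 0 then v else (0 : V)) = 0 := by
          funext k
          rw [if_neg (Nat.succ_ne_zero k), smul_zero]
          rfl
        rw [this, map_zero]
        exact zero_mem _
      · intro l k
        exact k1 _
      · refine hcrit n1 _ fun v hv => ?_
        have e1 : n1.δ (G (1 ⊗ₜ[L] v)) = Th L1 dg (1 ⊗ₜ[L] v) := by
          rw [hG, Th_one_tmul, Th_one_tmul, k2]
          congr 1
          funext k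
          rw [coeff_mk]
          rfl
        have e2 : Th L1 (dg * St (adj g.form) x.g) (G (1 ⊗ₜ[L] v)) =
            Th L1 dg (1 ⊗ₜ[L] v) := by
          rw [Th_mul, Module.End.mul_apply, ← hG', hG'G]
        rw [e1, e2, sub_self]
        exact zero_mem _
    have h3 : ∀ A ∈ real0 𝒟 S ⊔ Submodule.span L {A0}, ∃ a : PowerSeries (End L V),
        coeff 0 a = A ∧ Th L1 a ∈ real0 (bcC 𝒟 L1) ((S.baseChange L1).map G) := by
      intro A hA
      obtain ⟨A', hA', A'', hA'', rfl⟩ := Submodule.mem_sup.mp hA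
      obtain ⟨c, rfl⟩ := Submodule.mem_span_singleton.mp hA''
      obtain ⟨a, ha, ha'⟩ := claimA A' hA'
      obtain ⟨b, hb, hb'⟩ := claimB
      refine ⟨a + scl (PowerSeries.C c) * b, ?_, ?_⟩
      · rw [map_add, c0mul, ha, hb, scl, coeff_map, coeff_zero_C, Algebra.smul_def]
      · rw [Th_add, Th_mul, Th_scl, smul_mul_assoc, one_mul]
        exact add_mem ha' (Submodule.smul_mem _ _ hb')
    have h4 := finrank_le_Th h3
    refine lt_of_lt_of_le ?_ h4
    refine Submodule.finrank_lt_finrank_of_lt ?_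
    refine lt_of_le_of_ne le_sup_left ?_
    intro h5
    apply hA0
    rw [h5]
    exact Submodule.mem_sup_right (Submodule.mem_span_singleton_self A0)

end step

end Vale.Agent.P182.H62
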