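import Vale.Agent.P182.H62.Gen3
import Vale.Agent.P182.H258.RdIso

/-!
# Transport of generic subspaces; the tower isomorphism
-/

namespace Vale.Agent.P182.H62

open Module Matrix TensorProduct Vale.Agent.P182.H533 Vale.Agent.P182.B1 Vale.Agent.P182.H258

universe u v v' w

section transport

variable {L : Type u} {V V' : Type v} {J : Type w} [Field L] [AddCommGroup V] [Module L V]
  [AddCommGroup V'] [Module L V'] {𝒟 : Cfg L V J} {𝒟' : Cfg L V' J}

theorem ciso_perp (i : CIso 𝒟 𝒟') (W : Submodule L V) :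
    perp 𝒟'.q (W.map i.e.toLinearMap) = (perp 𝒟.q W).map i.e.toLinearMap := by
  ext x
  constructor
  · intro h
    refine ⟨i.e.symm x, ?_, i.e.apply_symm_apply x⟩
    rw [SetLike.mem_coe, ← ciso_mem_perp i, LinearEquiv.apply_symm_apply]
    exact h
  · rintro ⟨y, hy, rfl⟩
    exact (ciso_mem_perp i W y).mpr hy

theorem ciso_iso (i : CIso 𝒟 𝒟') {S : Submodule L V} (hS : 𝒟.Iso S) :
    𝒟'.Iso (S.map i.e.toLinearMap) := by
  rw [Cfg.Iso, ciso_perp]
  exact Submodule.map_mono hS

theorem ciso_tan (i : CIso 𝒟 𝒟') {S : Submodule L V} {A : End L V'}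
    (h : Tan 𝒟' (S.map i.e.toLinearMap) A) :
    Tan 𝒟 S (i.e.symm.toLinearMap ∘ₗ A ∘ₗ i.e.toLinearMap) := by
  have hsk : ∀ {B : End L V'}, IsSk 𝒟'.q B →
      IsSk 𝒟.q (i.e.symm.toLinearMap ∘ₗ B ∘ₗ i.e.toLinearMap) := by
    intro B hB u v
    show 𝒟.q (i.e.symm (B (i.e u))) v = - 𝒟.q u (i.e.symm (B (i.e v)))
    have e1 := hB (i.e u) (i.e v)
    rw [← ciso_q_symm i, ← ciso_q_symm i, LinearEquiv.symm_apply_apply,
      LinearEquiv.symm_apply_apply] at e1
    exact e1
  refine ⟨hsk h.1, fun s => ?_⟩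
  obtain ⟨B, h1, h2, h3⟩ := h.2 s
  refine ⟨_, hsk h1, fun k v hv => ?_, fun v hv => ?_⟩
  · show i.e.symm (B (i.e v)) ∈ 𝒟.F s k
    rw [ciso_mem_F' i]
    exact h2 k _ ((ciso_mem_F i s k v).mpr hv)
  · show i.e.symm (A (i.e v)) - i.e.symm (B (i.e v)) ∈ S
    obtain ⟨w, hw, hw'⟩ := h3 (i.e v) ⟨v, hv, rfl⟩
    rw [← map_sub, ← hw']
    show i.e.symm (i.e w) ∈ S
    rw [LinearEquiv.symm_apply_apply]
    exact hw

theorem ciso_gen (i : CIso 𝒟 𝒟') {S : Submodule L V} (h : Gen 𝒟 S) :
    Gen 𝒟' (S.map i.e.toLinearMap) := by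
  intro A hA
  obtain ⟨n, h1, h2, h3⟩ := h _ (ciso_tan i hA)
  refine ⟨ciso_conn i n, fun s k v hv => ?_, fun l k => ?_, ?_⟩
  · rw [ciso_conn_δ, ciso_mem_F]
    exact h1 s k _ ((ciso_mem_F' i s k v).mpr hv)
  · show n.d (𝒟'.Ω l k) = 0
    rw [i.Ω]
    exact h2 l k
  · rintro _ ⟨v, hv, rfl⟩
    refine ⟨_, h3 v hv, ?_⟩
    rw [ciso_conn_δ]
    show i.e (n.δ v - i.e.symm (A (i.e v))) = i.e (n.δ (i.e.symm (i.e v))) - A (i.e v)
    rw [LinearEquiv.symm_apply_apply, map_sub, LinearEquiv.apply_symm_apply]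

end transport

section pos

variable {L : Type u} {V : Type v} {J : Type w} [Field L] [AddCommGroup V] [Module L V]

/-- the position of a subspace is the same -/
structure SamePos {L' : Type u} {V' : Type v'} [Field L'] [AddCommGroup V'] [Module L' V']
    (𝒟 : Cfg L V J) (S : Submodule L V) (𝒟' : Cfg L' V' J) (S' : Submodule L' V') : Prop where
  dim : finrank L' S' = finrank L S
  F : ∀ s i, finrank L' ↥(S' ⊓ 𝒟'.F s i) = finrank L ↥(S ⊓ 𝒟.F s i)
  perp : ∀ s i, finrank L' ↥(S' ⊓ Vale.Agent.P182.H533.perp 𝒟'.q (𝒟'.F s i)) =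
    finrank L ↥(S ⊓ Vale.Agent.P182.H533.perp 𝒟.q (𝒟.F s i))

variable {𝒟 : Cfg L V J} {S : Submodule L V}

theorem SamePos.th {L' : Type u} {V' : Type v'} [Field L'] [AddCommGroup V'] [Module L' V']
    {𝒟' : Cfg L' V' J} {S' : Submodule L' V'} (h : SamePos 𝒟 S 𝒟' S') (s i) :
    𝒟'.th s i S' = 𝒟.th s i S := by
  rw [Cfg.th, Cfg.th, h.dim, h.F, h.perp]

theorem SamePos.theta [Fintype J] {L' : Type u} {V' : Type v'} [Field L'] [AddCommGroup V']
    [Module L' V'] {𝒟' : Cfg L' V' J} {S' : Submodule L' V'} (h : SamePos 𝒟 S 𝒟' S')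
    (ha : 𝒟'.arm = 𝒟.arm) (hc : 𝒟'.c = 𝒟.c) : 𝒟'.theta S' = 𝒟.theta S := by
  rw [Cfg.theta, Cfg.theta, ha, hc]
  exact Finset.sum_congr rfl fun l _ => h.th _ _

theorem SamePos.trans {L' L'' : Type u} {V' : Type v'} {V'' : Type v'} [Field L']
    [AddCommGroup V'] [Module L' V'] [Field L''] [AddCommGroup V''] [Module L'' V'']
    {𝒟' : Cfg L' V' J} {S' : Submodule L' V'} {𝒟'' : Cfg L'' V'' J} {S'' : Submodule L'' V''}
    (h : SamePos 𝒟 S 𝒟' S') (h' : SamePos 𝒟' S' 𝒟'' S'') : SamePos 𝒟 S 𝒟'' S'' :=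
  ⟨h'.dim.trans h.dim, fun s i => (h'.F s i).trans (h.F s i),
    fun s i => (h'.perp s i).trans (h.perp s i)⟩

theorem samePos_ciso {V' : Type v} [AddCommGroup V'] [Module L V'] {𝒟' : Cfg L V' J}
    (i : CIso 𝒟 𝒟') : SamePos 𝒟 S 𝒟' (S.map i.e.toLinearMap) := by
  refine ⟨LinearEquiv.finrank_map_eq _ _, fun s k => ?_, fun s k => ?_⟩
  · rw [← i.F, ← Submodule.map_inf _ i.e.injective]
    exact LinearEquiv.finrank_map_eq _ _
  · rw [← i.F, ciso_perp, ← Submodule.map_inf _ i.e.injective]
    exact LinearEquiv.finrank_map_eq _ _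

theorem samePos_bc {L' : Type u} [Field L'] [Algebra L L'] :
    SamePos 𝒟 S (bcC 𝒟 L') (S.baseChange L') := by
  refine ⟨finrank_bc _ _, fun s k => ?_, fun s k => ?_⟩
  · show finrank L' ↥(S.baseChange L' ⊓ (𝒟.F s k).baseChange L') = _
    rw [← bc_inf, finrank_bc]
  · rw [perp_bcC, ← bc_inf, finrank_bc]

end pos

section tower

variable {L : Type u} {V : Type v} {J : Type w} [Field L] [AddCommGroup V] [Module L V]

/-- a base change along the identity -/
noncomputable def cIsoSelf (𝒟 : Cfg L V J) : CIso (bcC 𝒟 L) 𝒟 where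
  e := TensorProduct.lid L V
  q x y := by
    induction x with
    | zero => simp
    | tmul a u =>
      induction y with
      | zero => simp
      | tmul b v =>
        show 𝒟.q (TensorProduct.lid L V (a ⊗ₜ u)) (TensorProduct.lid L V (b ⊗ₜ v)) =
          qbc L 𝒟.q (a ⊗ₜ u) (b ⊗ₜ v)
        rw [qbc_tmul, TensorProduct.lid_tmul, TensorProduct.lid_tmul, map_smul, map_smul,
          LinearMap.smul_apply, smul_eq_mul, smul_eq_mul]
        show b * (a * 𝒟.q u v) = a * b * 𝒟.q u v
        ring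
      | add y z hy hz => rw [map_add, map_add, hy, hz, map_add]
    | add x z hx hz =>
      rw [map_add, map_add, LinearMap.add_apply, hx, hz, map_add, LinearMap.add_apply]
  F s i := by
    show ((𝒟.F s i).baseChange L).map _ = 𝒟.F s i
    ext x
    constructor
    · rintro ⟨y, hy, rfl⟩
      rw [SetLike.mem_coe, Submodule.baseChange_eq_span] at hy
      induction hy using Submodule.span_induction with
      | mem y hy =>
        obtain ⟨v, hv, rfl⟩ := hy
        show TensorProduct.lid L V (1 ⊗ₜ v) ∈ 𝒟.F s i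
        rw [TensorProduct.lid_tmul, one_smul]
        exact hv
      | zero => rw [map_zero]; exact zero_mem _
      | add y z _ _ hy hz => rw [map_add]; exact add_mem hy hz
      | smul a y _ hy => rw [map_smul]; exact Submodule.smul_mem _ _ hy
    · intro hx
      refine ⟨1 ⊗ₜ x, Submodule.tmul_mem_baseChange_of_mem _ hx, ?_⟩
      show TensorProduct.lid L V (1 ⊗ₜ x) = x
      rw [TensorProduct.lid_tmul, one_smul]
  arm := rfl
  c := rfl
  Ω := by
    ext l k
    rfl

variable {L' L'' : Type u} [Field L'] [Field L''] [Algebra L L'] [Algebra L' L'']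
  [Algebra L L''] [IsScalarTower L L' L'']

/-- the tower map -/
noncomputable def towE (L : Type u) (L' L'' : Type u) (V : Type v) [Field L] [Field L']
    [Field L''] [Algebra L L'] [Algebra L' L''] [Algebra L L''] [IsScalarTower L L' L'']
    [AddCommGroup V] [Module L V] : L'' ⊗[L'] (L' ⊗[L] V) ≃ₗ[L''] L'' ⊗[L] V :=
  TensorProduct.AlgebraTensorModule.cancelBaseChange L L' L'' L'' V

theorem towE_tmul (a : L'') (b : L') (v : V) :
    towE L L' L'' V (a ⊗ₜ (b ⊗ₜ v)) = (algebraMap L' L'' b * a) ⊗ₜ v := by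
  rw [towE, TensorProduct.AlgebraTensorModule.cancelBaseChange_tmul, Algebra.smul_def]

theorem towE_bc (F : Submodule L V) :
    ((F.baseChange L').baseChange L'').map (towE L L' L'' V).toLinearMap =
      F.baseChange L'' := by
  apply le_antisymm
  · rintro _ ⟨y, hy, rfl⟩
    rw [SetLike.mem_coe, Submodule.baseChange_eq_span] at hy
    induction hy using Submodule.span_induction with
    | mem y hy =>
      obtain ⟨z, hz, rfl⟩ := hy
      rw [SetLike.mem_coe, Submodule.baseChange_eq_span] at hz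
      show towE L L' L'' V (1 ⊗ₜ z) ∈ _
      induction hz using Submodule.span_induction with
      | mem z hz =>
        obtain ⟨v, hv, rfl⟩ := hz
        rw [TensorProduct.mk_apply, towE_tmul]
        exact Submodule.tmul_mem_baseChange_of_mem _ hv
      | zero => rw [tmul_zero, map_zero]; exact zero_mem _
      | add y z _ _ hy hz => rw [tmul_add, map_add]; exact add_mem hy hz
      | smul a y _ hy =>
        have e1 : (1 : L'') ⊗ₜ[L'] (a • y) = (algebraMap L' L'' a) • ((1 : L'') ⊗ₜ[L'] y) := by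
          rw [← smul_tmul, smul_tmul', Algebra.smul_def, smul_eq_mul]
        rw [e1, map_smul]
        exact Submodule.smul_mem _ _ hy
    | zero => rw [map_zero]; exact zero_mem _
    | add y z _ _ hy hz => rw [map_add]; exact add_mem hy hz
    | smul a y _ hy => rw [map_smul]; exact Submodule.smul_mem _ _ hy
  · rw [Submodule.baseChange_eq_span (p := F) (A := L''), Submodule.span_le]
    rintro _ ⟨v, hv, rfl⟩
    refine ⟨1 ⊗ₜ (1 ⊗ₜ v), Submodule.tmul_mem_baseChange_of_mem _
      (Submodule.tmul_mem_baseChange_of_mem _ hv), ?_⟩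
    show towE L L' L'' V (1 ⊗ₜ (1 ⊗ₜ v)) = _
    rw [towE_tmul, map_one, one_mul]
    rfl

variable (L' L'') in
/-- **Base change in towers.** -/
noncomputable def cIsoTower (𝒟 : Cfg L V J) : CIso (bcC (bcC 𝒟 L') L'') (bcC 𝒟 L'') where
  e := towE L L' L'' V
  q x y := by
    show qbc L'' 𝒟.q (towE L L' L'' V x) (towE L L' L'' V y) = qbc L'' (qbc L' 𝒟.q) x y
    induction x with
    | zero => simp
    | add x z hx hz =>
      rw [map_add, map_add, LinearMap.add_apply, hx, hz, map_add, LinearMap.add_apply]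
    | tmul a u =>
      induction y with
      | zero => simp
      | add y z hy hz => rw [map_add, map_add, hy, hz, map_add]
      | tmul b v =>
        rw [qbc_tmul]
        induction u with
        | zero => simp
        | add u u' hu hu' =>
          rw [tmul_add, map_add, map_add, LinearMap.add_apply, hu, hu', map_add,
            LinearMap.add_apply, map_add, mul_add]
        | tmul a' u =>
          induction v with
          | zero => simp
          | add v v' hv hv' =>
            rw [tmul_add, map_add, map_add, hv, hv', map_add, map_add, mul_add]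
          | tmul b' v =>
            rw [towE_tmul, towE_tmul, qbc_tmul, qbc_tmul, map_mul, map_mul,
              ← IsScalarTower.algebraMap_apply L L' L'']
            ring
  F s i := towE_bc _
  arm := rfl
  c := rfl
  Ω := by
    ext l k
    show algebraMap L L'' _ = algebraMap L' L'' (algebraMap L L' _)
    rw [← IsScalarTower.algebraMap_apply L L' L'']

end tower

end Vale.Agent.P182.H62
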