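import Vale.Agent.P182.H62.SubQuo
import Vale.Agent.P182.H664.Lang
import Vale.Agent.P182.H887.Obj

/-!
# The configuration induced on `S^⊥ / S`
-/

namespace Vale.Agent.P182.H62

open Module Matrix Vale.Agent.P182.H533 Vale.Agent.P182.B1

universe u v w

variable {L : Type u} {V : Type v} {J : Type w} [Field L] [AddCommGroup V] [Module L V]
  (𝒟 : Cfg L V J) (g : 𝒟.Good) (S : Submodule L V)

/-- the configuration on `S^⊥ / S` -/
def sq : Cfg L (SQ 𝒟.q S) J where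
  q := qSQ S g.form
  F := fun s i => SQim S (𝒟.F s i)
  arm := 𝒟.arm
  c := 𝒟.c
  Ω := 𝒟.Ω

theorem sq_q : (sq 𝒟 g S).q = qSQ S g.form := rfl
theorem sq_F (s i) : (sq 𝒟 g S).F s i = SQim S (𝒟.F s i) := rfl
theorem sq_arm : (sq 𝒟 g S).arm = 𝒟.arm := rfl
theorem sq_c : (sq 𝒟 g S).c = 𝒟.c := rfl
theorem sq_Ω : (sq 𝒟 g S).Ω = 𝒟.Ω := rfl
theorem sq_C (l) : (sq 𝒟 g S).C l = SQim S (𝒟.C l) := rfl

variable [FiniteDimensional L V] {𝒟} {S}

theorem good_sq (hS : 𝒟.Iso S) : (sq 𝒟 g S).Good where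
  form := isForm_qSQ S g.form
  zero := fun s => by rw [sq_F, g.zero, SQim_bot]
  mono := fun s i j h => SQim_mono S (g.mono s h)
  iso := fun s i => by
    rw [sq_F, sq_q, perp_SQim S g.form hS]
    exact SQim_mono S (g.iso s i)
  step := fun s i => finrank_SQim_step S hS (g.mono s (Nat.le_succ i)) (g.step s i)
  skew := g.skew

theorem perp_sq_F (hS : 𝒟.Iso S) (s i) :
    perp (sq 𝒟 g S).q ((sq 𝒟 g S).F s i) = SQim S (perp 𝒟.q (𝒟.F s i)) :=
  perp_SQim S g.form hS _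

theorem perp_sq_C (hS : 𝒟.Iso S) (l) :
    perp (sq 𝒟 g S).q ((sq 𝒟 g S).C l) = SQim S (perp 𝒟.q (𝒟.C l)) :=
  perp_SQim S g.form hS _

theorem pairing_sq (hS : 𝒟.Iso S) {σ : J → J} (hP : 𝒟.Pairing σ) :
    (sq 𝒟 g S).Pairing σ where
  invol := hP.invol
  ne := hP.ne
  same := hP.same
  cross := fun l h => by
    have h0 := hP.cross l h
    have h1 := finrank_SQim (q := 𝒟.q) S hS (𝒟.C l)
    have h2 := finrank_perp g.form (perp 𝒟.q (𝒟.C l) ⊔ S)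
    rw [perp_sup, perp_perp g.form] at h2
    have h3 := Submodule.finrank_sup_add_finrank_inf_eq (perp 𝒟.q (𝒟.C l)) S
    have h4 : finrank L ↥(𝒟.C l ⊓ S) ≤ finrank L ↥(perp 𝒟.q (𝒟.C l) ⊓ S) :=
      Submodule.finrank_mono (inf_le_inf_right _ (g.iso _ _))
    have h5 := finrank_perp g.form (𝒟.C l)
    have h6 := finrank_SQ S g.form hS
    rw [sq_C]
    omega
  one := hP.one

theorem paired_sq (hS : 𝒟.Iso S) (hP : 𝒟.Paired) : (sq 𝒟 g S).Paired := by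
  obtain ⟨σ, h⟩ := hP
  exact ⟨σ, pairing_sq g hS h⟩

omit [FiniteDimensional L V] in
/-- isotropic subspaces of the subquotient -/
theorem iso_SQpre (hS : 𝒟.Iso S) {T : Submodule L (SQ 𝒟.q S)} (hT : (sq 𝒟 g S).Iso T) :
    𝒟.Iso (SQpre S T) := by
  rw [Cfg.Iso, ← SQpre_perp S g.form hS]
  exact SQpre_mono S hT

theorem th_aux (hS : 𝒟.Iso S) (T : Submodule L (SQ 𝒟.q S)) (W : Submodule L V) :
    (finrank L ↥(SQpre S T ⊓ W) : ℤ) = finrank L ↥(S ⊓ W) + finrank L ↥(T ⊓ SQim S W) := by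
  have h1 := finrank_SQim S hS (SQpre S T ⊓ W)
  have h2 : SQpre S T ⊓ W ⊓ S = S ⊓ W := by
    rw [inf_right_comm, inf_eq_right.mpr (le_SQpre S hS T)]
  have h3 : SQpre S T ⊓ W ⊓ perp 𝒟.q S = SQpre S T ⊓ W := by
    rw [inf_eq_left]
    exact inf_le_left.trans (SQpre_le S T)
  rw [h2, h3, ← inf_SQim] at h1
  rw [← h1]
  push_cast
  ring

theorem th_sq (hS : 𝒟.Iso S) (s i) (T : Submodule L (SQ 𝒟.q S)) :
    𝒟.th s i (SQpre S T) = 𝒟.th s i S + (sq 𝒟 g S).th s i T := by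
  rw [Cfg.th, Cfg.th, Cfg.th, perp_sq_F g hS, sq_F, th_aux hS, th_aux hS, finrank_SQpre S hS]
  push_cast
  ring

variable [Fintype J]

theorem theta_sq (hS : 𝒟.Iso S) (T : Submodule L (SQ 𝒟.q S)) :
    𝒟.theta (SQpre S T) = 𝒟.theta S + (sq 𝒟 g S).theta T := by
  rw [Cfg.theta, Cfg.theta, Cfg.theta, ← Finset.sum_add_distrib]
  exact Finset.sum_congr rfl fun l _ => th_sq g hS _ _ _

omit [FiniteDimensional L V] in
theorem om_eq (t : J → V) (l : J) : 𝒟.om t l = H887.omM 𝒟.Ω t l := by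
  rw [H887.omM_apply, Cfg.om]

/-- the families of subspaces on `S` -/
def objA (𝒟 : Cfg L V J) (S : Submodule L V) (l : J) : Submodule L ↥S := (𝒟.C l).comap S.subtype

/-- the families of subspaces on `S` -/
def objB (𝒟 : Cfg L V J) (S : Submodule L V) (l : J) : Submodule L ↥S :=
  (perp 𝒟.q (𝒟.C l)).comap S.subtype

omit [FiniteDimensional L V] in
/-- the numerical function of the object `S` -/
theorem theta_obj (T : Submodule L ↥S) :
    H887.theta (objA 𝒟 S) (objB 𝒟 S) T = 𝒟.theta (T.map S.subtype) := by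
  rw [H887.theta, Cfg.theta]
  refine Finset.sum_congr rfl fun l _ => ?_
  have key : ∀ W : Submodule L V, finrank L ↥(T.map S.subtype ⊓ W) =
      finrank L ↥(W.comap S.subtype ⊓ T) := by
    intro W
    have h : (W.comap S.subtype ⊓ T).map S.subtype = T.map S.subtype ⊓ W := by
      ext v
      constructor
      · rintro ⟨x, ⟨h1, h2⟩, rfl⟩
        exact ⟨⟨x, h2, rfl⟩, h1⟩
      · rintro ⟨⟨x, h2, rfl⟩, h1⟩
        exact ⟨x, ⟨h1, h2⟩, rfl⟩
    rw [← Submodule.finrank_map_subtype_eq S (W.comap S.subtype ⊓ T), h]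
  rw [Cfg.th, objA, objB, key, key, Submodule.finrank_map_subtype_eq]
  rfl

omit [FiniteDimensional L V] in
theorem theta_obj_top : H887.theta (objA 𝒟 S) (objB 𝒟 S) ⊤ = 𝒟.theta S := by
  rw [theta_obj, Submodule.map_top, Submodule.range_subtype]

include g

omit [FiniteDimensional L V] in
/-- if `Ext(N, S) = 0` then `K ⊆ (S^⊥)^J` -/
theorem mem_perp_of_ext (hE : H887.HomD 𝒟.Ω (objA 𝒟 S) (objB 𝒟 S) = ⊥) {t : J → V}
    (ht : t ∈ 𝒟.K) (l : J) : t l ∈ perp 𝒟.q S := by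
  let y : J → Dual L ↥S := fun l => (𝒟.q (t l)).comp S.subtype
  have hy : y ∈ H887.HomD 𝒟.Ω (objA 𝒟 S) (objB 𝒟 S) := by
    rw [H887.mem_HomD]
    refine ⟨fun l v hv => ?_, fun l v hv => ?_⟩
    · show 𝒟.q (t l) v = 0
      rw [g.form.symm]
      exact hv _ (ht.1 l)
    · rw [H887.om_dual_apply]
      have h1 : ∑ k, 𝒟.Ω l k * y k v = 𝒟.q (𝒟.om t l) v := by
        rw [Cfg.om, map_sum, LinearMap.sum_apply]
        refine Finset.sum_congr rfl fun k _ => ?_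
        rw [map_smul, LinearMap.smul_apply, smul_eq_mul]
        rfl
      rw [h1]
      exact ht.2 l _ hv
  rw [hE] at hy
  have h0 : y = 0 := (Submodule.mem_bot L).mp hy
  intro s hs
  exact LinearMap.congr_fun (congrFun h0 l) ⟨s, hs⟩

/-- the map `K(V) → K(S^⊥ / S)` -/
def toSQ (hE : H887.HomD 𝒟.Ω (objA 𝒟 S) (objB 𝒟 S) = ⊥) : 𝒟.K →ₗ[L] (J → SQ 𝒟.q S) where
  toFun := fun t l => SQmk S ⟨t.1 l, mem_perp_of_ext g hE t.2 l⟩
  map_add' := fun a b => by funext l; exact map_add (SQmk S) ⟨a.1 l, _⟩ ⟨b.1 l, _⟩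
  map_smul' := fun x a => by funext l; exact map_smul (SQmk S) x ⟨a.1 l, _⟩

theorem toSQ_mem (hS : 𝒟.Iso S) (hE : H887.HomD 𝒟.Ω (objA 𝒟 S) (objB 𝒟 S) = ⊥) (t : 𝒟.K) :
    toSQ g hE t ∈ (sq 𝒟 g S).K := by
  rw [Cfg.mem_K]
  refine ⟨fun l => SQmk_mem_SQim S (t.2.1 l), fun l => ?_⟩
  rw [perp_sq_C g hS]
  have h1 : 𝒟.om t.1 l ∈ perp 𝒟.q S :=
    Submodule.sum_mem _ fun k _ => Submodule.smul_mem _ _ (mem_perp_of_ext g hE t.2 k)
  have h2 : (sq 𝒟 g S).om (toSQ g hE t) l = SQmk S ⟨𝒟.om t.1 l, h1⟩ := by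
    have h3 : (⟨𝒟.om t.1 l, h1⟩ : ↥(perp 𝒟.q S)) =
        ∑ k, 𝒟.Ω l k • ⟨t.1 k, mem_perp_of_ext g hE t.2 k⟩ := by
      apply Subtype.ext
      rw [Submodule.coe_sum]
      rfl
    rw [h3, map_sum, Cfg.om]
    refine Finset.sum_congr rfl fun k _ => ?_
    rw [map_smul]
    rfl
  rw [h2]
  exact SQmk_mem_SQim S (t.2.2 l)

/-- **`T` for `S^⊥ / S` implies `T`**, if `Ext(N, S) = 0`. -/
theorem finrank_K_le (hS : 𝒟.Iso S) (hE : H887.HomD 𝒟.Ω (objA 𝒟 S) (objB 𝒟 S) = ⊥) :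
    (finrank L 𝒟.K : ℤ) ≤ 𝒟.theta S + finrank L (sq 𝒟 g S).K := by
  have h1 := LinearMap.finrank_range_add_finrank_ker (toSQ g hE)
  have h2 : finrank L (LinearMap.range (toSQ g hE)) ≤ finrank L (sq 𝒟 g S).K := by
    refine Submodule.finrank_mono ?_
    rintro _ ⟨t, rfl⟩
    exact toSQ_mem g hS hE t
  have h3 : finrank L (LinearMap.ker (toSQ g hE)) ≤
      finrank L (H887.HomN 𝒟.Ω (objA 𝒟 S) (objB 𝒟 S)) := by
    have hk : ∀ t ∈ LinearMap.ker (toSQ g hE), ∀ l, t.1 l ∈ S := by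
      intro t ht l
      exact (SQmk_eq_zero S).mp (congrFun (LinearMap.mem_ker.mp ht) l)
    let f : LinearMap.ker (toSQ g hE) →ₗ[L] H887.HomN 𝒟.Ω (objA 𝒟 S) (objB 𝒟 S) :=
      { toFun := fun t => ⟨fun l => ⟨t.1.1 l, hk t.1 t.2 l⟩, by
          rw [H887.mem_HomN]
          refine ⟨fun l => t.1.2.1 l, fun l => ?_⟩
          have h4 := t.1.2.2 l
          rw [om_eq] at h4
          show S.subtype (H887.omM 𝒟.Ω (fun l => (⟨t.1.1 l, hk t.1 t.2 l⟩ : ↥S)) l) ∈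
            perp 𝒟.q (𝒟.C l)
          have h5 : S.subtype (H887.omM 𝒟.Ω (fun l => (⟨t.1.1 l, hk t.1 t.2 l⟩ : ↥S)) l) =
              H887.omM 𝒟.Ω t.1.1 l := by
            rw [H887.omM_apply, H887.omM_apply, map_sum]
            rfl
          rw [h5]
          exact h4⟩
        map_add' := fun a b => rfl
        map_smul' := fun x a => rfl }
    refine LinearMap.finrank_le_finrank_of_injective (f := f) ?_
    intro a b hab
    apply Subtype.ext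
    apply Subtype.ext
    funext l
    have h6 := congrArg (fun z => ((z : J → ↥S) l : V)) (congrArg Subtype.val hab)
    exact h6
  have hΩ : ∀ l k, 𝒟.Ω l k = - 𝒟.Ω k l := by
    intro l k
    have := congrFun (congrFun g.skew k) l
    exact this
  have h4 := H887.hom_sub_ext hΩ (objA 𝒟 S) (objB 𝒟 S)
  rw [hE, finrank_bot, theta_obj_top] at h4
  push_cast at h4
  have h5 : (finrank L (LinearMap.ker (toSQ g hE)) : ℤ) ≤
    finrank L (H887.HomN 𝒟.Ω (objA 𝒟 S) (objB 𝒟 S)) := by exact_mod_cast h3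
  have h6 : (finrank L (LinearMap.range (toSQ g hE)) : ℤ) ≤ finrank L (sq 𝒟 g S).K := by
    exact_mod_cast h2
  rw [← h1]
  push_cast
  linarith

/-- **`T` for `S^⊥ / S` implies `T`**, if `Ext(N, S) = 0`. -/
theorem T_of_sq (hS : 𝒟.Iso S) (hE : H887.HomD 𝒟.Ω (objA 𝒟 S) (objB 𝒟 S) = ⊥)
    (hT : (sq 𝒟 g S).T) : 𝒟.T := by
  obtain ⟨S', hS', h⟩ := hT
  refine ⟨SQpre S S', iso_SQpre g hS hS', ?_⟩
  rw [theta_sq g hS]
  have := finrank_K_le g hS hE
  linarith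

end Vale.Agent.P182.H62
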