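import Vale.Agent.P182.H62.TFrame
import Vale.Agent.P182.H664.Parity

/-!
# The parity of `K`, and `T` for semistable configurations of even degree
-/

namespace Vale.Agent.P182.H62

open Module Matrix TensorProduct Vale.Agent.P182.H533 Vale.Agent.P182.B1 Vale.Agent.P182.H258

universe u v w

/-- **Parity.** -/
theorem even_sum_add_K {L : Type u} {V : Type v} {J : Type w} [Field L] [AddCommGroup V]
    [Module L V] [FiniteDimensional L V] [Fintype J] {𝒟 : Cfg L V J} (g : 𝒟.Good)
    (h2 : (2 : L) ≠ 0) : Even (∑ l, finrank L (𝒟.C l) + finrank L 𝒟.K) := by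
  classical
  let E := Submodule.pi Set.univ 𝒟.C
  have hE : ∀ t : E, ∀ l, t.1 l ∈ 𝒟.C l := fun t l => (Submodule.mem_pi.mp t.2) l (Set.mem_univ _)
  let B : E →ₗ[L] E →ₗ[L] L := LinearMap.mk₂ L (fun t t' => ∑ l, 𝒟.q (𝒟.om t.1 l) (t'.1 l))
    (by
      intro a b t
      rw [← Finset.sum_add_distrib]
      refine Finset.sum_congr rfl fun l _ => ?_
      have : 𝒟.om (a + b : E).1 l = 𝒟.om a.1 l + 𝒟.om b.1 l := by
        simp only [Cfg.om, Submodule.coe_add, Pi.add_apply, smul_add, Finset.sum_add_distrib]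
      rw [this, map_add, LinearMap.add_apply])
    (by
      intro c a t
      rw [Finset.smul_sum]
      refine Finset.sum_congr rfl fun l _ => ?_
      have : 𝒟.om (c • a : E).1 l = c • 𝒟.om a.1 l := by
        simp only [Cfg.om, Submodule.coe_smul, Pi.smul_apply, Finset.smul_sum]
        exact Finset.sum_congr rfl fun k _ => smul_comm _ _ _
      rw [this, map_smul, LinearMap.smul_apply])
    (by
      intro a b t
      rw [← Finset.sum_add_distrib]
      refine Finset.sum_congr rfl fun l _ => ?_
      rw [Submodule.coe_add, Pi.add_apply, map_add])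
    (by
      intro c a t
      rw [Finset.smul_sum]
      refine Finset.sum_congr rfl fun l _ => ?_
      rw [Submodule.coe_smul, Pi.smul_apply, map_smul])
  have hBa : ∀ t t' : E, B t t' = ∑ l, 𝒟.q (𝒟.om t.1 l) (t'.1 l) := fun _ _ => rfl
  obtain ⟨n, hn, hr⟩ := even_rank h2 B fun t t' => Cfg.q_om _ _ g
  have h3 : finrank L (LinearMap.ker B) = finrank L 𝒟.K := by
    have h4 : (LinearMap.ker B).map E.subtype = 𝒟.K := by
      ext t
      constructor
      · rintro ⟨t, ht, rfl⟩
        refine ⟨hE t, fun l v hv => ?_⟩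
        have h5 := LinearMap.congr_fun (LinearMap.mem_ker.mp ht) ⟨Pi.single l v, by
          rw [Submodule.mem_pi]
          intro k _
          by_cases hk : k = l
          · subst hk; rwa [Pi.single_eq_same]
          · rw [Pi.single_eq_of_ne hk]; exact Submodule.zero_mem _⟩
        rw [hBa, LinearMap.zero_apply, Finset.sum_eq_single l] at h5
        · simpa using h5
        · intro k _ hk
          show 𝒟.q (𝒟.om t.1 k) ((Pi.single l v : J → V) k) = 0
          rw [Pi.single_eq_of_ne hk, map_zero]
        · intro h; exact absurd (Finset.mem_univ _) h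
      · intro ht
        refine ⟨⟨t, Submodule.mem_pi.mpr fun l _ => ht.1 l⟩, ?_, rfl⟩
        show _ ∈ LinearMap.ker B
        rw [LinearMap.mem_ker]
        ext t'
        rw [hBa, LinearMap.zero_apply]
        exact Finset.sum_eq_zero fun l _ => ht.2 l _ (hE t' l)
    rw [← h4, Submodule.finrank_map_subtype_eq]
  have h4 : finrank L E = ∑ l, finrank L (𝒟.C l) := H887.finrank_pi _
  obtain ⟨m, hm⟩ := hn
  exact ⟨m + finrank L 𝒟.K, by omega⟩

/-- **`T` for semistable configurations of even degree**: the kernel is zero. -/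
theorem K_eq_bot_of_even {J : Type w} [Fintype J] [DecidableEq J] {L V : Type u} [Field L]
    [CharZero L] [AddCommGroup V] [Module L V] [FiniteDimensional L V] (hyp : HypT.{u, w} J)
    (𝒟 : Cfg L V J) (g : 𝒟.Good) (hV : 𝒟.Versal) (hs : USemi 𝒟)
    (he : Even (∑ l, finrank L (𝒟.C l))) : 𝒟.K = ⊥ := by
  have h1 := finrank_K_le_one hyp 𝒟 g hV hs
  have h2 := even_sum_add_K g (two_ne_zero (α := L))
  rw [← Submodule.finrank_eq_zero (S := 𝒟.K)]
  have h3 : Even (finrank L 𝒟.K) := (Nat.even_add.mp h2).mp he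
  obtain ⟨m, hm⟩ := h3
  omega

end Vale.Agent.P182.H62
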