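import Vale.Agent.P182.H62.SubQuo

/-!
# Lifting skew endomorphisms from `S` and `S^⊥ / S`
-/

namespace Vale.Agent.P182.H62

open Module Vale.Agent.P182.H533

variable {L V : Type*} [Field L] [AddCommGroup V] [Module L V] [FiniteDimensional L V]
  {q : V →ₗ[L] V →ₗ[L] L} (S : Submodule L V)

theorem exists_dual_lift (hq : IsForm q) :
    ∃ ρ : Dual L ↥S →ₗ[L] V, ∀ f : Dual L ↥S, ∀ s : ↥S, q (ρ f) s = f s := by
  have h1 : Function.Surjective (S.dualRestrict ∘ₗ hq.eqv.toLinearMap) := by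
    rw [LinearMap.coe_comp]
    exact (Subspace.dualRestrict_surjective).comp hq.eqv.surjective
  obtain ⟨ρ, hρ⟩ := LinearMap.exists_rightInverse_of_surjective _ (LinearMap.range_eq_top.mpr h1)
  exact ⟨ρ, fun f s => LinearMap.congr_fun (LinearMap.congr_fun hρ f) s⟩

/-- **The Witt lift.** -/
theorem exists_skew (hq : IsForm q) (hS : S ≤ perp q S) (h2 : (2 : L) ≠ 0) (r : End L ↥S)
    (m : End L (SQ q S)) (hm : IsSk (qSQ S hq) m) :
    ∃ Y : End L V, IsSk q Y ∧ (∀ s : ↥S, Y s = r s) ∧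
      ∀ v : ↥(perp q S), ∃ h : Y v ∈ perp q S, SQmk S ⟨Y v, h⟩ = m (SQmk S v) := by
  classical
  -- projections
  obtain ⟨a, ha⟩ := (perp q S).subtype.exists_leftInverse_of_injective (Submodule.ker_subtype _)
  obtain ⟨b0, hb0⟩ := S.subtype.exists_leftInverse_of_injective (Submodule.ker_subtype _)
  obtain ⟨σ, hσ⟩ := LinearMap.exists_rightInverse_of_surjective (SQmk (q := q) S)
    (LinearMap.range_eq_top.mpr (SQmk_surjective S))
  obtain ⟨ρ, hρ⟩ := exists_dual_lift S hq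
  have ha' : ∀ v : ↥(perp q S), a v = v := fun v => LinearMap.congr_fun ha v
  have hb' : ∀ s : ↥S, b0 s = s := fun s => LinearMap.congr_fun hb0 s
  have hσ' : ∀ x, SQmk S (σ x) = x := fun x => LinearMap.congr_fun hσ x
  -- the endomorphism of `S^⊥`
  let ι : ↥S →ₗ[L] ↥(perp q S) := Submodule.inclusion hS
  let Y1 : End L ↥(perp q S) := ι ∘ₗ r ∘ₗ b0 ∘ₗ (perp q S).subtype + σ ∘ₗ m ∘ₗ SQmk S
  have hY1 : ∀ v, SQmk S (Y1 v) = m (SQmk S v) := by
    intro v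
    show SQmk S (ι (r (b0 v)) + σ (m (SQmk S v))) = _
    rw [map_add, hσ']
    have : SQmk S (ι (r (b0 v))) = 0 := (SQmk_eq_zero S).mpr (r (b0 v)).2
    rw [this, zero_add]
  have hY1s : ∀ s : ↥S, (Y1 (ι s) : V) = r s := by
    intro s
    have h1 : SQmk (q := q) S (ι s) = 0 := (SQmk_eq_zero S).mpr s.2
    show ((ι (r (b0 s)) + σ (m (SQmk S (ι s))) : ↥(perp q S)) : V) = _
    rw [h1, map_zero, map_zero, add_zero, hb']
    rfl
  -- the part on `V / S^⊥`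
  let φ : V →ₗ[L] Dual L ↥S := -(q.compl₂ (S.subtype ∘ₗ r))
  have hφ : ∀ v s, φ v s = - q v (r s) := fun v s => rfl
  let Y0 : End L V := ρ ∘ₗ φ + (perp q S).subtype ∘ₗ Y1 ∘ₗ a
  have hφ0 : ∀ v ∈ perp q S, φ v = 0 := by
    intro v hv
    ext s
    rw [hφ, hv _ (r s).2, neg_zero]
    rfl
  have hY0p : ∀ v : ↥(perp q S), Y0 v = Y1 v := by
    intro v
    show ρ (φ v) + (Y1 (a v) : V) = _
    rw [hφ0 v v.2, map_zero, zero_add, ha']
  have hY0s : ∀ s : ↥S, Y0 s = r s := by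
    intro s
    rw [← hY1s s]
    exact hY0p (ι s)
  have hY0q : ∀ v, ∀ s : ↥S, q (Y0 v) s = - q v (r s) := by
    intro v s
    show q (ρ (φ v) + (Y1 (a v) : V)) s = _
    rw [map_add, LinearMap.add_apply, hρ, hφ, (Y1 (a v)).2 s s.2, add_zero]
  -- the adjoint
  obtain ⟨D, hD⟩ := hq.exists_end (q.compl₂ Y0)
  have hD' : ∀ u v, q (D u) v = q u (Y0 v) := fun u v => hD u v
  have hDs : ∀ s : ↥S, D s = - r s := by
    intro s
    apply hq.ext
    intro w
    rw [hD', hq.symm, hY0q, map_neg, LinearMap.neg_apply, hq.symm w]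
  have hDp : ∀ v : ↥(perp q S), D v ∈ perp q S := by
    intro v s hs
    rw [hD', hY0s ⟨s, hs⟩]
    exact v.2 _ (r ⟨s, hs⟩).2
  have hDm : ∀ v : ↥(perp q S), SQmk S ⟨D v, hDp v⟩ = - m (SQmk S v) := by
    intro v
    apply (isForm_qSQ S hq).ext
    intro x
    obtain ⟨w, rfl⟩ := SQmk_surjective S x
    rw [qSQ_apply, map_neg, LinearMap.neg_apply, hm, neg_neg, ← hY1, qSQ_apply]
    show q (D v) w = q v (Y1 w)
    rw [hD', hY0p]
  refine ⟨(2 : L)⁻¹ • (Y0 - D), ?_, ?_, ?_⟩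
  · intro u v
    simp only [LinearMap.smul_apply, LinearMap.sub_apply, map_smul, map_sub, smul_eq_mul]
    rw [hD' u v, hq.symm u (D v), hD' v u, hq.symm v]
    ring
  · intro s
    rw [LinearMap.smul_apply, LinearMap.sub_apply, hY0s, hDs, sub_neg_eq_add, ← two_smul L,
      smul_smul, inv_mul_cancel₀ h2, one_smul]
  · intro v
    have h1 : ((2 : L)⁻¹ • (Y0 - D)) (v : V) = (((2 : L)⁻¹ • (Y1 v - ⟨D v, hDp v⟩) :
        ↥(perp q S)) : V) := by
      rw [LinearMap.smul_apply, LinearMap.sub_apply, hY0p]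
      rfl
    have h3 : ((2 : L)⁻¹ • (Y0 - D)) (v : V) ∈ perp q S := by
      rw [h1]
      exact Subtype.property _
    refine ⟨h3, ?_⟩
    have h4 : (⟨((2 : L)⁻¹ • (Y0 - D)) (v : V), h3⟩ : ↥(perp q S)) =
        (2 : L)⁻¹ • (Y1 v - ⟨D v, hDp v⟩) := Subtype.ext h1
    rw [h4, map_smul, map_sub, hY1, hDm, sub_neg_eq_add, ← two_smul L, smul_smul,
      inv_mul_cancel₀ h2, one_smul]

end Vale.Agent.P182.H62
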